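import Vale.Agent.P251.Z.CellsInst
import Vale.Agent.P251.M.ThFCInst
import Vale.Agent.P251.M.Orient
import Vale.Agent.P251.M.ActForm
import Vale.Agent.P251.Q.PSeries
import Vale.Agent.P251.F.Inv

/-!
# P251, part Z: the `p`-series of the formal group law of a Morava `K`-theory

`K` a commutative monoid of `T` with multiplicative Thom classes `o : Oriented F K`, and `W` the
corresponding family of Thom classes of the multiplicative theory of `K` (`IsFam`).  If `o` satisfies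
the height axiom of `IsMoravaPos` then the law `L` of `W.orientation` has
`[p](x) = v x^{p^n}` modulo `x^{p^n+1}`, i.e. `vv p i L = 0` for `i < n` and `vv p n L = v`.
-/

open CategoryTheory MonoidalCategory Limits Pretriangulated MonObj Matrix OnePoint
open Vale.Agent.P251.G Vale.Agent.P251.G.LC Vale.Agent.P251.I Vale.Agent.P251.T
  Vale.Agent.P251.M Vale.Agent.P251.S Vale.Agent.P217

set_option linter.unusedSectionVars false

universe v u

noncomputable section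

namespace Vale.Agent.P251.Z

/-! ### Space level: existence of the maps -/

/-- the standard homeomorphism `ℂ^n × ℂ^m ≅ ℂ^(n+m)` -/
def appendIso (n m : ℕ) : Cn n ⊗ Cn m ≅ Cn (n + m) :=
  LC.ofHomeo (X := LC.of ((Fin n → ℂ) × (Fin m → ℂ))) (Y := Cn (n + m)) (Fin.appendHomeomorph n m)

theorem isAppend_appendIso (n m : ℕ) : IsAppend (appendIso n m) := fun _ _ => rfl

/-- the zero section of the tensor power -/
def tensorPowerMap (r : ℕ) (A : Type) [Fintype A] : LC.of (Gr 1 A) ⟶ LC.of (Th 1 (Fin r → A)) :=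
  Q.cmap (Q.lineTpow r (ContinuousMap.id (Q.CP A))) ≫ Gr.zeroHom

theorem isTensorPower_map (r : ℕ) (A : Type) [Fintype A] :
    IsTensorPower r (tensorPowerMap r A) := fun x =>
  ⟨Gr.zero (Q.lineTpow r (ContinuousMap.id (Q.CP A)) x : Gr 1 (Fin r → A)), rfl, rfl, rfl⟩

/-- the zero section of the multiple -/
def multipleMap (r : ℕ) (A : Type) [Fintype A] :
    LC.of (Gr 1 A) ⟶ LC.of (Th r (Fin r × A)) :=
  Q.cmap (Y := LC.of (Gr r (Fin r × A))) ((Q.multB r A).toGr (Q.isRank_multB r)) ≫ Gr.zeroHom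

theorem isMultiple_map (r : ℕ) (A : Type) [Fintype A] :
    IsMultiple r (multipleMap r A) := fun x =>
  ⟨Gr.zero ((Q.multB r A).toGr (Q.isRank_multB r) x : Gr r (Fin r × A)), rfl, rfl, rfl⟩

/-! ### Spectra -/

variable {T : Type u} [Category.{v} T] [Preadditive T] [HasZeroObject T]
    [HasShift T ℤ] [∀ n : ℤ, (shiftFunctor T n).Additive] [Pretriangulated T]
    [MonoidalCategory T] [SymmetricCategory T] [TensorTriangulated T]
variable {F : SpaceFunctor T} {K : T} [MonObj K] [IsCommMonObj K] {Ev : EvenSpheres T}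

/-- A coherent identification of the spheres `S(ℂ^n)` with the even spheres. -/
structure SphId (F : SpaceFunctor T) (Ev : EvenSpheres T) where
  /-- the identification -/
  iso (n : ℕ) : SC F n ≅ Ev.S n
  add (n m : ℕ) (g : Cn n ⊗ Cn m ≅ Cn (n + m)) (hg : IsAppend g) (h : (n : ℤ) + m = (n + m : ℕ)) :
    (SCadd F g).hom ≫ (iso (n + m)).hom =
      ((iso n).hom ⊗ₘ (iso m).hom) ≫ (Ev.mu n m (n + m : ℕ) h).hom

variable (ε : SphId F Ev) (o : Oriented F K)

/-- `mulBy` corresponds to `actBy`. -/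
theorem mulBy_iso {N : ℕ} (a : SC F N ⟶ K) (g : Cn N ⊗ Cn 1 ≅ Cn (N + 1)) (hg : IsAppend g)
    (h : (N : ℤ) + (1 : ℕ) = (N + 1 : ℕ)) :
    mulBy F a g ≫ K ◁ (ε.iso 1).hom =
      K ◁ (ε.iso (N + 1)).hom ≫ actBy Ev h ((ε.iso N).inv ≫ a) := by
  unfold mulBy actBy
  have h1 : (ε.iso (N + 1)).hom ≫ (Ev.mu N (1 : ℕ) (N + 1 : ℕ) h).inv =
      (SCadd F g).inv ≫ ((ε.iso N).hom ⊗ₘ (ε.iso 1).hom) := by
    rw [Iso.comp_inv_eq, Category.assoc, ← ε.add N 1 g hg h, Iso.inv_hom_id_assoc]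
  have h3 : K ◁ (ε.iso (N + 1)).hom ≫ K ◁ (Ev.mu N (1 : ℕ) (N + 1 : ℕ) h).inv =
      K ◁ (SCadd F g).inv ≫ K ◁ ((ε.iso N).hom ⊗ₘ (ε.iso 1).hom) := by
    rw [← whiskerLeft_comp, h1, whiskerLeft_comp]
  have h2 : K ◁ ((ε.iso N).hom ⊗ₘ (ε.iso 1).hom) ≫ K ◁ (((ε.iso N).inv ≫ a) ▷ Ev.S (1 : ℕ)) =
      K ◁ (a ▷ SC F 1) ≫ K ◁ (K ◁ (ε.iso 1).hom) := by
    rw [← whiskerLeft_comp, ← whiskerLeft_comp, ← tensorHom_id, tensorHom_comp_tensorHom,
      Iso.hom_inv_id_assoc, Category.comp_id, tensorHom_def]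
  rw [reassoc_of% h3, reassoc_of% h2]
  simp only [Category.assoc]
  rw [associator_inv_naturality_right_assoc, whisker_exchange]

variable {s : F.S.obj CCF ⟶ (RSys K Ev).obj 0 1}

/-- The family `W` of Thom classes is the one of the orientation `o`. -/
def IsFam (W : ThomFam (RSys K Ev) F s) : Prop :=
  ∀ n N : ℕ, hq K Ev n _ (W.w n N) = o.θ n (Fin N) ≫ K ◁ (ε.iso n).hom

variable {ε} {o} {W : ThomFam (RSys K Ev) F s}

theorem IsFam.wI (h : IsFam ε o W) (n : ℕ) (A : Type) [Fintype A] [DecidableEq A] :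
    hq K Ev n _ (W.wI n A) = o.θ n A ≫ K ◁ (ε.iso n).hom := by
  rw [ThomFam.wI, hq_pull, h, ← Category.assoc]
  congr 1
  have hc : Fintype.card A ≤ Fintype.card (Fin (Fintype.card A)) := by simp
  have h1 := o.isom (TO.exists_isom hc).choose (TO.exists_isom hc).choose_spec
    (Th.map _ (TO.exists_isom hc).choose_spec)
    (Q.isIsomMap_map (n := n) (TO.exists_isom hc).choose (TO.exists_isom hc).choose_spec)
  exact h1

theorem IsFam.wC (h : IsFam ε o W) (n : ℕ) (A : Type) [Fintype A] :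
    hq K Ev n _ (W.wC n A) = o.θ n A ≫ K ◁ (ε.iso n).hom := by
  classical
  rw [W.wC_eq]
  exact h.wI n A

variable {hF : CofTriangles F} {hs : (RSys K Ev).IsSusp s}

theorem IsFam.tau (h : IsFam ε o W) (n : ℕ) (A : Type) [Fintype A] :
    (W.orientation hF hs).tau n A =
      tuel hF hs (ThFC.fc n A) n (o.θ n A ≫ K ◁ (ε.iso n).hom) := by
  rw [← h.wC n A]
  exact umk_tof (ThFC.fc n A) n (W.wC n A)

theorem IsFam.map_tau (h : IsFam ε o W) {n : ℕ} {A : Type} [Fintype A] {X : LC} (hX : FC X)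
    (f : X ⟶ LC.of (Th n A)) :
    (theory (RSys K Ev) F hF s hs).map f ((W.orientation hF hs).tau n A) =
      tuel hF hs hX n (sus F (X := ⟨X, hX⟩) (Y := thF n A) f ≫ o.θ n A ≫ K ◁ (ε.iso n).hom) := by
  rw [h.tau, map_tuel hX (ThFC.fc n A)]

/-- **The `p`-series of a Morava `K`-theory.** -/
theorem IsFam.pSeries (h : IsFam ε o W) {p n : ℕ} (hK : IsMoravaPos F p n o) (N : ℕ)
    (hN : N + 1 = p ^ n) : ∃ (v : SC F N ⟶ K) (w : 𝟙_ T ⟶ K ⊗ SC F N),
      w ≫ K ◁ v ≫ μ[K] = η[K] ∧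
      (∀ l ≤ N, PowerSeries.coeff l (multSeries (W.orientation hF hs).law.toFG p) = 0) ∧
      PowerSeries.coeff (N + 1) (multSeries (W.orientation hF hs).law.toFG p) =
        coefOf hF hs ((ε.iso N).inv ≫ v) := by
  obtain ⟨v, w, hw, hv⟩ := hK.height N hN
  refine ⟨v, w, hw, ?_⟩
  have h1 := hv (appendIso N 1) (isAppend_appendIso N 1) (tensorPowerMap p (Fin (N + 2)))
    (isTensorPower_map p _) (multipleMap (N + 1) (Fin (N + 2))) (isMultiple_map (N + 1) _)
  refine Q.coeff_multSeries_of_rel (W.orientation hF hs) p N _ (tensorPowerMap p (Fin (N + 2)))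
    (isTensorPower_map p _) (multipleMap (N + 1) (Fin (N + 2))) (isMultiple_map (N + 1) _) ?_
  have hc : (N : ℤ) + (1 : ℕ) = (N + 1 : ℕ) := by push_cast; rfl
  rw [h.map_tau (Cells.gr 1 (Fin (N + 2))), h.map_tau (Cells.gr 1 (Fin (N + 2))),
    smul_tuel (Cells.gr 1 (Fin (N + 2))) hc, Category.assoc, Category.assoc,
    ← mulBy_iso ε v (appendIso N 1) (isAppend_appendIso N 1) hc, ← Category.assoc, h1]
  simp only [Category.assoc]

/-- **The height of a Morava `K`-theory**: `v_i = 0` for `i < n` and `v_n = v` is a unit. -/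
theorem IsFam.vv (h : IsFam ε o W) {p n : ℕ} (hp : 1 < p) (hK : IsMoravaPos F p n o) (N : ℕ)
    (hN : N + 1 = p ^ n) : ∃ (v : SC F N ⟶ K) (w : 𝟙_ T ⟶ K ⊗ SC F N),
      w ≫ K ◁ v ≫ μ[K] = η[K] ∧
      (∀ i < n, Vale.Agent.P251.F.vv p i ((W.orientation hF hs).law.map (coeffHom hF hs)) = 0) ∧
      Vale.Agent.P251.F.vv p n ((W.orientation hF hs).law.map (coeffHom hF hs)) =
        HRing.of Ev K N ((ε.iso N).inv ≫ v) := by
  obtain ⟨v, w, hw, h1, h2⟩ := h.pSeries (hF := hF) (hs := hs) hK N hN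
  refine ⟨v, w, hw, fun i hi => ?_, ?_⟩
  · have h3 : p ^ i ≤ N := by
      have : p ^ i < p ^ n := Nat.pow_lt_pow_right hp hi
      omega
    rw [Vale.Agent.P251.F.vv_map, Vale.Agent.P251.F.vv, h1 _ h3, map_zero]
  · rw [Vale.Agent.P251.F.vv_map, Vale.Agent.P251.F.vv, ← hN, h2, coeffHom_coefOf]

end Vale.Agent.P251.Z
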