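import Vale.Agent.P251.Z.OrK
import Vale.Agent.P251.Z.OrHeight

/-!
# P251, part Z: the family of Thom classes of an oriented ring spectrum

* `sphId e : SphId F E`;
* `famK e o : ThomFam (RSys K E) F (lineCls e (SeqMonoid.const K))`;
* `isFam_famK : IsFam (sphId e) o (famK e o)`.
-/

open CategoryTheory MonoidalCategory Limits Pretriangulated MonObj Matrix OnePoint Topology

set_option linter.unusedSectionVars false

universe v u

noncomputable section

namespace Vale.Agent.P251.Z

open Vale.Agent.P251.G Vale.Agent.P251.G.LC Vale.Agent.P251.I Vale.Agent.P251.T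
  Vale.Agent.P251.M

variable {T : Type u} [Category.{v} T] [Preadditive T] [HasZeroObject T]
    [HasShift T ℤ] [∀ n : ℤ, (shiftFunctor T n).Additive] [Pretriangulated T]
    [MonoidalCategory T] [SymmetricCategory T] [TensorTriangulated T]
  {F : SpaceFunctor T} {E : EvenSpheres T} (e : F.S.obj CCF ≅ E.L)

/-- The identification `Σ ℂ^n ≅ E.S n`. -/
def sphId : SphId F E where
  iso n := asIso (sph e n)
  add n m g hg h := by
    have h1 := isAppend_ext hg (isAppend_appIso n m)
    subst h1
    refine Eq.trans ?_ (sph_append e n m h)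
    exact Category.assoc _ _ _

variable {K : T} [MonObj K] [IsCommMonObj K] (o : Oriented F K)

theorem famK_j (n : ℕ) {I J : Type} [Fintype I] [Fintype J] [DecidableEq I] [DecidableEq J]
    (h : Fintype.card I ≤ Fintype.card J) :
    (RSys K E).pull n (TO.j F.S n h) (thH e o n J) = thH e o n I := by
  unfold thH
  rw [clK_pull]
  exact congrArg (clK E K) (thE_isom e o _ _)

theorem famK_sum {n m : ℕ} {I J : Type} [Fintype I] [Fintype J] [DecidableEq I] [DecidableEq J]
    (hk : (n : ℤ) + m = ((n + m : ℕ) : ℤ)) :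
    (RSys K E).pull (n + m : ℕ) (TO.sum F.S (n := n) (m := m) (I := I) (J := J) rfl)
      (thH e o (n + m) (I ⊕ J)) = (RSys K E).xprod hk (thH e o n I) (thH e o m J) := by
  unfold thH
  rw [clK_pull, clK_xprod, ← thE_sum e o hk]

/-- The Thom classes of `K` as a multiplicative family. -/
def famK : ThomFam (RSys K E) F (lineCls e (SeqMonoid.const K)) where
  w n N := thH e o n (Fin N)
  w_j n {N N'} h := famK_j e o n _
  w_mul {n m k N N' K'} h h' hk := by
    subst h
    rw [← famK_sum e o hk, ← famK_j e o (n + m) (I := Fin N ⊕ Fin N') (J := Fin K')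
      (by simpa using h')]
    exact MSys.pull_comp _ _ _
  w_unit := by
    have h3 : (RSys K E).unit = clK E K (k := 0) ((λ_ (𝟙_ T)).inv ≫ (η[K] ⊗ₘ E.z)) := rfl
    rw [h3, ← thE_unit e o (I := Fin 0)]
    rfl
  w_one := by
    have h1 : (RSys K E).pull 1 (F.S.map (FCat.hom (X := CCF) (Y := ThF 1 Unit) lineTh) ≫
        TO.j F.S (I := Unit) (J := Fin 1) 1 (by simp)) (thH e o 1 (Fin 1)) =
        (RSys K E).pull 1 (F.S.map (FCat.hom (X := CCF) (Y := ThF 1 Unit) lineTh))
          (thH e o 1 Unit) := by
      rw [← famK_j e o 1 (I := Unit) (J := Fin 1) (by simp)]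
      exact MSys.pull_comp _ _ _
    refine h1.trans ?_
    exact congrArg (clK E K (k := 1)) (thE_line e o)

theorem isFam_famK : IsFam (sphId e) o (famK e o) := fun _ _ => rfl

end Vale.Agent.P251.Z
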