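import Vale.Agent.P251.S.Defs

/-!
# P251, part Z: the final diagram chase

`no_retraction`: the abstract form of the final argument.
-/

open CategoryTheory MonoidalCategory Limits Pretriangulated

universe v u

namespace Vale.Agent.P251.Z

open Vale.Agent.P251.T Vale.Agent.P251.S

section Defs

variable {T : Type u} [Category.{v} T] [MonoidalCategory T] [Preadditive T]

omit [Preadditive T] in
theorem acyclic_of_iso {K W W' : T} (e : W ≅ W') (h : Acyclic K W) : Acyclic K W' :=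
  IsZero.of_iso h (whiskerLeftIso K e.symm)

/-- If all `K'`-acyclic objects are `K`-acyclic, then all `K`-local objects are `K'`-local. -/
theorem isLocal_mono {K K' Y : T} (h : ∀ W : T, Acyclic K' W → Acyclic K W)
    (hY : IsLocal K Y) : IsLocal K' Y :=
  fun W hW f => hY (h W hW) f

end Defs

section Tri

variable {T : Type u} [Category.{v} T] [Preadditive T] [HasZeroObject T]
  [HasShift T ℤ] [∀ n : ℤ, (shiftFunctor T n).Additive] [Pretriangulated T]
  [MonoidalCategory T] [SymmetricCategory T] [TensorTriangulated T]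

/-- `K ⊗ W⟦1⟧ ≅ (K ⊗ W)⟦1⟧`. -/
noncomputable def tensorShiftIso (K W : T) : K ⊗ (W⟦(1 : ℤ)⟧) ≅ (K ⊗ W)⟦(1 : ℤ)⟧ :=
  whiskerLeftIso K (TensorTriangulated.e W).symm ≪≫
    (α_ K W ((𝟙_ T)⟦(1 : ℤ)⟧)).symm ≪≫ TensorTriangulated.e (K ⊗ W)

omit [HasZeroObject T] [Pretriangulated T] [MonoidalCategory T] [SymmetricCategory T]
  [TensorTriangulated T] in
theorem isZero_shift_iff (X : T) (n : ℤ) : IsZero (X⟦n⟧) ↔ IsZero X := by
  constructor
  · intro h
    have h1 : IsZero (X⟦n⟧⟦(-n : ℤ)⟧) := Functor.map_isZero (shiftFunctor T (-n)) h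
    exact IsZero.of_iso h1 ((shiftFunctorCompIsoId T n (-n) (by simp)).symm.app X)
  · intro h
    exact Functor.map_isZero (shiftFunctor T n) h

theorem acyclic_shift_one_iff (K W : T) : Acyclic K (W⟦(1 : ℤ)⟧) ↔ Acyclic K W := by
  unfold Acyclic
  rw [← isZero_shift_iff (K ⊗ W) 1]
  exact Iso.isZero_iff (tensorShiftIso K W)

theorem acyclic_shift_neg_one_iff (K W : T) : Acyclic K (W⟦(-1 : ℤ)⟧) ↔ Acyclic K W := by
  rw [← acyclic_shift_one_iff K (W⟦(-1 : ℤ)⟧)]
  have e : W⟦(-1 : ℤ)⟧⟦(1 : ℤ)⟧ ≅ W := (shiftFunctorCompIsoId T (-1) 1 (by simp)).app W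
  exact ⟨fun h => acyclic_of_iso e h, fun h => acyclic_of_iso e.symm h⟩

/-- The cone of a `K`-equivalence is `K`-acyclic. -/
theorem acyclic_cone {K : T} {X Y C : T} {f : X ⟶ Y} {g : Y ⟶ C} {h : C ⟶ X⟦(1 : ℤ)⟧}
    (hT : Triangle.mk f g h ∈ distTriang T) (hf : IsIso (K ◁ f)) : Acyclic K C := by
  have h1 := TensorTriangulated.distinguished K _ hT
  exact (Triangle.isZero₃_iff_isIso₁ _ h1).2 hf

/-- A map from `X` to a `K`-local object factors through every `K`-equivalence `X ⟶ Y`. -/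
theorem isLocal_factor {K : T} {X Y Z : T} (hZ : IsLocal K Z) (f : X ⟶ Y)
    (hf : IsIso (K ◁ f)) (l : X ⟶ Z) : ∃ g : Y ⟶ Z, f ≫ g = l := by
  obtain ⟨C, g, h, hT⟩ := distinguished_cocone_triangle f
  have hC : Acyclic K C := acyclic_cone hT hf
  have hT' := inv_rot_of_distTriang _ hT
  have hC' : Acyclic K (C⟦(-1 : ℤ)⟧) := (acyclic_shift_neg_one_iff K C).2 hC
  obtain ⟨m, hm⟩ := Triangle.yoneda_exact₂ _ hT' l (hZ hC' _)
  exact ⟨m, hm.symm⟩

/-- Maps out of the target of a `K`-equivalence to a `K`-local object are determined by their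
restriction. -/
theorem isLocal_ext {K : T} {X Y Z : T} (hZ : IsLocal K Z) (f : X ⟶ Y)
    (hf : IsIso (K ◁ f)) {a b : Y ⟶ Z} (h : f ≫ a = f ≫ b) : a = b := by
  obtain ⟨C, g, w, hT⟩ := distinguished_cocone_triangle f
  have hC : Acyclic K C := acyclic_cone hT hf
  have h0 : f ≫ (a - b) = 0 := by rw [Preadditive.comp_sub, h, sub_self]
  obtain ⟨m, hm⟩ := Triangle.yoneda_exact₂ _ hT (a - b) h0
  have hm0 : m = 0 := hZ hC m
  rw [hm0, comp_zero] at hm
  exact sub_eq_zero.1 hm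

/-- The final argument: an element `f : P ⟶ Sp` which dies in the `K`-localization but not in some
`E`-local object obstructs retractions of the localized map `L_E Sp ⟶ L_E L_K Sp`. -/
theorem no_retraction {E : T} {P Sp X Z Y X'' : T} (f : P ⟶ Sp)
    (l : Sp ⟶ X) (hl : IsIso (E ◁ l)) (z : Sp ⟶ Z) (y : Z ⟶ Y)
    (i : X ⟶ Y) (hi : l ≫ i = z ≫ y) (hI : f ≫ z = 0)
    (l'' : Sp ⟶ X'') (hX : IsLocal E X'') (hII : f ≫ l'' ≠ 0) :
    ¬ ∃ r : Y ⟶ X, i ≫ r = 𝟙 X := by
  rintro ⟨r, hr⟩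
  obtain ⟨g, hg⟩ := isLocal_factor hX l hl l''
  apply hII
  have h1 : f ≫ l = 0 := by
    calc f ≫ l = f ≫ l ≫ i ≫ r := by rw [hr, Category.comp_id]
      _ = f ≫ (l ≫ i) ≫ r := by simp only [Category.assoc]
      _ = (f ≫ z) ≫ y ≫ r := by rw [hi]; simp only [Category.assoc]
      _ = 0 := by rw [hI, zero_comp]
  rw [← hg, ← Category.assoc, h1, zero_comp]

end Tri

end Vale.Agent.P251.Z
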