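import Vale.Agent.P251.S.KosData
import Vale.Agent.P251.Z.Chase

/-!
# P251, part Z: modules which are acyclic for the Koszul object

If `N` is a `P`-module on which `v_0, …, v_{h-1}` are nilpotent and `v_h` is invertible, then
`N ⊗ K = 0` implies `N = 0`, where `K = K_h` is the external Koszul object. Consequently
every `K_h`-acyclic object is acyclic for every such `N`: for example for a Morava `K`-theory.
-/

open CategoryTheory MonoidalCategory Limits MonObj Pretriangulated

set_option linter.unusedSectionVars false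

universe v u

namespace Vale.Agent.P251.Z

open T S

variable {T : Type u} [Category.{v} T] [Preadditive T] [HasZeroObject T] [HasShift T ℤ]
  [∀ n : ℤ, (shiftFunctor T n).Additive] [Pretriangulated T]
  [MonoidalCategory T] [SymmetricCategory T] [TensorTriangulated T] [MonoidalClosed T]
  [HasCoproducts.{0} T]
  {P : T} [MonObj P] [IsCommMonObj P] {p : ℤ} {h : ℕ} {v : ℕ → (𝟙_ T ⟶ P)}
  (D : KosData P p h v) {N : T}

omit [Preadditive T] [HasZeroObject T] [HasShift T ℤ]
  [∀ n : ℤ, (shiftFunctor T n).Additive] [Pretriangulated T] [SymmetricCategory T]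
  [TensorTriangulated T] [MonoidalClosed T] [HasCoproducts.{0} T] [IsCommMonObj P] in
/-- a module is a retract of the free module on it -/
theorem ModStr.unit_act (M : ModStr P N) : (λ_ N).inv ≫ (η[P] ▷ N) ≫ M.act = 𝟙 N := by
  rw [M.one_act, Iso.inv_hom_id]

theorem isZero_of_tensor_ring (M : ModStr P N) (hz : IsZero (N ⊗ P)) : IsZero N := by
  have h1 : IsZero (P ⊗ N) := IsZero.of_iso hz (β_ P N)
  rw [IsZero.iff_id_eq_zero, ← ModStr.unit_act M, h1.eq_of_tgt (η[P] ▷ N) 0, zero_comp,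
    comp_zero]

/-- a nilpotent isomorphism lives on the zero object -/
theorem isZero_of_nilpotent_iso {X : T} {f : End X} (hn : IsNilpotent f)
    (hi : IsIso (f : X ⟶ X)) : IsZero X := by
  obtain ⟨n, hn⟩ := hn
  have hu : IsUnit f := (isUnit_iff_isIso (f := f)).2 hi
  have h0 : IsUnit (0 : End X) := hn ▸ hu.pow n
  have h1 : (1 : End X) = 0 := by
    obtain ⟨g, hg⟩ := h0.exists_right_inv
    rw [← hg, zero_mul]
  rw [IsZero.iff_id_eq_zero]
  exact h1

omit [IsCommMonObj P] in
/-- first factor, `i = 0` -/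
theorem isZero_of_Q_zero (hn : IsNilpotent (p • (1 : End N))) (hz : IsZero (N ⊗ D.Q 0)) :
    IsZero N := by
  have h1 : IsIso (N ◁ (p • 𝟙 (𝟙_ T))) := isIso_of_isZero_cof (tens_dist N D.dist0) hz
  have h2 : N ◁ (p • 𝟙 (𝟙_ T)) = p • 𝟙 (N ⊗ 𝟙_ T) := by
    have := map_zsmul ((tensorLeft N).mapAddHom (X := 𝟙_ T) (Y := 𝟙_ T)) p (𝟙 _)
    change N ◁ (p • 𝟙 (𝟙_ T)) = p • (N ◁ 𝟙 (𝟙_ T)) at this
    rw [this, MonoidalCategory.whiskerLeft_id]
  rw [h2] at h1
  have h3 : IsNilpotent (p • (1 : End (N ⊗ 𝟙_ T))) := by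
    refine isNilpotent_conj (ρ_ N).symm (f := p • (1 : End N)) ?_ hn
    change (ρ_ N).inv ≫ (p • 𝟙 _) = (p • 𝟙 _) ≫ (ρ_ N).inv
    simp
  exact IsZero.of_iso (isZero_of_nilpotent_iso h3 h1) (ρ_ N).symm

/-- the factors `Q i`, `i ≥ 1` -/
theorem isZero_of_Q_succ (M : ModStr P N) (i : ℕ) (hv : InvRel P v (i + 1))
    (hb : ∀ k < i + 1, IsNilpotent (M.sm (v k))) (hi : IsNilpotent (M.sm (v (i + 1))))
    (hz : IsZero (N ⊗ D.Q (i + 1))) : IsZero N := by
  have h1 : IsIso (N ◁ (ModStr.self P).smul (v (i + 1))) :=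
    isIso_of_isZero_cof (tens_dist N (D.dist i)) hz
  obtain ⟨j, hj⟩ := isNilpotent_endR P hi
  obtain ⟨-, m, g, hg, -⟩ := exists_dvd M v (i + 1) hv hb j
  rw [hj, zero_mul] at hg
  exact isZero_of_tensor_ring M (isZero_of_nilpotent_iso ⟨m, hg⟩ h1)

/-- the factor `Tl` -/
theorem isZero_of_Tl (M : ModStr P N) (hv : InvRel P v h)
    (hb : ∀ k < h, IsNilpotent (M.sm (v k))) (hi : IsIso (M.smul (v h)))
    (hz : IsZero (N ⊗ D.Tl)) : IsZero N := by
  obtain ⟨⟨m, g, hg, hgc⟩, -⟩ := exists_dvd M v h hv hb 1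
  rw [pow_one] at hg
  set x : End (N ⊗ P) := endL N P ((ModStr.self P).sm (v h)) with hx
  have hy : IsUnit (endR N P (M.sm (v h))) := by
    refine IsUnit.map _ ?_
    exact (isUnit_iff_isIso (f := M.sm (v h))).2 hi
  have hxg : IsUnit (x * g) := hg ▸ hy.pow m
  have hxu : IsUnit x := (hgc.isUnit_mul_iff.1 hxg).1
  have hxi : IsIso (N ◁ (ModStr.self P).smul (v h)) := (isUnit_iff_isIso (f := x)).1 hxu
  have h1 := Tel.isIso_const (D.isTel.tel.tensL N)
  exact isZero_of_tensor_ring M (IsZero.of_iso hz (@asIso _ _ _ _ _ h1))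

/-- If `v_0, …, v_{h-1}` are nilpotent on the `P`-module `N` and `v_h` is invertible on it, then
`N ⊗ K_h = 0` implies `N = 0`. -/
theorem isZero_of_tensor_K (M : ModStr P N) (hv : InvData P p h v) (hh : 1 ≤ h)
    (hb : ∀ k < h, IsNilpotent (M.sm (v k))) (hi : IsIso (M.smul (v h)))
    (hz : IsZero (N ⊗ D.K)) : IsZero N := by
  -- all the objects `N ⊗ kos i` vanish
  have key : ∀ j ≤ h, IsZero (N ⊗ D.kos (h - j)) := by
    intro j
    induction j with
    | zero =>
      intro _
      have h1 : IsZero ((N ⊗ D.kos h) ⊗ D.Tl) := IsZero.of_iso hz (α_ N (D.kos h) D.Tl)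
      refine isZero_of_Tl D (M.tensorRight (D.kos h)) (hv.inv h hh le_rfl) ?_ ?_ h1
      · intro k hk
        exact isNilpotent_tensorRight M _ _ (hb k hk)
      · rw [ModStr.tensorRight_smul]
        infer_instance
    | succ j ih =>
      intro hj
      have h1 := ih (by omega)
      obtain ⟨i, hi'⟩ : ∃ i, h - j = i + 1 := ⟨h - (j + 1), by omega⟩
      have hi'' : h - (j + 1) = i := by omega
      rw [hi'']
      rw [hi', KosData.kos_succ] at h1
      have h2 : IsZero ((N ⊗ D.kos i) ⊗ D.Q i) := IsZero.of_iso h1 (α_ N (D.kos i) (D.Q i))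
      match i, hi', h2 with
      | 0, _, h2 =>
        refine isZero_of_Q_zero D ?_ h2
        have h3 := isNilpotent_tensorRight M (D.kos 0) (v 0) (hb 0 (by omega))
        rw [hv.v0] at h3
        have h4 : (M.tensorRight (D.kos 0)).sm (p • η[P]) = p • (1 : End (N ⊗ D.kos 0)) := by
          have := map_zsmul (M.tensorRight (D.kos 0)).smulHom p η[P]
          change (M.tensorRight (D.kos 0)).smul (p • η[P]) =
            p • (M.tensorRight (D.kos 0)).smul η[P] at this
          change (M.tensorRight (D.kos 0)).smul (p • η[P]) = p • 𝟙 _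
          rw [this, ModStr.smul_one]
        rwa [h4] at h3
      | i + 1, hi', h2 =>
        refine isZero_of_Q_succ D (M.tensorRight (D.kos (i + 1))) i (hv.inv (i + 1) (by omega)
          (by omega)) ?_ ?_ h2
        · intro k hk
          exact isNilpotent_tensorRight M _ _ (hb k (by omega))
        · exact isNilpotent_tensorRight M _ _ (hb (i + 1) (by omega))
  have h0 := key h le_rfl
  rw [Nat.sub_self, KosData.kos_zero] at h0
  exact IsZero.of_iso h0 (ρ_ N).symm

/-- `K_h`-acyclic objects are acyclic for every `P`-module `N` on which `v_0, …, v_{h-1}` are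
nilpotent and `v_h` is invertible. -/
theorem acyclic_of_acyclic_K (M : ModStr P N) (hv : InvData P p h v) (hh : 1 ≤ h)
    (hb : ∀ k < h, IsNilpotent (M.sm (v k))) (hi : IsIso (M.smul (v h))) {W : T}
    (hW : Acyclic D.K W) : Acyclic N W := by
  refine isZero_of_tensor_K D (M.tensorRight W) hv hh ?_ ?_ ?_
  · intro k hk
    exact isNilpotent_tensorRight M _ _ (hb k hk)
  · rw [ModStr.tensorRight_smul]
    infer_instance
  · have h1 : IsZero (N ⊗ (D.K ⊗ W)) := Functor.map_isZero (tensorLeft N) hW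
    exact IsZero.of_iso h1 (α_ N W D.K ≪≫ whiskerLeftIso N (β_ W D.K))

/-- objects which are local for such an `N` are `K_h`-local -/
theorem isLocal_K_of_isLocal (M : ModStr P N) (hv : InvData P p h v) (hh : 1 ≤ h)
    (hb : ∀ k < h, IsNilpotent (M.sm (v k))) (hi : IsIso (M.smul (v h))) {Y : T}
    (hY : IsLocal N Y) : IsLocal D.K Y :=
  isLocal_mono (fun _ hW => acyclic_of_acyclic_K D M hv hh hb hi hW) hY

end Vale.Agent.P251.Z
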