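import Vale.Agent.P251.M.MUInv
import Vale.Agent.P251.Z.Acyc

/-!
# P251, part Z: comparison of the Koszul objects with complex oriented ring spectra

`D : MUData T`, `φ : D.R ⟶ K` a monoid map to a commutative monoid `K`. If the elements
`v_0, …, v_{n-1}` of the formal group law of `K` vanish and `v_n` is invertible, then the objects
which are acyclic for the Koszul object `K_n` of `D.P = D.R ⊗ PS` are `K`-acyclic.
-/

open CategoryTheory MonoidalCategory Limits Pretriangulated MonObj

set_option linter.unusedSectionVars false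

universe v u

namespace Vale.Agent.P251.Z

open Vale.Agent.P251.T Vale.Agent.P251.M Vale.Agent.P251.S Vale.Agent.P251.F Vale.Agent.P251.I

section restr

variable {T : Type u} [Category.{v} T] [MonoidalCategory T]

/-- The restriction of a module structure along a monoid map. -/
def restr {R R' N : T} [MonObj R] [MonObj R'] (f : R ⟶ R') [IsMonHom f] (M : ModStr R' N) :
    ModStr R N where
  act := (f ▷ N) ≫ M.act
  one_act := by
    rw [← Category.assoc, ← comp_whiskerRight, IsMonHom.one_hom, M.one_act]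
  mul_act := by
    rw [← Category.assoc, ← comp_whiskerRight, IsMonHom.mul_hom, comp_whiskerRight,
      Category.assoc, M.mul_act, tensorHom_def, comp_whiskerRight]
    simp only [Category.assoc, whisker_assoc, Iso.inv_hom_id_assoc, whiskerLeft_comp]
    rw [associator_naturality_left_assoc, ← whisker_exchange_assoc, whisker_exchange_assoc f M.act]

theorem restr_smul {R R' N : T} [MonObj R] [MonObj R'] (f : R ⟶ R') [IsMonHom f]
    (M : ModStr R' N) (a : 𝟙_ T ⟶ R) : (restr f M).smul a = M.smul (a ≫ f) := by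
  unfold ModStr.smul restr
  rw [comp_whiskerRight]
  simp only [Category.assoc]

end restr

variable {T : Type u} [Category.{v} T] [Preadditive T] [HasZeroObject T]
    [HasShift T ℤ] [∀ n : ℤ, (shiftFunctor T n).Additive] [Pretriangulated T]
    [MonoidalCategory T] [SymmetricCategory T] [TensorTriangulated T] [MonoidalClosed T]
    [HasCoproducts.{0} T]

/-- a homogeneous element is determined by its class in the graded ring -/
theorem hring_of_injective (E : EvenSpheres T) (K : T) (n : ℤ) :
    Function.Injective (HRing.of E K n) :=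
  DirectSum.of_injective (β := fun n : ℤ => (E.S n ⟶ K)) n

variable (D : MUData T) {K : T} [MonObj K] [IsCommMonObj K] (φ : D.R ⟶ K) [IsMonHom φ]

/-- `K ⊗ PS` as a module over `P` -/
noncomputable def modP : ModStr D.P (K ⊗ (stdEven T).PS) :=
  restr (φ ▷ (stdEven T).PS) (ModStr.self (K ⊗ (stdEven T).PS))

theorem vs_comp (p i : ℕ) : (D.vs p i ≫ (φ ▷ (stdEven T).PS) : 𝟙_ T ⟶ K ⊗ (stdEven T).PS) =
    sharpHom K (vv p i (D.law.map (HRing.map φ))) := by
  rw [vv_map, D.vel_spec p i, HRing.map_of, sharpHom_of]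
  exact (sharp_comp _ _).symm

theorem modP_smul (p i : ℕ) : (modP D φ).smul (D.vs p i) =
    (ModStr.self (K ⊗ (stdEven T).PS)).smul
      (sharpHom K (vv p i (D.law.map (HRing.map φ)))) := by
  rw [← vs_comp]
  exact restr_smul _ _ _

theorem isNilpotent_modP (p i : ℕ)
    (h : IsNilpotent (vv p i (D.law.map (HRing.map (E := stdEven T) φ)))) :
    IsNilpotent ((modP D φ).sm (D.vs p i)) := by
  have h1 : (modP D φ).sm (D.vs p i) = (ModStr.self (K ⊗ (stdEven T).PS)).smr
      (sharpHom K (vv p i (D.law.map (HRing.map φ)))) := modP_smul D φ p i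
  rw [h1]
  exact (h.map (sharpHom K)).map _

theorem isIso_modP (p i : ℕ)
    (h : IsUnit (vv p i (D.law.map (HRing.map (E := stdEven T) φ)))) :
    IsIso ((modP D φ).smul (D.vs p i)) := by
  have h1 : (modP D φ).sm (D.vs p i) = (ModStr.self (K ⊗ (stdEven T).PS)).smr
      (sharpHom K (vv p i (D.law.map (HRing.map φ)))) := modP_smul D φ p i
  have h2 : IsUnit ((modP D φ).sm (D.vs p i)) := by
    rw [h1]
    exact (h.map (sharpHom K)).map _
  exact (isUnit_iff_isIso (f := (modP D φ).sm (D.vs p i))).1 h2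

/-- `K` is a retract of `K ⊗ PS`: acyclicity for `K ⊗ PS` implies acyclicity for `K`. -/
theorem acyclic_of_acyclic_PS (E : EvenSpheres T) {K W : T} (h : Acyclic (K ⊗ E.PS) W) :
    Acyclic K W := by
  unfold Acyclic at h ⊢
  have h1 : (E.inPS 0 ≫ E.pr 0) = 𝟙 _ := by
    rw [E.inPS_pr 0 0 rfl, EvenSpheres.castIso_refl, Iso.refl_hom]
  have e : (K ◁ E.inPS 0) ▷ W ≫ (K ◁ E.pr 0) ▷ W = 𝟙 ((K ⊗ E.S 0) ⊗ W) := by
    rw [← comp_whiskerRight, ← whiskerLeft_comp, h1]
    simp
  have h2 : IsZero ((K ⊗ E.S 0) ⊗ W) := by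
    rw [IsZero.iff_id_eq_zero, ← e, h.eq_of_tgt ((K ◁ E.inPS 0) ▷ W) 0, zero_comp]
  exact IsZero.of_iso h2 (whiskerRightIso (ρ_ K).symm W)

/-- **Comparison (a)**: Koszul acyclic objects are `K`-acyclic. -/
theorem acyclic_of_height (p : ℕ) [Fact p.Prime] {n : ℕ} (hn : 1 ≤ n)
    (h0 : ∀ i < n, IsNilpotent (vv p i (D.law.map (HRing.map (E := stdEven T) φ))))
    (h1 : IsUnit (vv p n (D.law.map (HRing.map (E := stdEven T) φ))))
    (Z : KosData D.P (p : ℤ) n (D.vs p)) {W : T} (hW : Acyclic Z.K W) : Acyclic K W :=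
  acyclic_of_acyclic_PS (stdEven T) (acyclic_of_acyclic_K Z (modP D φ) (D.invData p n) hn
    (fun i hi => isNilpotent_modP D φ p i (h0 i hi)) (isIso_modP D φ p n h1) hW)

end Vale.Agent.P251.Z
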