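import Vale.Agent.P251.Z.LinMaps
import Vale.Agent.P251.M.GBasis
import Vale.Agent.P251.S.AmitsurCup

/-!
# P251, part Z: `P ⊗ P` is a free `P`-module for `P = R ⊗ PS`

`PFree P Y`: the `P`-module `Y ⊗ P` is a coproduct of copies of `P`.  Spheres, coproducts, tensor
products; `R` itself from a graded basis of `R ⊗ R`.
-/

open CategoryTheory MonoidalCategory Limits MonObj

set_option linter.unusedSectionVars false

universe v u

namespace Vale.Agent.P251.Z

open Vale.Agent.P251.S Vale.Agent.P251.M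

section Basic

variable {T : Type u} [Category.{v} T] [MonoidalCategory T] [SymmetricCategory T]

/-- Left multiplication by the second factor. -/
lemma inrM_mul_perm (R B : T) [MonObj R] [MonObj B] :
    inrM R B ▷ (R ⊗ B) ≫ μ[R ⊗ B] = perm B R B ≫ R ◁ μ[B] := by
  have h1 : μ[R ⊗ B] = tensorμ R B R B ≫ (μ[R] ⊗ₘ μ[B]) := rfl
  have h2 : (η[R] ▷ B) ▷ (R ⊗ B) ≫ tensorμ R B R B =
      tensorμ (𝟙_ T) B R B ≫ ((η[R] ▷ R) ▷ (B ⊗ B)) := by
    have h := tensorμ_natural η[R] (𝟙 B) (𝟙 R) (𝟙 B)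
    simpa only [tensorHom_id, id_tensorHom, id_whiskerRight, MonoidalCategory.whiskerLeft_id]
      using h
  have h3 : tensorμ (𝟙_ T) B R B ≫ ((λ_ R).hom ▷ (B ⊗ B)) = ((λ_ B).hom ▷ (R ⊗ B)) ≫
      perm B R B := by
    unfold tensorμ perm
    monoidal
  rw [inrM, comp_whiskerRight, Category.assoc, h1, reassoc_of% h2, tensorHom_def,
    ← comp_whiskerRight_assoc, MonObj.one_mul, reassoc_of% h3, ← comp_whiskerRight_assoc,
    Iso.inv_hom_id, id_whiskerRight, Category.id_comp]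

/-- Right multiplication by the second factor. -/
lemma mul_inrM (A C : T) [MonObj A] [MonObj C] :
    (A ⊗ C) ◁ inrM A C ≫ μ[A ⊗ C] = (α_ A C C).hom ≫ A ◁ μ[C] := by
  have h1 : μ[A ⊗ C] = tensorμ A C A C ≫ (μ[A] ⊗ₘ μ[C]) := rfl
  have h2 : (A ⊗ C) ◁ (η[A] ▷ C) ≫ tensorμ A C A C =
      tensorμ A C (𝟙_ T) C ≫ ((A ◁ η[A]) ▷ (C ⊗ C)) := by
    have h := tensorμ_natural (𝟙 A) (𝟙 C) η[A] (𝟙 C)
    simpa only [tensorHom_id, id_tensorHom, id_whiskerRight, MonoidalCategory.whiskerLeft_id]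
      using h
  have h3 : (A ⊗ C) ◁ (λ_ C).inv ≫ tensorμ A C (𝟙_ T) C ≫ ((ρ_ A).hom ▷ (C ⊗ C)) =
      (α_ A C C).hom := by
    unfold tensorμ
    rw [braiding_tensorUnit_right]
    monoidal
  rw [inrM, MonoidalCategory.whiskerLeft_comp, Category.assoc, h1, reassoc_of% h2, tensorHom_def,
    ← comp_whiskerRight_assoc, MonObj.mul_one, reassoc_of% h3]

variable {P : T} [MonObj P]

lemma Lin.whiskerRight {Y Y' : T} {f : P ⟶ Y ⊗ P} (hf : Lin f) (e : Y ⟶ Y') :
    Lin (f ≫ e ▷ P) := by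
  unfold Lin at *
  rw [reassoc_of% hf, whisker_exchange, reassoc_of% perm_natural₂,
    MonoidalCategory.whiskerLeft_comp, Category.assoc]

lemma Lin.tensor {Y Y' : T} {f : P ⟶ Y ⊗ P} {f' : P ⟶ Y' ⊗ P} (hf : Lin f) (hf' : Lin f') :
    Lin (f ≫ Y ◁ f' ≫ (α_ Y Y' P).inv) := by
  unfold Lin at *
  have h1 : P ◁ (α_ Y Y' P).inv ≫ perm P (Y ⊗ Y') P =
      perm P Y (Y' ⊗ P) ≫ Y ◁ perm P Y' P ≫ (α_ Y Y' (P ⊗ P)).inv := by
    unfold perm
    rw [BraidedCategory.braiding_tensor_right_hom]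
    monoidal
  rw [reassoc_of% hf, ← MonoidalCategory.whiskerLeft_comp_assoc, hf']
  simp only [MonoidalCategory.whiskerLeft_comp, Category.assoc]
  rw [reassoc_of% h1, ← reassoc_of% perm_natural₃ P Y f', associator_inv_naturality_right]

end Basic

section Free

variable {T : Type u} [Category.{v} T] [MonoidalCategory T] [SymmetricCategory T]
  [MonoidalClosed T] [HasCoproducts.{0} T]

/-- Composition of decompositions, dependent form. -/
theorem isIso_desc_sigma {J : Type} {K : J → Type} {F : ∀ j, K j → T} {G : J → T} {H : T}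
    (f : ∀ j k, F j k ⟶ G j) (g : ∀ j, G j ⟶ H)
    (hf : ∀ j, IsIso (Sigma.desc (f j))) (hg : IsIso (Sigma.desc g)) :
    IsIso (Sigma.desc fun jk : (Σ j, K j) => f jk.1 jk.2 ≫ g jk.1) := by
  have hf' : ∀ j k, f j k ≫ inv (Sigma.desc (f j)) = Sigma.ι (F j) k := fun j k => by
    rw [← cancel_mono (Sigma.desc (f j))]
    simp
  have hg' : ∀ j, g j ≫ inv (Sigma.desc g) = Sigma.ι G j := fun j => by
    rw [← cancel_mono (Sigma.desc g)]
    simp
  refine ⟨⟨inv (Sigma.desc g) ≫ Sigma.desc (fun j => inv (Sigma.desc (f j)) ≫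
    Sigma.desc (fun k => Sigma.ι (fun jk : (Σ j, K j) => F jk.1 jk.2) ⟨j, k⟩)), ?_, ?_⟩⟩
  · refine Sigma.hom_ext _ _ fun jk => ?_
    obtain ⟨j, k⟩ := jk
    rw [Sigma.ι_desc_assoc, Category.assoc, reassoc_of% hg', Sigma.ι_desc, reassoc_of% hf',
      Sigma.ι_desc, Category.comp_id]
  · rw [Category.assoc, ← cancel_epi (Sigma.desc g), IsIso.hom_inv_id_assoc, Category.comp_id]
    refine Sigma.hom_ext _ _ fun j => ?_
    rw [Sigma.ι_desc_assoc, Sigma.ι_desc, Category.assoc, ← cancel_epi (Sigma.desc (f j)),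
      IsIso.hom_inv_id_assoc]
    refine Sigma.hom_ext _ _ fun k => ?_
    rw [Sigma.ι_desc_assoc, Sigma.ι_desc, Sigma.ι_desc_assoc]

/-- Tensoring a coproduct decomposition on the left. -/
lemma isIso_desc_whiskerLeft {J : Type} {F : J → T} {B : T} (f : ∀ j, F j ⟶ B)
    (h : IsIso (Sigma.desc f)) (Y : T) : IsIso (Sigma.desc fun j => Y ◁ f j) := by
  have h1 : Sigma.desc (fun j => Y ◁ f j) =
      (Sigma.desc fun j => Y ◁ Sigma.ι F j) ≫ (Y ◁ Sigma.desc f) := by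
    refine Sigma.hom_ext _ _ fun j => ?_
    rw [Sigma.ι_desc, Sigma.ι_desc_assoc, ← MonoidalCategory.whiskerLeft_comp, Sigma.ι_desc]
  have h2 : IsIso (Sigma.desc fun j => Y ◁ Sigma.ι F j) := by
    refine ⟨⟨descL Y (fun j => Sigma.ι (fun j => Y ⊗ F j) j), ?_, ?_⟩⟩
    · refine Sigma.hom_ext _ _ fun j => ?_
      rw [Sigma.ι_desc_assoc, whiskerLeft_ι_descL, Category.comp_id]
    · refine hom_extL Y fun j => ?_
      rw [whiskerLeft_ι_descL_assoc, Sigma.ι_desc, Category.comp_id]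
  rw [h1]
  infer_instance

lemma isIso_desc_comp_iso {J : Type} {F : J → T} {B B' : T} (f : ∀ j, F j ⟶ B)
    (h : IsIso (Sigma.desc f)) (e : B ⟶ B') [IsIso e] :
    IsIso (Sigma.desc fun j => f j ≫ e) := by
  have h1 : Sigma.desc (fun j => f j ≫ e) = Sigma.desc f ≫ e := by
    refine Sigma.hom_ext _ _ fun j => ?_
    simp
  rw [h1]
  infer_instance

/-- The `P`-module `Y ⊗ P` is a coproduct of copies of `P`. -/
def PFree (P : T) [MonObj P] (Y : T) : Prop :=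
  ∃ (J : Type) (f : J → (P ⟶ Y ⊗ P)), (∀ a, Lin (f a)) ∧ IsIso (Sigma.desc f)

namespace PFree

variable {P : T} [MonObj P]

/-- One generator. -/
lemma of_isIso {Y : T} (f : P ⟶ Y ⊗ P) (hf : Lin f) [IsIso f] : PFree P Y :=
  ⟨Unit, fun _ => f, fun _ => hf, ⟨inv f ≫ Sigma.ι (fun _ : Unit => P) (), by
    refine Sigma.hom_ext _ _ fun a => ?_
    rw [Sigma.ι_desc_assoc, IsIso.hom_inv_id_assoc, Category.comp_id], by
    rw [Category.assoc, Sigma.ι_desc, IsIso.inv_hom_id]⟩⟩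

lemma iso {Y Y' : T} (h : PFree P Y) (e : Y ⟶ Y') [IsIso e] : PFree P Y' := by
  obtain ⟨J, f, hf, hi⟩ := h
  exact ⟨J, fun a => f a ≫ e ▷ P, fun a => (hf a).whiskerRight e,
    isIso_desc_comp_iso f hi (e ▷ P)⟩

lemma tensor {Y Y' : T} (h : PFree P Y) (h' : PFree P Y') : PFree P (Y ⊗ Y') := by
  obtain ⟨J, f, hf, hi⟩ := h
  obtain ⟨J', f', hf', hi'⟩ := h'
  refine ⟨J' × J, fun a => f a.2 ≫ Y ◁ f' a.1 ≫ (α_ Y Y' P).inv,
    fun a => (hf a.2).tensor (hf' a.1), ?_⟩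
  exact isIso_desc_trans f (fun b => Y ◁ f' b ≫ (α_ Y Y' P).inv) hi
    (isIso_desc_comp_iso _ (isIso_desc_whiskerLeft f' hi' Y) _)

lemma coprod {I : Type} (Y : I → T) (h : ∀ i, PFree P (Y i)) : PFree P (∐ Y) := by
  choose J f hf hi using h
  refine ⟨Σ i, J i, fun a => f a.1 a.2 ≫ Sigma.ι Y a.1 ▷ P, fun a => (hf a.1 a.2).whiskerRight _,
    ?_⟩
  refine isIso_desc_sigma f (fun i => Sigma.ι Y i ▷ P) hi ?_
  refine isIso_desc_whiskerRight _ ?_ P
  have h1 : Sigma.desc (Sigma.ι Y) = 𝟙 _ := by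
    refine Sigma.hom_ext _ _ fun i => ?_
    simp
  rw [h1]
  infer_instance

end PFree

variable (E : EvenSpheres T) (R : T) [MonObj R]

/-- `twInv` as a multiplication. -/
lemma twInv_eq (k : ℤ) :
    E.twInv k = mulEl ((E.unitIso k).hom ≫ (E.S k ◁ E.inPS (-k))) := by
  unfold EvenSpheres.twInv EvenSpheres.tw mulEl
  simp only [comp_whiskerRight, MonoidalCategory.whiskerLeft_comp, Category.assoc]
  rw [associator_naturality_middle_assoc]

/-- Multiplication by an element of the second factor. -/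
lemma mulEl_second {B Y : T} [MonObj B] (γ : 𝟙_ T ⟶ Y ⊗ B) :
    mulEl (γ ≫ Y ◁ inrM R B) = R ◁ mulEl γ ≫ perm R Y B := by
  unfold mulEl
  have h1 := insert_perm R (Y ⊗ B) B γ
  have h2 := perm_perm R Y B B
  have h3 := inrM_mul_perm R B
  simp only [MonoidalCategory.whiskerLeft_comp, Category.assoc] at h1 ⊢
  rw [← perm_natural₃, ← reassoc_of% h2, reassoc_of% h1, ← MonoidalCategory.whiskerLeft_comp, ← h3]
  simp only [MonoidalCategory.whiskerLeft_comp, comp_whiskerRight, Category.assoc]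
  rw [associator_naturality_middle_assoc]

variable [IsCommMonObj R]

lemma PFree.sphere (k : ℤ) : PFree (R ⊗ E.PS) (E.S k) := by
  have h1 := mulEl_second R ((E.unitIso k).hom ≫ (E.S k ◁ E.inPS (-k)))
  rw [← twInv_eq] at h1
  have h2 : IsIso (perm R (E.S k) E.PS) := by
    unfold perm
    infer_instance
  have h3 : IsIso (mulEl (((E.unitIso k).hom ≫ (E.S k ◁ E.inPS (-k))) ≫
      E.S k ◁ inrM R E.PS)) := by
    rw [h1]
    infer_instance
  exact PFree.of_isIso (mulEl (((E.unitIso k).hom ≫ (E.S k ◁ E.inPS (-k))) ≫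
      E.S k ◁ inrM R E.PS)) (lin_mulEl _)

lemma PFree.PS : PFree (R ⊗ E.PS) E.PS :=
  PFree.coprod (fun n : ℤ => E.S n) fun n => PFree.sphere E R n

/-- The generators of `R ⊗ (R ⊗ PS)` over `R ⊗ PS`. -/
lemma mulEl_sharp {k : ℤ} (w : E.S k ⟶ R ⊗ R) :
    mulEl (P := R ⊗ E.PS) (sharp w ≫ (α_ R R E.PS).hom) =
      ((inrM R R ▷ E.PS) ≫ (ModStr.self ((R ⊗ R) ⊗ E.PS)).smul (sharp w)) ≫
        (α_ R R E.PS).hom := by
  have h1 : (ModStr.self ((R ⊗ R) ⊗ E.PS)).smul (sharp w) = (λ_ ((R ⊗ R) ⊗ E.PS)).inv ≫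
        (sharp w ▷ ((R ⊗ R) ⊗ E.PS)) ≫ μ[(R ⊗ R) ⊗ E.PS] := rfl
  have h2 := mul_inrM R (R ⊗ E.PS)
  have h3 : inrM R R ▷ E.PS ≫ (α_ R R E.PS).hom = inrM R (R ⊗ E.PS) := by
    rw [← inrM_associator_inv, Category.assoc, Iso.inv_hom_id, Category.comp_id]
  have h4 : μ[(R ⊗ R) ⊗ E.PS] ≫ (α_ R R E.PS).hom =
      ((α_ R R E.PS).hom ⊗ₘ (α_ R R E.PS).hom) ≫ μ[R ⊗ (R ⊗ E.PS)] := IsMonHom.mul_hom _
  rw [h1]
  unfold mulEl
  simp only [Category.assoc]
  rw [h4, leftUnitor_inv_naturality_assoc, whisker_exchange_assoc, tensorHom_def,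
    Category.assoc, ← h2, whisker_exchange_assoc, ← MonoidalCategory.whiskerLeft_comp_assoc, h3,
    comp_whiskerRight, Category.assoc]

lemma PFree.of_basis {J : Type} (b : GBasis E (inrM R R) J) : PFree (R ⊗ E.PS) R := by
  refine ⟨J, fun j => mulEl (P := R ⊗ E.PS) (sharp (b.w j) ≫ (α_ R R E.PS).hom),
    fun j => lin_mulEl _, ?_⟩
  have h1 := isIso_desc_per (inrM R R) b.k b.w b.isIso
  have h2 := isIso_desc_comp_iso _ h1 (α_ R R E.PS).hom
  simp only [mulEl_sharp]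
  exact h2

end Free

section Transport

variable {T : Type u} [Category.{v} T] [MonoidalCategory T] [SymmetricCategory T]
  [MonoidalClosed T] [HasCoproducts.{0} T] {E : EvenSpheres T}

lemma inlM_braiding (X Y : T) [MonObj X] [MonObj Y] :
    inlM X Y ≫ (β_ X Y).hom = inrM Y X := by
  rw [inlM, inrM, Category.assoc, BraidedCategory.braiding_naturality_right,
    braiding_tensorUnit_right]
  simp

/-- Transport of a basis along isomorphisms of monoids. -/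
noncomputable def GBasis.transport {F F' B B' : T} [MonObj B] [MonObj B'] {φ : F ⟶ B} {J : Type}
    (b : GBasis E φ J) (g : F' ⟶ F) [IsIso g] (e : B ⟶ B') [IsIso e] [IsMonHom e]
    {φ' : F' ⟶ B'} (h : φ' = g ≫ φ ≫ e) : GBasis E φ' J where
  k := b.k
  w j := b.w j ≫ e
  isIso := by
    have h1 : ∀ j, (φ' ⊗ₘ (b.w j ≫ e)) ≫ μ[B'] =
        (g ▷ E.S (b.k j)) ≫ (((φ ⊗ₘ b.w j) ≫ μ[B]) ≫ e) := by
      intro j
      rw [h, Category.assoc, IsMonHom.mul_hom, ← tensorHom_id, tensorHom_comp_tensorHom_assoc,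
        tensorHom_comp_tensorHom_assoc, Category.id_comp, Category.assoc]
    simp only [h1]
    exact isIso_desc_comp _ (fun j => g ▷ E.S (b.k j)) (isIso_desc_comp_iso _ b.isIso e)

variable {R : T} [MonObj R] [IsCommMonObj R]

/-- From the left to the right factor. -/
noncomputable def GBasis.toRight {J : Type} (b : GBasis E (inlM R R) J) :
    GBasis E (inrM R R) J :=
  GBasis.transport b (𝟙 R) (β_ R R).hom (by rw [Category.id_comp, inlM_braiding])

/-- From `Am R 2` to `R ⊗ R`. -/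
noncomputable def GBasis.ofAm {J : Type} (b : GBasis E (inlM (Am R 1) R) J) :
    GBasis E (inlM R R) J :=
  GBasis.transport (F := Am R 1) (B := Am R 1 ⊗ R) b (λ_ R).inv
    ((λ_ R).hom ▷ R : (𝟙_ T ⊗ R) ⊗ R ⟶ R ⊗ R) (by
      have h := inlM_whiskerRight (Y := R) (λ_ R).hom
      rw [← Iso.inv_comp_eq] at h
      exact h.symm)

/-- **`P ⊗ P` is a free `P`-module**, `P = R ⊗ PS`. -/
theorem exists_free_of_basis {J₀ : Type} (b : GBasis E (inlM R R) J₀) :
    ∃ (J : Type) (f : J → (R ⊗ E.PS ⟶ (R ⊗ E.PS) ⊗ (R ⊗ E.PS))), (∀ a, Lin (f a)) ∧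
      IsIso (Sigma.desc f) :=
  (PFree.of_basis E R (GBasis.toRight b)).tensor (PFree.PS E R)

end Transport

end Vale.Agent.P251.Z
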