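import Vale.Agent.P251.Z.Statement
import Vale.Agent.P251.G.CellTh
import Vale.Agent.P251.G.Retract

/-!
# P251, part Z: Grassmannians, Thom spaces and `ℂ^n` are finite cell spaces
-/

open CategoryTheory MonoidalCategory Topology OnePoint

namespace Vale.Agent.P251.Z

open Vale.Agent.P251.G Vale.Agent.P251.G.LC

/-- `ℂ^n` is homeomorphic to `ℝ^(2n)` -/
theorem fc_cn (n : ℕ) : LC.FC (Cn n) := by
  have e : (Fin n → ℂ) ≃ₜ ((Fin n → ℝ) × (Fin n → ℝ)) :=
    { toFun := fun z => (fun i => (z i).re, fun i => (z i).im)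
      invFun := fun w i => ⟨w.1 i, w.2 i⟩
      left_inv := fun z => rfl
      right_inv := fun w => rfl
      continuous_toFun := by fun_prop
      continuous_invFun := by
        refine continuous_pi fun i => ?_
        have : (fun w : (Fin n → ℝ) × (Fin n → ℝ) => (⟨w.1 i, w.2 i⟩ : ℂ)) =
            fun w => (w.1 i : ℂ) + (w.2 i : ℂ) * Complex.I := by
          funext w; exact (Complex.re_add_im ⟨w.1 i, w.2 i⟩).symm
        rw [this]
        fun_prop }
  exact ((LC.FC.sph n).tensor (LC.FC.sph n)).of_homeo (X := LC.of ((Fin n → ℝ) × (Fin n → ℝ)))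
    (Y := Cn n) e.symm

instance : Cells where
  gr n A := by
    intro
    exact (Cell.cells_gr n A).fc
  th n A := by
    intro
    exact (Cell.cells_th n A).fc
  cn := fc_cn

end Vale.Agent.P251.Z
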