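import Vale.Agent.P251.M.ThK
import Vale.Agent.P251.M.Orient
import Vale.Agent.P251.M.EvenSys
import Vale.Agent.P251.M.ThFCInst
import Vale.Agent.P251.Z.CellsInst

/-!
# P251, part Z: the orientation of the theory of an oriented ring spectrum

`F : SpaceFunctor T`, `E` even spheres, `e : Σ ℂ ≅ E.L`, `o : Oriented F K`.

* `sph n : Σ ℂ^n ⟶ E.S n`, multiplicative (`sph_append`);
* `orK e o : Q.Orientation (thK e K)`.
-/

open CategoryTheory MonoidalCategory Limits Pretriangulated MonObj Matrix OnePoint Topology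
open Functor.OplaxMonoidal Functor.LaxMonoidal

set_option linter.unusedSectionVars false

universe v u

noncomputable section

namespace Vale.Agent.P251.Z

open Vale.Agent.P251.G Vale.Agent.P251.G.LC Vale.Agent.P251.I Vale.Agent.P251.T
  Vale.Agent.P251.M

/-! ### Space level -/

section space

/-- the only projection of full rank is the identity -/
theorem isProj_eq_one {I : Type} [Fintype I] [DecidableEq I] {n : ℕ} (h : Fintype.card I = n)
    {P : Matrix I I ℂ} (hP : IsProj n P) : P = 1 := by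
  have h1 : (1 - P) * (1 - P) = 1 - P := by
    rw [mul_sub, sub_mul, sub_mul, hP.idem]; simp
  have h2 : (1 - P)ᴴ = 1 - P := by
    rw [conjTranspose_sub, hP.herm, conjTranspose_one]
  have h3 : (1 - P).trace = (0 : ℕ) := by
    rw [trace_sub, hP.trace, trace_one, h]; simp
  have h4 : IsProj 0 (1 - P) := ⟨h1, h2, h3⟩
  have h5 : ∀ i, nsq ((1 - P) i) = 0 := by
    have h6 : ∑ i, nsq ((1 - P) i) = 0 := by
      have h7 : ((∑ i, nsq ((1 - P) i) : ℝ) : ℂ) = (1 - P).trace := by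
        rw [Matrix.trace, Complex.ofReal_sum]
        exact Finset.sum_congr rfl fun i _ => (h4.diag_eq i).symm
      rw [h3] at h7
      exact_mod_cast h7
    intro i
    exact (Finset.sum_eq_zero_iff_of_nonneg fun i _ => nsq_nonneg _).1 h6 i (Finset.mem_univ i)
  have h8 : 1 - P = 0 := by
    ext i j
    have h9 := h5 i
    unfold nsq at h9
    have h10 := (Finset.sum_eq_zero_iff_of_nonneg fun j _ => Complex.normSq_nonneg _).1 h9 j
      (Finset.mem_univ j)
    simpa using Complex.normSq_eq_zero.1 h10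
  exact (sub_eq_zero.1 h8).symm

/-- `ℂ^I ≅ Th n I`, `|I| = n` -/
def fibHomeo {I : Type} [Fintype I] [DecidableEq I] {n : ℕ} (h : Fintype.card I = n) :
    (I → ℂ) ≃ₜ Th n I where
  toFun := fun v => Th.mk 1 v (h ▸ IsProj.one) (one_mulVec _)
  invFun x := x.v
  left_inv _ := rfl
  right_inv x := Th.ext (isProj_eq_one h x.isProj).symm rfl
  continuous_toFun := (continuous_const.prodMk continuous_id).subtype_mk _
  continuous_invFun := continuous_snd.comp continuous_subtype_val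

instance isIso_incl' {I : Type} [Fintype I] [DecidableEq I] {n : ℕ} (h : Fintype.card I = n) :
    IsIso (Th.incl' h) := by
  have e : Th.incl' h = (LC.ofHomeo (fibHomeo h)).hom := LC.hom_ext fun _ => rfl
  rw [e]
  infer_instance

/-- the homeomorphism `ℂ ≅ ℂ^1` -/
def lineHomeo : ℂ ≃ₜ (Fin 1 → ℂ) := (Homeomorph.funUnique (Fin 1) ℂ).symm

/-- `ℂ^n × ℂ^m ≅ ℂ^(n+m)` -/
def appendHomeo (n m : ℕ) : ((Fin n → ℂ) × (Fin m → ℂ)) ≃ₜ (Fin (n + m) → ℂ) :=
  Fin.appendHomeomorph n m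

/-- the isomorphism `ℂ^n ⊗ ℂ^m ≅ ℂ^(n+m)` of `LC` -/
def appIso (n m : ℕ) : Cn n ⊗ Cn m ≅ Cn (n + m) := LC.ofHomeo (appendHomeo n m)

theorem isAppend_appIso (n m : ℕ) : IsAppend (appIso n m) := fun _ _ => rfl

theorem isAppend_ext {n m : ℕ} {g g' : Cn n ⊗ Cn m ≅ Cn (n + m)} (h : IsAppend g)
    (h' : IsAppend g') : g = g' := by
  ext1
  apply LC.hom_ext
  rintro ⟨x, y⟩
  exact (h x y).trans (h' x y).symm

/-- the inclusion of the fibre `ℂ^n ⟶ Th n (Fin n)` -/
abbrev fib (n : ℕ) : Cn n ⟶ LC.of (Th n (Fin n)) := Th.incl' (by simp)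

theorem append_fib (n m : ℕ) : (appIso n m).hom ≫ fib (n + m) =
    (fib n ⊗ₘ fib m) ≫ Th.sum rfl ≫ Th.map (injMat finSumFinEquiv)
      (injMat_isom finSumFinEquiv.injective) := by
  apply tensor_ext
  intro x y
  rw [app_comp, app_comp, app_comp, app_tensorHom_smash, Th.app_incl'_coe, Th.app_incl'_coe,
    Th.app_sum_smash, Th.app_map_coe]
  have h1 : app (appIso n m).hom (smash (x : OnePoint (Fin n → ℂ)) (y : OnePoint (Fin m → ℂ))) =
      ((Fin.append x y : Fin (n + m) → ℂ) : OnePoint (Fin (n + m) → ℂ)) := rfl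
  rw [h1, Th.app_incl'_coe]
  congr 1
  ext1
  · simp only [Th.mk_P, Th.mapFun_P, Th.sumFun_P, fromBlocks_one]
    rw [injMat_equiv_conj]
    simp
  · simp only [Th.mk_v, Th.mapFun_v, Th.sumFun_v]
    rw [injMat_equiv_mulVec]
    funext i
    refine Fin.addCases (fun i => ?_) (fun i => ?_) i <;> simp

/-- `ℂ ≅ ℂ^1` in `LC` -/
def lineIso : LC.of ℂ ≅ Cn 1 := LC.ofHomeo lineHomeo

theorem lineTh_eq : lineIso.hom ≫ fib 1 =
    lineTh ≫ Th.map (injMat (finOneEquiv.symm : Unit ≃ Fin 1)) (injMat_isom (Equiv.injective _)) := by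
  apply LC.hom_ext
  intro x
  have h3 : app lineTh (x : OnePoint ℂ) =
      ((Th.mk 1 (fun _ => x) IsProj.one (one_mulVec _) : Th 1 Unit) : OnePoint (Th 1 Unit)) := rfl
  have h4 : app lineIso.hom (x : OnePoint ℂ) =
      ((fun _ => x : Fin 1 → ℂ) : OnePoint (Fin 1 → ℂ)) := rfl
  rw [app_comp, app_comp, h3, h4, Th.app_incl'_coe, Th.app_map_coe]
  congr 1
  ext1
  · change (1 : Matrix (Fin 1) (Fin 1) ℂ) = injMat (finOneEquiv.symm : Unit ≃ Fin 1) *
      (1 : Matrix Unit Unit ℂ) * (injMat (finOneEquiv.symm : Unit ≃ Fin 1))ᴴ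
    rw [injMat_equiv_conj]
    simp
  · simp only [Th.mk_v, Th.mapFun_v]
    rw [injMat_equiv_mulVec]
    rfl

/-- the point is `ℂ^0` -/
def unitHomeo : Unit ≃ₜ (Fin 0 → ℂ) where
  toFun := fun _ => 0
  invFun := fun _ => ()
  left_inv _ := rfl
  right_inv _ := Subsingleton.elim _ _
  continuous_toFun := continuous_const
  continuous_invFun := continuous_const

/-- `𝟙 ≅ ℂ^0` in `LC` -/
def unitIso : 𝟙_ LC ≅ Cn 0 := LC.ofHomeo (X := LC.of Unit) (Y := Cn 0) unitHomeo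

theorem unitIso_fib : unitIso.hom ≫ fib 0 = Th.unit (Fin 0) := by
  apply LC.hom_ext
  intro x
  change _ = ((Th.zeroPt (Fin 0) : Th 0 (Fin 0)) : OnePoint (Th 0 (Fin 0)))
  have h4 : app unitIso.hom (x : OnePoint Unit) = ((0 : Fin 0 → ℂ) : OnePoint (Fin 0 → ℂ)) := rfl
  rw [app_comp, h4, Th.app_incl'_coe]
  congr 1
  ext1
  · exact Subsingleton.elim _ _
  · exact Subsingleton.elim _ _

end space

variable {T : Type u} [Category.{v} T] [Preadditive T] [HasZeroObject T]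
    [HasShift T ℤ] [∀ n : ℤ, (shiftFunctor T n).Additive] [Pretriangulated T]
    [MonoidalCategory T] [SymmetricCategory T] [TensorTriangulated T]

variable {F : SpaceFunctor T} {E : EvenSpheres T} (e : F.S.obj CCF ≅ E.L)

section fibT

variable (F)

/-- `Σ ℂ^n ⟶ Σ Th n (Fin n)` -/
def fibT (n : ℕ) : SC F n ⟶ TO F.S n (Fin n) := F.S.map (FCat.hom (fib n))

instance (n : ℕ) : IsIso (fibT F n) := by
  have h : IsIso (FCat.hom (X := cnF n) (Y := ThF n (Fin n)) (fib n)) := by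
    refine ⟨⟨FCat.hom (X := ThF n (Fin n)) (Y := cnF n) (inv (fib n)), ?_, ?_⟩⟩
    · ext1
      exact IsIso.hom_inv_id (fib n)
    · ext1
      exact IsIso.inv_hom_id (fib n)
  unfold fibT
  infer_instance

/-- `Σ (ℂ^n × ℂ^m) ⟶ Σ ℂ^(n+m)` -/
def appT (n m : ℕ) : F.S.obj (cnF n ⊗ cnF m) ⟶ SC F (n + m) :=
  F.S.map (FCat.hom (X := cnF n ⊗ cnF m) (Y := cnF (n + m)) (appIso n m).hom)

instance (n m : ℕ) : IsIso (appT F n m) := by
  have h : IsIso (FCat.hom (X := cnF n ⊗ cnF m) (Y := cnF (n + m)) (appIso n m).hom) := by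
    refine ⟨⟨FCat.hom (X := cnF (n + m)) (Y := cnF n ⊗ cnF m) (appIso n m).inv, ?_, ?_⟩⟩
    · ext1
      exact (appIso n m).hom_inv_id
    · ext1
      exact (appIso n m).inv_hom_id
  unfold appT
  infer_instance

theorem fibT_mul (n m : ℕ) (h' : Fintype.card (Fin n) + Fintype.card (Fin m) ≤
      Fintype.card (Fin (n + m))) :
    (fibT F n ⊗ₘ fibT F m) ≫ TO.mul F.S (K := Fin (n + m)) rfl h' =
      Functor.LaxMonoidal.μ F.S (cnF n) (cnF m) ≫ appT F n m ≫ fibT F (n + m) := by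
  have h1 : TO.mul F.S (n := n) (m := m) (I := Fin n) (J := Fin m) (K := Fin (n + m)) rfl h' =
      TO.sum F.S rfl ≫ TO.map F.S (n + m) (injMat finSumFinEquiv)
        (injMat_isom finSumFinEquiv.injective) := by
    unfold TO.mul
    rw [TO.map_eq_j]
  rw [h1]
  unfold TO.sum TO.map fibT appT
  have h2 : (FCat.hom (X := cnF n) (Y := ThF n (Fin n)) (fib n) ⊗ₘ
      FCat.hom (X := cnF m) (Y := ThF m (Fin m)) (fib m)) ≫
      FCat.hom (X := ThF n (Fin n) ⊗ ThF m (Fin m)) (Y := ThF (n + m) (Fin n ⊕ Fin m))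
        (Th.sum rfl) ≫ FCat.hom (Th.map (injMat finSumFinEquiv)
        (injMat_isom finSumFinEquiv.injective)) =
      FCat.hom (X := cnF n ⊗ cnF m) (Y := cnF (n + m)) (appIso n m).hom ≫
        FCat.hom (X := cnF (n + m)) (Y := ThF (n + m) (Fin (n + m))) (fib (n + m)) := by
    ext1
    exact (append_fib n m).symm
  rw [Category.assoc, μ_natural_assoc, ← F.S.map_comp, ← F.S.map_comp, h2, F.S.map_comp]

end fibT

section sph

variable (F) in
/-- `Σ ℂ ⟶ Σ Th 1 (Fin 1)` -/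
def lineT : F.S.obj CCF ⟶ TO F.S 1 (Fin 1) :=
  F.S.map (FCat.hom (X := CCF) (Y := cnF 1) lineIso.hom) ≫ fibT F 1

instance : IsIso (F.S.map (FCat.hom (X := CCF) (Y := cnF 1) lineIso.hom)) := by
  have h : IsIso (FCat.hom (X := CCF) (Y := cnF 1) lineIso.hom) := by
    refine ⟨⟨FCat.hom (X := cnF 1) (Y := CCF) lineIso.inv, ?_, ?_⟩⟩
    · ext1
      exact lineIso.hom_inv_id
    · ext1
      exact lineIso.inv_hom_id
  infer_instance

instance : IsIso (lineT F) := by unfold lineT; infer_instance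

variable (F) in
/-- `𝟙 ⟶ Σ ℂ^0` -/
def unitT : 𝟙_ T ⟶ SC F 0 :=
  Functor.LaxMonoidal.ε F.S ≫ F.S.map (FCat.hom (X := 𝟙_ FCat) (Y := cnF 0) unitIso.hom)

instance : IsIso (unitT F) := by
  have h : IsIso (FCat.hom (X := 𝟙_ FCat) (Y := cnF 0) unitIso.hom) := by
    refine ⟨⟨FCat.hom (X := cnF 0) (Y := 𝟙_ FCat) unitIso.inv, ?_, ?_⟩⟩
    · ext1
      exact unitIso.hom_inv_id
    · ext1
      exact unitIso.inv_hom_id
  unfold unitT
  infer_instance

theorem unitT_fibT : unitT F ≫ fibT F 0 = TO.unit F.S (Fin 0) := by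
  unfold unitT fibT TO.unit
  rw [Category.assoc, ← F.S.map_comp]
  congr 2
  ext1
  exact unitIso_fib

/-- the diagonal -/
def dg : ℕ →+ ℕ × ℕ := (AddMonoidHom.id ℕ).prod (AddMonoidHom.id ℕ)

/-- `E.S n ⟶ Σ Th n (Fin n)` -/
def sg (n : ℕ) : E.S n ⟶ TO F.S n (Fin n) := E.sig (TO.sys F.S) dg (e.inv ≫ lineT F) n

theorem sg_mul (n m : ℕ) (h' : Fintype.card (Fin n) + Fintype.card (Fin m) ≤
      Fintype.card (Fin (n + m))) (h : (n : ℤ) + m = ((n + m : ℕ) : ℤ)) :
    (sg e n ⊗ₘ sg e m) ≫ TO.mul F.S (K := Fin (n + m)) rfl h' =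
      (E.mu n m (n + m : ℕ) h).hom ≫ sg e (n + m) :=
  (E.mu_sig (TO.sys F.S) dg (e.inv ≫ lineT F) n m (n + m) rfl h rfl).symm

theorem sg_zero : sg e 0 = TO.unit F.S (Fin 0) := rfl

theorem sg_succ (n : ℕ) (h' : Fintype.card (Fin 1) + Fintype.card (Fin n) ≤
      Fintype.card (Fin (n + 1))) :
    sg e (n + 1) = ((e.inv ≫ lineT F) ⊗ₘ sg e n) ≫ TO.mul F.S (K := Fin (n + 1))
      (Nat.add_comm 1 n) h' := rfl

theorem isIso_mul (n m k : ℕ) (h : n + m = k) (h' : Fintype.card (Fin n) + Fintype.card (Fin m) ≤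
      Fintype.card (Fin k)) : IsIso (TO.mul F.S (I := Fin n) (J := Fin m) (K := Fin k) h h') := by
  subst h
  have h1 := fibT_mul F n m h'
  have h2 : IsIso ((fibT F n ⊗ₘ fibT F m) ≫ TO.mul F.S (K := Fin (n + m)) rfl h') := by
    rw [h1]
    infer_instance
  exact IsIso.of_isIso_comp_left (fibT F n ⊗ₘ fibT F m) _

instance isIso_sg : ∀ n : ℕ, IsIso (sg e n)
  | 0 => by
    have h : IsIso (TO.unit F.S (Fin 0)) := by
      rw [← unitT_fibT]
      infer_instance
    exact h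
  | n + 1 => by
    have h := isIso_sg n
    have h2 := isIso_mul (F := F) 1 n (n + 1) (Nat.add_comm 1 n) (by simp [Nat.add_comm])
    have h3 : IsIso (((e.inv ≫ lineT F) ⊗ₘ sg e n) ≫ TO.mul F.S (I := Fin 1) (J := Fin n)
      (K := Fin (n + 1)) (Nat.add_comm 1 n) (by simp [Nat.add_comm])) := by
      infer_instance
    exact h3

/-- `Σ ℂ^n ⟶ E.S n` -/
def sph (n : ℕ) : SC F n ⟶ E.S n := fibT F n ≫ inv (sg e n)

instance (n : ℕ) : IsIso (sph e n) := by unfold sph; infer_instance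

theorem sph_append (n m : ℕ) (h : (n : ℤ) + m = ((n + m : ℕ) : ℤ)) :
    Functor.LaxMonoidal.μ F.S (cnF n) (cnF m) ≫ appT F n m ≫ sph e (n + m) =
      (sph e n ⊗ₘ sph e m) ≫ (E.mu n m (n + m : ℕ) h).hom := by
  have h1 := sg_mul e n m (by simp) h
  have h2 : (inv (sg e n) ⊗ₘ inv (sg e m)) ≫ (E.mu n m (n + m : ℕ) h).hom =
      TO.mul F.S (I := Fin n) (J := Fin m) (K := Fin (n + m)) rfl (by simp) ≫
        inv (sg e (n + m)) := by
    rw [← cancel_epi (sg e n ⊗ₘ sg e m), ← cancel_mono (sg e (n + m))]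
    simp only [Category.assoc, IsIso.inv_hom_id, Category.comp_id]
    rw [← h1, tensorHom_comp_tensorHom_assoc]
    simp
  unfold sph
  rw [← tensorHom_comp_tensorHom, Category.assoc, h2, ← Category.assoc, ← Category.assoc,
    ← Category.assoc, fibT_mul]
  simp only [Category.assoc]

theorem sph_zero : unitT F ≫ sph e 0 = E.z := by
  unfold sph
  rw [← Category.assoc, unitT_fibT]
  exact IsIso.hom_inv_id (sg e 0)

omit [Preadditive T] [HasZeroObject T] [HasShift T ℤ] [∀ n : ℤ, (shiftFunctor T n).Additive]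
  [Pretriangulated T] [TensorTriangulated T] in
theorem oneIso_inv_eq (E : EvenSpheres T) : E.oneIso.inv = (ρ_ E.L).inv := by
  refine IsFr.unique (F := Fr.self E.L) (G := E.fr 1) rfl (IsFr.inv' rfl E.isFr_oneIso) ?_
  have h := E.isFr_succ 0
  have h2 := isFr_rightUnitor (Fr.self E.L)
  have h3 : IsFr ((Fr.self E.L).tensor (E.fr 0)) (Fr.self E.L) (ρ_ E.L).hom := by
    have k := IsFr.whiskerLeft (F := Fr.self E.L) (by rfl) E.isFr_zero'
    have k2 := IsFr.comp (by simp) (by simp) k h2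
    have q : (E.L ◁ 𝟙 (𝟙_ T)) ≫ (ρ_ E.L).hom = (ρ_ E.L).hom := by
      rw [whiskerLeft_id, Category.id_comp]
    exact (congrArg (IsFr _ _) q).mp k2
  have h4 := IsFr.inv' (by simp) h3
  have h5 := IsFr.comp (by simp) (by simp) h4 h
  exact (congrArg (IsFr _ _) (Category.comp_id _)).mp h5

theorem sg_one : E.oneIso.inv ≫ sg e 1 = e.inv ≫ lineT F := by
  have h : (TO F.S 1 (Fin 1) ◁ TO.unit F.S (Fin 0)) ≫
      TO.mul F.S (n := 1) (m := 0) (k := 1) (I := Fin 1) (J := Fin 0) (K := Fin 1) rfl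
        (by simp) = (ρ_ _).hom := (TO.sys F.S).mul_one (1, 1)
  have h1 : (ρ_ E.L).inv ≫ ((e.inv ≫ lineT F) ⊗ₘ TO.unit F.S (Fin 0)) ≫
      TO.mul F.S (n := 1) (m := 0) (k := 1) (I := Fin 1) (J := Fin 0) (K := Fin 1) rfl
        (by simp) = e.inv ≫ lineT F := by
    rw [tensorHom_def, Category.assoc, h, rightUnitor_naturality, Iso.inv_hom_id_assoc]
  rw [oneIso_inv_eq]
  exact h1

theorem sph_one : F.S.map (FCat.hom (X := CCF) (Y := cnF 1) lineIso.hom) ≫ sph e 1 =
    e.hom ≫ E.oneIso.inv := by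
  have h := sg_one e
  have h2 : E.oneIso.inv = (e.inv ≫ lineT F) ≫ inv (sg e 1) := by
    rw [← h, Category.assoc, IsIso.hom_inv_id, Category.comp_id]
  rw [h2]
  unfold sph lineT
  simp only [Category.assoc, Iso.hom_inv_id_assoc]

end sph

section orientation

variable {K : T} [MonObj K] [IsCommMonObj K] (o : Oriented F K)

/-- the Thom class in `Hom(Σ Th n I, K ⊗ E.S n)` -/
def thE (n : ℕ) (I : Type) [Fintype I] : TO F.S n I ⟶ K ⊗ E.S n := o.θ n I ≫ K ◁ sph e n

variable (K E) in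
/-- the class of a map -/
def clK {k : ℤ} {X : T} (x : X ⟶ K ⊗ E.S k) : (RSys K E).H k X :=
  MSys.cls (M := RSys K E) 0 x

theorem clK_pull {k : ℤ} {X Y : T} (f : X ⟶ Y) (x : Y ⟶ K ⊗ E.S k) :
    (RSys K E).pull k f (clK E K x) = clK E K (f ≫ x) := rfl

theorem clK_xprod {k l q : ℤ} (h : k + l = q) {X Y : T} (x : X ⟶ K ⊗ E.S k) (y : Y ⟶ K ⊗ E.S l) :
    (RSys K E).xprod h (clK E K x) (clK E K y) =
      clK E K ((x ⊗ₘ y) ≫ tensorμ K (E.S k) K (E.S l) ≫ (μ[K] ⊗ₘ (E.mu k l q h).hom)) :=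
  MSys.xprod_cls h (Nat.zero_add 0) _ _

/-- the Thom class in `H^n(Σ Th n I)` -/
def thH (n : ℕ) (I : Type) [Fintype I] : (RSys K E).H n (TO F.S n I) :=
  clK E K (thE e o n I)

theorem thE_isom {n : ℕ} {I J : Type} [Fintype I] [Fintype J] [DecidableEq I] [DecidableEq J]
    (u : Matrix J I ℂ) (hu : uᴴ * u = 1) :
    TO.map F.S n u hu ≫ thE e o n J = thE e o n I := by
  unfold thE
  rw [← Category.assoc]
  congr 1
  exact o.isom u hu (Th.map u hu) fun x => ⟨Th.mapFun u hu x, rfl, rfl, rfl⟩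

theorem thE_sum {n m : ℕ} {I J : Type} [Fintype I] [Fintype J] [DecidableEq I] [DecidableEq J]
    (h : (n : ℤ) + m = ((n + m : ℕ) : ℤ)) :
    TO.sum F.S rfl ≫ thE e o (n + m) (I ⊕ J) = (thE e o n I ⊗ₘ thE e o m J) ≫
      tensorμ K (E.S n) K (E.S m) ≫ (μ[K] ⊗ₘ (E.mu n m (n + m : ℕ) h).hom) := by
  have h1 := o.sum (n := n) (m := m) (A := I) (B := J) (Th.sum rfl)
    (fun x => ⟨Th.sumFun rfl x.1 x.2, rfl, rfl, rfl⟩) (appIso n m) (isAppend_appIso n m)
  have h2 : (SCadd F (appIso n m)).hom ≫ sph e (n + m) =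
      (sph e n ⊗ₘ sph e m) ≫ (E.mu n m (n + m : ℕ) h).hom := by
    rw [← sph_append e n m h]
    exact Category.assoc _ _ _
  have h3 : TO.sum F.S rfl ≫ o.θ (n + m) (I ⊕ J) = (o.θ n I ⊗ₘ o.θ m J) ≫
      tensorμ K (SC F n) K (SC F m) ≫ (μ[K] ⊗ₘ (SCadd F (appIso n m)).hom) := by
    unfold TO.sum
    rw [Category.assoc]
    refine (congrArg (Functor.LaxMonoidal.μ F.S (ThF n I) (ThF m J) ≫ ·) h1).trans ?_
    exact (Functor.Monoidal.μIso F.S (ThF n I) (ThF m J)).hom_inv_id_assoc _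
  unfold thE
  rw [reassoc_of% h3, ← tensorHom_comp_tensorHom, Category.assoc, ← id_tensorHom K (sph e n),
    ← id_tensorHom K (sph e m), tensorμ_natural_assoc, tensorHom_comp_tensorHom, ← h2,
    ← id_tensorHom, tensorHom_comp_tensorHom]
  simp

theorem thE_fib (n : ℕ) : fibT F n ≫ thE e o n (Fin n) =
    sph e n ≫ (λ_ (E.S n)).inv ≫ (η[K] ▷ E.S n) := by
  have h : fibT F n ≫ o.θ n (Fin n) = (λ_ (SC F n)).inv ≫ η[K] ▷ SC F n :=
    o.fibre n (fib n) fun x => ⟨_, rfl, rfl, rfl⟩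
  unfold thE
  rw [reassoc_of% h, leftUnitor_inv_naturality_assoc, whisker_exchange]

theorem thE_unit {I : Type} [Fintype I] [DecidableEq I] : TO.unit F.S I ≫ thE e o 0 I =
    (λ_ (𝟙_ T)).inv ≫ (η[K] ⊗ₘ E.z) := by
  have h1 : TO.unit F.S (Fin 0) ≫ TO.map F.S 0 (injMat (Fin.elim0 : Fin 0 → I))
      (injMat_isom (Function.injective_of_subsingleton _)) = TO.unit F.S I := by
    rw [TO.map_eq_j F.S _ _ (by simp), TO.unit_j]
  rw [← h1, Category.assoc, thE_isom, ← unitT_fibT, Category.assoc, thE_fib, ← Category.assoc,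
    sph_zero, tensorHom_def', leftUnitor_inv_naturality_assoc]
  rfl

theorem lineTh_map : F.S.map (FCat.hom (X := CCF) (Y := ThF 1 Unit) lineTh) ≫
    TO.map F.S 1 (injMat (finOneEquiv.symm : Unit ≃ Fin 1)) (injMat_isom (Equiv.injective _)) =
      lineT F := by
  unfold TO.map lineT fibT
  rw [← F.S.map_comp, ← F.S.map_comp]
  congr 1
  ext1
  exact lineTh_eq.symm

theorem thE_line : F.S.map (FCat.hom (X := CCF) (Y := ThF 1 Unit) lineTh) ≫ thE e o 1 Unit =
    (e.hom ≫ E.oneIso.inv) ≫ (λ_ (E.S 1)).inv ≫ (η[K] ▷ E.S 1) := by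
  rw [← thE_isom e o (injMat (finOneEquiv.symm : Unit ≃ Fin 1)) (injMat_isom (Equiv.injective _)),
    ← Category.assoc, lineTh_map]
  unfold lineT
  rw [Category.assoc, thE_fib, ← Category.assoc, sph_one]
  rfl

/-- The orientation of the theory of `K` defined by the Thom classes of `K`. -/
def orK : Q.Orientation (thK e K) where
  good_Th n I _ := ThFC.fc n I
  tau n I _ := umk (ThFC.fc n I) ((RSys K E).tof _ n (thH e o n I))
  tau_deg n I _ := (mem_udeg (ThFC.fc n I)).mpr (MSys.tof_mem_tdeg _)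
  tau_isom {n I J _ _ hI} u hu f hf := by
    classical
    have h := eq_map_of_isIsomMap u hu f hf
    subst h
    apply uev_inj (ThFC.fc n I)
    refine (uev_umap (ThFC.fc n I) (ThFC.fc n J) _ _).trans ?_
    rw [uev_umk, uev_umk, MSys.tpull_of]
    refine congrArg _ ?_
    exact congrArg (clK E K) (thE_isom e o u hu)
  tau_sum {n m p} h {I J _ _} f hf := by
    classical
    have h1 := eq_sum_of_isSumMap h f hf
    subst h1
    subst h
    have hk : (n : ℤ) + m = ((n + m : ℕ) : ℤ) := by push_cast; rfl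
    apply uev_inj (fc_tensor (ThFC.fc n I) (ThFC.fc m J))
    refine (uev_umap (fc_tensor (ThFC.fc n I) (ThFC.fc m J)) (ThFC.fc (n + m) (I ⊕ J)) _ _).trans ?_
    refine Eq.trans ?_ (uev_ucross (ThFC.fc n I) (ThFC.fc m J)
      (fc_tensor (ThFC.fc n I) (ThFC.fc m J)) _ _).symm
    rw [uev_umk, uev_umk, uev_umk, MSys.tpull_of, MSys.tcross_eq hk, MSys.tpull_of]
    refine congrArg _ ?_
    unfold thH
    rw [clK_xprod, ← thE_sum e o hk, clK_pull]
    refine Eq.trans ?_ (clK_pull _ _).symm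
    refine congrArg (clK E K) ?_
    unfold TO.sum
    rw [Category.assoc]
    exact (Functor.Monoidal.δ_μ_assoc F.S (ThF n I) (ThF m J) _).symm
  tau_zero {I _} f hf := by
    classical
    have h := eq_unit_of_isPairMap f hf
    subst h
    apply uev_inj fc_unit
    refine (uev_umap fc_unit (ThFC.fc 0 I) _ _).trans ?_
    have e1 : uev fc_unit (thK e K).one = (RSys K E).tpull (Functor.OplaxMonoidal.η F.S) (RSys K E).tone := rfl
    rw [uev_umk, e1, MSys.tpull_of, MSys.tone, MSys.tpull_of]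
    refine congrArg _ ?_
    have h2 : (RSys K E).unit = clK E K (k := 0) (TO.unit F.S I ≫ thE e o 0 I) := by
      have h3 : (RSys K E).unit = clK E K (k := 0) ((λ_ (𝟙_ T)).inv ≫ (η[K] ⊗ₘ E.z)) := rfl
      rw [h3, ← thE_unit e o (I := I)]
    rw [h2]
    refine congrArg (clK E K (k := 0)) ?_
    unfold TO.unit
    rw [Category.assoc]
    exact (Functor.Monoidal.η_ε_assoc F.S _).symm
  tau_one f hf := by
    classical
    have h := eq_lineTh_of_isPairMap f hf
    subst h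
    apply uev_inj fcCC
    refine (uev_umap fcCC (ThFC.fc 1 Unit) _ _).trans ?_
    have e1 : uev fcCC (thK e K).sg = (RSys K E).tof _ 1 (MSys.cls 0 (lineCls e (SeqMonoid.const K))) := rfl
    rw [uev_umk, e1, MSys.tpull_of]
    refine congrArg _ ?_
    exact congrArg (clK E K (k := 1)) (thE_line e o)

theorem uev_orK_tau (n : ℕ) (I : Type) [Fintype I] :
    uev (ThFC.fc n I) ((orK e o).tau n I) = (RSys K E).tof _ n (thH e o n I) := rfl

end orientation

end Vale.Agent.P251.Z
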