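import Vale.Agent.P251.Z.KEps
import Vale.Agent.P251.Z.PFree

/-!
# P251, part Z2: `K ⊗ P` for `P = MU ⊗ PS` and a commutative monoid `K` over `MU`
-/

open CategoryTheory MonoidalCategory Limits Pretriangulated MonObj

set_option linter.unusedSectionVars false

universe v u

namespace Vale.Agent.P251.Z

open Vale.Agent.P251.T Vale.Agent.P251.M Vale.Agent.P251.S Vale.Agent.P251.F Vale.Agent.P251.I
  EvenSpheres

section linear

variable {T : Type u} [Category.{v} T] [MonoidalCategory T] [SymmetricCategory T]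

theorem mulEl_eq {Y P : T} [MonObj Y] [MonObj P] (γ : 𝟙_ T ⟶ Y ⊗ P) :
    mulEl γ = inrM Y P ≫ (ModStr.self (Y ⊗ P)).smul γ := by
  have h1 : (ModStr.self (Y ⊗ P)).smul γ = (λ_ (Y ⊗ P)).inv ≫ (γ ▷ (Y ⊗ P)) ≫ μ[Y ⊗ P] := rfl
  rw [h1, leftUnitor_inv_naturality_assoc, whisker_exchange_assoc, mul_inrM]
  rfl

theorem comp_mulEl {Y P : T} [MonObj Y] [MonObj P] (γ : 𝟙_ T ⟶ Y ⊗ P) (x : 𝟙_ T ⟶ P) :
    x ≫ mulEl γ = scMul γ (x ≫ inrM Y P) := by
  have h := (ModStr.self (Y ⊗ P)).smul_one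
  unfold scMul
  rw [mulEl_eq]
  have h1 : (ModStr.self (Y ⊗ P)).smul γ = (λ_ (Y ⊗ P)).inv ≫ (γ ▷ (Y ⊗ P)) ≫ μ[Y ⊗ P] := rfl
  rw [h1, leftUnitor_inv_naturality_assoc, leftUnitor_inv_naturality_assoc, tensorHom_def']
  simp only [MonoidalCategory.whiskerLeft_comp, Category.assoc]

theorem scR_eq_inr {Y P : T} [MonObj Y] [MonObj P] (b : 𝟙_ T ⟶ P) : scR Y b = b ≫ inrM Y P := by
  unfold scR inrM
  rw [leftUnitor_inv_naturality_assoc, tensorHom_def']

theorem whiskerLeft_smul {Y P : T} [MonObj Y] [MonObj P] (b : 𝟙_ T ⟶ P) :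
    Y ◁ (ModStr.self P).smul b = (ModStr.self (Y ⊗ P)).smul (b ≫ inrM Y P) := by
  rw [← (ModStr.self Y).tens_smul_right (ModStr.self P), scR_eq_inr]
  rfl

variable {P : T} [MonObj P]

theorem smul_mul_right (w : 𝟙_ T ⟶ P) :
    (ModStr.self P).smul w ▷ P ≫ μ[P] = μ[P] ≫ (ModStr.self P).smul w := by
  have h1 : (ModStr.self P).smul w = (λ_ P).inv ≫ (w ▷ P) ≫ μ[P] := rfl
  rw [h1]
  simp only [comp_whiskerRight, Category.assoc]
  rw [MonObj.mul_assoc, leftUnitor_inv_naturality_assoc, whisker_exchange_assoc,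
    associator_naturality_left_assoc]
  simp

theorem mulEl_smul {Y : T} (γ : 𝟙_ T ⟶ Y ⊗ P) (w : 𝟙_ T ⟶ P) :
    mulEl (γ ≫ Y ◁ (ModStr.self P).smul w) = mulEl γ ≫ Y ◁ (ModStr.self P).smul w := by
  unfold mulEl
  simp only [comp_whiskerRight, Category.assoc]
  rw [associator_naturality_middle_assoc, ← MonoidalCategory.whiskerLeft_comp, smul_mul_right,
    MonoidalCategory.whiskerLeft_comp]

variable [IsCommMonObj P]

theorem comp_mulEl' {Y : T} (γ : 𝟙_ T ⟶ Y ⊗ P) (x : 𝟙_ T ⟶ P) :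
    x ≫ mulEl γ = γ ≫ Y ◁ (ModStr.self P).smul x := by
  have h1 : x = η[P] ≫ (ModStr.self P).smul x := by
    have h2 : (ModStr.self P).smul x = (λ_ P).inv ≫ (x ▷ P) ≫ μ[P] := rfl
    rw [h2, leftUnitor_inv_naturality_assoc, whisker_exchange_assoc, MonObj.mul_one,
      rightUnitor_naturality, ← unitors_equal, Iso.inv_hom_id_assoc]
  conv_lhs => rw [h1]
  rw [Category.assoc, (lin_mulEl γ).smul_comm, ← Category.assoc, one_mulEl]

theorem smul_mulEl {Y : T} (γ : 𝟙_ T ⟶ Y ⊗ P) (x : 𝟙_ T ⟶ P) :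
    (ModStr.self P).smul x ≫ mulEl γ = mulEl (x ≫ mulEl γ) := by
  rw [(lin_mulEl γ).smul_comm, ← mulEl_smul, comp_mulEl']

end linear

section congr

variable {E E' E₂ E₂' : Type*} [AddCommGroup E] [AddCommGroup E'] [AddCommGroup E₂]
  [AddCommGroup E₂'] {I : Type*}

theorem bij_unit (f : E →+ E₂) (hf : Function.Bijective f) :
    Function.Bijective (Finsupp.liftAddHom fun _ : Unit => f) := by
  classical
  have key : ∀ x : Unit →₀ E, Finsupp.liftAddHom (fun _ : Unit => f) x = f (x ()) := by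
    intro x
    induction x using Finsupp.induction_linear with
    | zero => simp
    | add x y hx hy => rw [map_add, hx, hy, Finsupp.add_apply, map_add f]
    | single a x => simp
  constructor
  · intro x y hxy
    rw [key, key] at hxy
    ext
    exact hf.1 hxy
  · intro y
    obtain ⟨x, rfl⟩ := hf.2 y
    exact ⟨Finsupp.single () x, by rw [key, Finsupp.single_eq_same]⟩

theorem GoodMap.congr {h : ℕ} {v : ℕ → E →+ E} {v' : E' →+ E'} {ψ : I → E →+ E'}
    (H : GoodMap h v v' ψ) (hc : ∀ j k x, v j (v k x) = v k (v j x))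
    {v₂ : ℕ → E₂ →+ E₂} {v₂' : E₂' →+ E₂'} {ψ₂ : I → E₂ →+ E₂'}
    (f : E →+ E₂) (hf : Function.Bijective f) (g : E' →+ E₂') (hg : Function.Bijective g)
    (hfv : ∀ k x, f (v k x) = v₂ k (f x)) (hgv : ∀ x, g (v' x) = v₂' (g x))
    (hψ : ∀ e x, ψ₂ e (f x) = g (ψ e x)) : GoodMap h v₂ v₂' ψ₂ :=
  H.sum hc (fun _ : Unit => f) (bij_unit f hf) (fun _ => g) (bij_unit g hg)
    (fun _ => hfv) (fun _ => hgv) (fun _ => hψ)

theorem GoodReg.congr {i h : ℕ} {v : ℕ → E →+ E} (H : GoodReg i h v) {v₂ : ℕ → E₂ →+ E₂}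
    (f : E →+ E₂) (hf : Function.Bijective f) (hfv : ∀ k x, f (v k x) = v₂ k (f x)) :
    GoodReg i h v₂ :=
  H.sum (fun _ : Unit => f) (bij_unit f hf) (fun _ => hfv)

end congr

variable {T : Type u} [Category.{v} T] [Preadditive T] [HasZeroObject T]
    [HasShift T ℤ] [∀ n : ℤ, (shiftFunctor T n).Additive] [Pretriangulated T] [IsTriangulated T]
    [MonoidalCategory T] [SymmetricCategory T] [TensorTriangulated T] [MonoidalClosed T]
    [HasCoproducts.{0} T] [HasProducts.{0} T] [StableCat T]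

section theta

variable {E : EvenSpheres T} (K R : T) [MonObj K] [IsCommMonObj K] [MonObj R] [IsCommMonObj R]

/-- `π_*(K ⊗ R) ≅ Hom(𝟙, K ⊗ (R ⊗ PS))` -/
noncomputable def theK : HRing E (K ⊗ R) →+* Sc (K ⊗ (R ⊗ E.PS)) :=
  (Sc.map (α_ K R E.PS).hom).comp (sharpHom (K ⊗ R))

theorem theK_bijective : Function.Bijective (theK (E := E) K R) := by
  have h1 : Function.Bijective (fun x : (𝟙_ T ⟶ (K ⊗ R) ⊗ E.PS) => x ≫ (α_ K R E.PS).hom) :=
    ⟨fun x y h => (cancel_mono _).1 h, fun y => ⟨y ≫ (α_ K R E.PS).inv, by simp⟩⟩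
  exact h1.comp (sharpTot_bijective (K ⊗ R))

theorem theK_inr (x : HRing E R) :
    theK K R (HRing.map (inrM K R) x) = Sc.map (inrM K (R ⊗ E.PS)) (sharpHom R x) := by
  unfold theK
  rw [RingHom.comp_apply, ← sharpHom_map]
  have h3 : inrM K R ▷ E.PS ≫ (α_ K R E.PS).hom = inrM K (R ⊗ E.PS) := by
    rw [← inrM_associator_inv, Category.assoc, Iso.inv_hom_id, Category.comp_id]
  change (_ ≫ inrM K R ▷ E.PS) ≫ (α_ K R E.PS).hom = _ ≫ inrM K (R ⊗ E.PS)
  rw [Category.assoc, h3]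

end theta

section MU

variable (D : MUData T) {K : T} [MonObj K] [IsCommMonObj K] (k : D.R ⟶ K) [IsMonHom k]

/-- the generators `b_i` of `K_* MU` -/
noncomputable def bK (i : ℕ) : HRing (stdEven T) (K ⊗ D.R) :=
  HRing.map (E := stdEven T) (D.toKR k) (D.ev 1 (MvPolynomial.X (0, i)))

theorem class_bK (a : ℕ →₀ ℕ) :
    HRing.map (E := stdEven T) (D.toKR k) (D.ev 1 (MvPolynomial.monomial (Cob.last 0 a) 1)) =
      a.prod fun i m => bK D k i ^ m := by
  have h : (MvPolynomial.monomial (Cob.last 0 a) 1 : Cob Laz 1) =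
      a.prod fun i m => MvPolynomial.X (0, i) ^ m := by
    rw [MvPolynomial.monomial_eq, MvPolynomial.C_1, _root_.one_mul]
    unfold Cob.last
    rw [Finsupp.prod_mapDomain_index_inj (Cob.last_inj)]
    rfl
  rw [h]
  unfold bK
  rw [map_finsuppProd, map_finsuppProd]
  simp only [map_pow]

/-- the law of `K` -/
noncomputable abbrev lawK : Law (HRing (stdEven T) K) := D.law.map (HRing.map (E := stdEven T) k)

theorem map_strictIso : InvSeries.map (HRing.map (E := stdEven T) (D.toKR k)) D.strictIso =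
    strictMk (bK D k) := by
  unfold MUData.strictIso
  have h : (Cob.univ Laz 1).g 1 = strictMk fun m => MvPolynomial.X (0, m) :=
    Cob.univ_g_succ (0 : Fin 1)
  rw [h, map_strictMk, map_strictMk]
  rfl

/-- the law of `MU` over `K_* MU` -/
theorem law_inr : D.law.map (HRing.map (E := stdEven T) (inrM K D.R)) =
    (bL (lawK D k)).map (epsH (bK D k)) := by
  have h1 := congrArg (Law.map (HRing.map (E := stdEven T) (D.toKR k))) D.strictIso_smul
  rw [InvSeries.map_smul, Law.map_map, Law.map_map, ← HRing.map_comp, ← HRing.map_comp,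
    HRing_map_congr (D.v_zero_toKR k), HRing_map_congr (D.v_one_toKR k), map_strictIso] at h1
  rw [← h1]
  unfold bL
  rw [InvSeries.map_smul, Law.map_map, map_strictMk]
  have h2 : (epsH (bK D k)).comp MvPolynomial.C = HRing.map (E := stdEven T) (inlM K D.R) := by
    exact RingHom.ext fun c => epsH_C _ c
  rw [h2]
  unfold lawK
  rw [Law.map_map, ← HRing.map_comp]
  congr 2
  funext i
  exact (epsH_X _ i).symm

variable {D} in
theorem epsK_bijective {F : SpaceFunctor T} {e : F.S.obj CCF ≅ (stdEven T).L}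
    (h : MUUniv e D) : Function.Bijective (epsH (bK D k)) := by
  obtain ⟨b, -, hb⟩ := D.exists_basis_of k h
  exact epsH_bijective b (bK D k) fun a => by rw [hb, class_bK]

theorem vs_inr (p i : ℕ) : Sc.map (inrM K D.P) (Sc.of (D.vs p i)) =
    theK K D.R (epsH (bK D k) (vv p i (bL (lawK D k)))) := by
  have h1 : (Sc.of (D.vs p i) : Sc D.P) = sharpHom D.R (vv p i D.law) := by
    rw [D.vel_spec p i, sharpHom_of]
    rfl
  rw [h1, ← theK_inr, ← vv_map, law_inr D k, vv_map]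

theorem whiskerLeft_vP (p i : ℕ) : K ◁ vP (D.vs p) i = (ModStr.self (K ⊗ D.P)).smul
    (theK K D.R (epsH (bK D k) (vv p i (bL (lawK D k))))) := by
  rw [← vs_inr]
  exact whiskerLeft_smul _

theorem whiskerLeft_vP_zero {p h : ℕ} [Fact p.Prime] (h0 : ∀ i < h, vv p i (lawK D k) = 0)
    {i : ℕ} (hi : i < h) : K ◁ vP (D.vs p) i = 0 := by
  rw [whiskerLeft_vP D k, vv_bL_lt h0 hi, map_zero, map_zero]
  exact ModStr.smul_zero _

theorem isIso_whiskerLeft_vP {p h : ℕ} [Fact p.Prime] (h0 : ∀ i < h, vv p i (lawK D k) = 0)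
    (h1 : IsUnit (vv p h (lawK D k))) : IsIso (K ◁ vP (D.vs p) h) := by
  rw [whiskerLeft_vP D k, vv_bL_self h0]
  have h2 := (((h1.map (MvPolynomial.C (σ := ℕ))).map (epsH (bK D k))).map (theK K D.R)).map
    (ModStr.self (K ⊗ D.P)).smr
  exact (isUnit_iff_isIso (f := (ModStr.self (K ⊗ D.P)).smr _)).1 h2

/-- the maps `P ⟶ K ⊗ P`, multiplication by the monomials `b^e` -/
noncomputable def phiK {h p : ℕ} (e : Small (kdeg p h)) : D.P ⟶ K ⊗ D.P :=
  mulEl (Sc.hom (theK K D.R (epsH (bK D k) (MvPolynomial.monomial (e : ℕ →₀ ℕ) 1))))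

end MU

end Vale.Agent.P251.Z
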