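import Vale.Agent.P251.M.EvenPer
import Vale.Agent.P251.M.EvenShift
import Mathlib.RingTheory.Localization.Away.Basic
import Mathlib.Algebra.Polynomial.Eval.Defs
import Mathlib.Algebra.Polynomial.Coeff
import Mathlib.Data.ZMod.Basic

/-!
# P251, part Z: the coefficient ring of a Morava `K`-theory

`K` a commutative monoid whose even homotopy is concentrated in degrees `2 m`, `N ∣ m`, is `𝔽_p` in
degree `0` and has a unit `v` in degree `2 N`. Then `HRing E K` is `𝔽_p[v, v⁻¹]`.
-/

open CategoryTheory MonoidalCategory Limits MonObj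

set_option linter.unusedSectionVars false
set_option linter.style.haveILetI false

universe v u

namespace Vale.Agent.P251.Z

open Vale.Agent.P251.M Vale.Agent.P251.M.EvenSpheres

variable {T : Type u} [Category.{v} T] [MonoidalCategory T] [SymmetricCategory T]
  {E : EvenSpheres T} [Preadditive T] [MonoidalPreadditive T] {K : T} [MonObj K]

/-- The even homotopy ring is `𝔽_p[v, v⁻¹]`, `|v| = 2 N`. -/
structure IsLaurent (E : EvenSpheres T) (p : ℕ) (N : ℕ) (v : E.S N ⟶ K) (w : E.S (-N) ⟶ K) :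
    Prop where
  inv : gmul (neg_add_cancel (N : ℤ)) w v = E.zero.inv ≫ η[K]
  sparse (m : ℤ) (hm : ¬ (N : ℤ) ∣ m) (f : E.S m ⟶ K) : f = 0
  char : (p : ℤ) • η[K] = 0
  ne : η[K] ≠ 0
  gen (f : 𝟙_ T ⟶ K) : ∃ a : ℤ, f = a • η[K]

namespace IsLaurent

variable {p N : ℕ} {v : E.S N ⟶ K} {w : E.S (-N) ⟶ K} [IsCommMonObj K]
  (H : IsLaurent E p N v w)

include H

/-- the class of `v` -/
lemma mul_inv : HRing.of E K N v * HRing.of E K (-N) w = 1 := by
  rw [_root_.mul_comm, of_mul_of (neg_add_cancel (N : ℤ)), H.inv]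
  exact of_one

lemma isUnit : IsUnit (HRing.of E K N v) := IsUnit.of_mul_eq_one _ H.mul_inv

lemma of_one_ne : HRing.of E K 0 (E.zero.inv ≫ η[K]) ≠ 0 := by
  intro h
  have h1 := DirectSum.of_injective (β := E.Gr K) 0 (h.trans (map_zero _).symm)
  apply H.ne
  rw [← cancel_epi E.zero.inv, comp_zero]
  exact h1

lemma one_ne : (1 : HRing E K) ≠ 0 := H.of_one_ne

lemma natCast_p : (p : HRing E K) = 0 := by
  have h1 : (p : HRing E K) = (p : ℤ) • HRing.of E K 0 (E.zero.inv ≫ η[K]) := by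
    rw [of_one, zsmul_one]
    norm_cast
  rw [h1, ← map_zsmul, ← Preadditive.comp_zsmul, H.char, comp_zero]
  exact map_zero _

/-- elements of degree `0` -/
lemma exists_int (f : E.S 0 ⟶ K) : ∃ c : ℤ, HRing.of E K 0 f = (c : HRing E K) := by
  obtain ⟨c, hc⟩ := H.gen (E.zero.hom ≫ f)
  refine ⟨c, ?_⟩
  have h1 : f = c • (E.zero.inv ≫ η[K]) := by
    rw [← Preadditive.comp_zsmul, ← hc, Iso.inv_hom_id_assoc]
  rw [h1]
  exact ((DirectSum.of (E.Gr K) 0).map_zsmul c (E.zero.inv ≫ η[K])).trans (zsmul_one c)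

omit H in
/-- powers of `v` are homogeneous -/
lemma exists_pow (v : E.S N ⟶ K) (k : ℕ) : ∃ f : E.S (k * N : ℤ) ⟶ K,
    HRing.of E K N v ^ k = HRing.of E K (k * N : ℤ) f := by
  induction k with
  | zero =>
    have h : ((0 : ℕ) : ℤ) * N = 0 := by simp
    exact ⟨(E.castIso _ 0 h).hom ≫ E.zero.inv ≫ η[K], by rw [pow_zero, of_cast h]; rfl⟩
  | succ k ih =>
    obtain ⟨f, hf⟩ := ih
    have h : (k * N : ℤ) + N = ((k + 1 : ℕ) : ℤ) * N := by push_cast; ring
    exact ⟨gmul h f v, by rw [pow_succ, hf, of_mul_of h]⟩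

omit H in
/-- powers of `w` are homogeneous -/
lemma exists_pow' (w : E.S (-N) ⟶ K) (k : ℕ) : ∃ f : E.S (-(k * N) : ℤ) ⟶ K,
    HRing.of E K (-N) w ^ k = HRing.of E K (-(k * N) : ℤ) f := by
  induction k with
  | zero =>
    have h : -(((0 : ℕ) : ℤ) * N) = 0 := by simp
    exact ⟨(E.castIso _ 0 h).hom ≫ E.zero.inv ≫ η[K], by rw [pow_zero, of_cast h]; rfl⟩
  | succ k ih =>
    obtain ⟨f, hf⟩ := ih
    have h : (-(k * N) : ℤ) + -N = -(((k + 1 : ℕ) : ℤ) * N) := by push_cast; ring
    exact ⟨gmul h f w, by rw [pow_succ, hf, of_mul_of h]⟩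

/-- Every homogeneous element is `c v^j` -/
lemma exists_of (m : ℤ) (f : E.S m ⟶ K) : ∃ (c : ℤ) (k l : ℕ),
    HRing.of E K m f * HRing.of E K N v ^ k = c * HRing.of E K N v ^ l := by
  by_cases hm : (N : ℤ) ∣ m
  · obtain ⟨j, rfl⟩ := hm
    -- `j + k = l`
    obtain ⟨k, l, hkl⟩ : ∃ k l : ℕ, j + k = l := by
      refine ⟨j.natAbs, (j + j.natAbs).toNat, ?_⟩
      omega
    obtain ⟨g, hg⟩ := exists_pow v k
    obtain ⟨g', hg'⟩ := exists_pow' w l
    have h1 : (N : ℤ) * j + k * N = l * N := by rw [← hkl]; ring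
    have h2 : (l * N : ℤ) + -(l * N) = 0 := by ring
    obtain ⟨c, hc⟩ := H.exists_int (gmul h2 (gmul h1 f g) g')
    refine ⟨c, k, l, ?_⟩
    have h3 : HRing.of E K (-N) w ^ l * HRing.of E K N v ^ l = 1 := by
      rw [← _root_.mul_pow, _root_.mul_comm, H.mul_inv, one_pow]
    rw [← hc, ← of_mul_of h2, ← of_mul_of h1, ← hg, ← hg', _root_.mul_assoc _ _ (_ ^ l), h3,
      _root_.mul_one]
  · refine ⟨0, 0, 0, ?_⟩
    rw [H.sparse m hm f]
    simp

section alg

variable [Fact p.Prime]

lemma charP : CharP (HRing E K) p := by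
  have : Nontrivial (HRing E K) := ⟨_, _, H.one_ne⟩
  exact (CharP.charP_iff_prime_eq_zero Fact.out).2 H.natCast_p

/-- The algebra structure. -/
@[reducible] noncomputable def algebra : Algebra (Polynomial (ZMod p)) (HRing E K) :=
  letI : CharP (HRing E K) p := H.charP
  (Polynomial.eval₂RingHom (ZMod.castHom (dvd_refl p) (HRing E K)) (HRing.of E K N v)).toAlgebra

lemma algebraMap_monomial (k : ℕ) (c : ZMod p) :
    letI := H.algebra
    algebraMap (Polynomial (ZMod p)) (HRing E K) (Polynomial.monomial k c) =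
      (c.val : HRing E K) * HRing.of E K N v ^ k := by
  letI : CharP (HRing E K) p := H.charP
  change Polynomial.eval₂RingHom (ZMod.castHom (dvd_refl p) (HRing E K)) (HRing.of E K N v)
    (Polynomial.monomial k c) = _
  rw [Polynomial.coe_eval₂RingHom, Polynomial.eval₂_monomial]
  congr 1
  rw [← map_natCast (ZMod.castHom (dvd_refl p) (HRing E K)), ZMod.natCast_val, ZMod.cast_id',
    id]

lemma algebraMap_X :
    letI := H.algebra
    algebraMap (Polynomial (ZMod p)) (HRing E K) Polynomial.X = HRing.of E K N v := by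
  letI : CharP (HRing E K) p := H.charP
  exact Polynomial.eval₂_X _ _

/-- The projection to the degree `2 m`. -/
noncomputable def cmp (E : EvenSpheres T) (K : T) (m : ℤ) : HRing E K →+ HRing E K :=
  (DirectSum.of (E.Gr K) m).comp
    (DFinsupp.evalAddMonoidHom m : (Π₀ i, E.Gr K i) →+ E.Gr K m)

omit H [Fact p.Prime] in
lemma cmp_of_same (m : ℤ) (f : E.S m ⟶ K) :
    cmp E K m (HRing.of E K m f) = HRing.of E K m f := by
  change DirectSum.of (E.Gr K) m ((DirectSum.of (E.Gr K) m f) m) = _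
  rw [DirectSum.of_eq_same]

omit H [Fact p.Prime] in
lemma cmp_of_ne (m n : ℤ) (h : n ≠ m) (f : E.S n ⟶ K) :
    cmp E K m (HRing.of E K n f) = 0 := by
  change DirectSum.of (E.Gr K) m ((DirectSum.of (E.Gr K) n f) m) = _
  have h1 : (DirectSum.of (E.Gr K) n f) m = 0 := DirectSum.of_eq_of_ne _ _ _ h.symm
  rw [h1, map_zero]

lemma cmp_algebraMap (hN : N ≠ 0) (f : Polynomial (ZMod p)) (i : ℕ) :
    letI := H.algebra
    cmp E K (i * N : ℤ) (algebraMap (Polynomial (ZMod p)) (HRing E K) f) =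
      ((f.coeff i).val : HRing E K) * HRing.of E K N v ^ i := by
  letI := H.algebra
  letI : CharP (HRing E K) p := H.charP
  induction f using Polynomial.induction_on' with
  | add f g hf hg =>
    rw [map_add, map_add, hf, hg, Polynomial.coeff_add, ← add_mul]
    congr 1
    rw [ZMod.val_add, ← Nat.cast_add]
    exact ((CharP.natCast_eq_natCast_mod (HRing E K) p _))
  | monomial k c =>
    rw [H.algebraMap_monomial, Polynomial.coeff_monomial]
    obtain ⟨g, hg⟩ := exists_pow v k
    have h1 : (c.val : HRing E K) * HRing.of E K N v ^ k =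
        HRing.of E K (k * N : ℤ) (c.val • g) := by
      rw [hg, ← nsmul_eq_mul]
      exact ((DirectSum.of (E.Gr K) _).map_nsmul c.val g).symm
    by_cases hki : k = i
    · subst hki
      rw [if_pos rfl, h1, cmp_of_same]
    · rw [if_neg hki, ZMod.val_zero, Nat.cast_zero, zero_mul, h1, cmp_of_ne]
      intro h
      apply hki
      have hN' : (N : ℤ) ≠ 0 := by exact_mod_cast hN
      have := mul_right_cancel₀ hN' h
      exact_mod_cast this

lemma algebraMap_injective (hN : N ≠ 0) :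
    letI := H.algebra
    Function.Injective (algebraMap (Polynomial (ZMod p)) (HRing E K)) := by
  letI := H.algebra
  letI : CharP (HRing E K) p := H.charP
  rw [injective_iff_map_eq_zero]
  intro f hf
  ext i
  have h1 := H.cmp_algebraMap hN f i
  rw [hf, map_zero] at h1
  have h2 : ((f.coeff i).val : HRing E K) = 0 :=
    ((H.isUnit.pow i).mul_left_eq_zero).1 h1.symm
  rw [CharP.cast_eq_zero_iff (HRing E K) p] at h2
  have h3 : (f.coeff i).val = 0 := Nat.eq_zero_of_dvd_of_lt h2 (ZMod.val_lt _)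
  rw [Polynomial.coeff_zero]
  exact (ZMod.val_eq_zero _).1 h3

lemma surj (z : HRing E K) :
    letI := H.algebra
    ∃ (k : ℕ) (f : Polynomial (ZMod p)),
      z * HRing.of E K N v ^ k = algebraMap (Polynomial (ZMod p)) (HRing E K) f := by
  letI := H.algebra
  induction z using DirectSum.induction_on with
  | zero => exact ⟨0, 0, by simp⟩
  | of m f =>
    obtain ⟨c, k, l, h⟩ := H.exists_of m f
    refine ⟨k, Polynomial.C ((c : ℤ) : ZMod p) * Polynomial.X ^ l, ?_⟩
    rw [map_mul, map_pow, H.algebraMap_X]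
    refine h.trans ?_
    rw [map_intCast, map_intCast]
  | add x y hx hy =>
    obtain ⟨k, f, hf⟩ := hx
    obtain ⟨l, g, hg⟩ := hy
    refine ⟨k + l, f * Polynomial.X ^ l + g * Polynomial.X ^ k, ?_⟩
    rw [map_add, map_mul, map_mul, map_pow, map_pow, H.algebraMap_X, ← hf, ← hg]
    ring

/-- `HRing E K = 𝔽_p[v, v⁻¹]`. -/
theorem isLocalization (hN : N ≠ 0) :
    letI := H.algebra
    IsLocalization.Away (Polynomial.X : Polynomial (ZMod p)) (HRing E K) := by
  letI := H.algebra
  refine { map_units := ?_, surj := ?_, exists_of_eq := ?_ }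
  · rintro ⟨_, k, rfl⟩
    change IsUnit (algebraMap _ _ (Polynomial.X ^ k))
    rw [map_pow, H.algebraMap_X]
    exact H.isUnit.pow k
  · intro z
    obtain ⟨k, f, hf⟩ := H.surj z
    refine ⟨(f, ⟨Polynomial.X ^ k, k, rfl⟩), ?_⟩
    change z * algebraMap _ _ (Polynomial.X ^ k) = _
    rw [map_pow, H.algebraMap_X]
    exact hf
  · intro x y hxy
    exact ⟨1, by rw [H.algebraMap_injective hN hxy]⟩

end alg

end IsLaurent

end Vale.Agent.P251.Z
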