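import Vale.Agent.P251.I.Spaces
import Vale.Agent.P251.S.Defs
import Vale.Agent.P251.G.Gr

/-!
# P251, part Z: the final statement (definitions)

Everything is stated for a stable homotopy category `T` (`StableCat`: a closed tensor triangulated
category with products and coproducts, generated by its compact unit) with a suspension spectrum
functor `S : SpaceFunctor T` from finite cell spaces.

* `Oriented S K` : multiplicative Thom classes for complex vector bundles in the commutative ring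
  spectrum `K`.
* `IsMorava S p n K` : `K` is a Morava `K`-theory of height `n` at `p`.
* `NoRetraction` : the map `L_{n-1} S_p ⟶ L_{n-1} L_{K(n)} S_p` has no retraction.
-/

open CategoryTheory MonoidalCategory Limits Pretriangulated MonObj Matrix OnePoint

universe v u

namespace Vale.Agent.P251.Z

open Vale.Agent.P251.G Vale.Agent.P251.G.LC Vale.Agent.P251.I Vale.Agent.P251.T
  Vale.Agent.P251.S

/-! ### Space level: Grassmannians, Thom spaces, maps between them -/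

/-- `ℂ^n`; its one-point compactification is the sphere of dimension `2 n`. -/
noncomputable abbrev Cn (n : ℕ) : LC := LC.of (Fin n → ℂ)

/-- The Grassmannians, the total spaces of the tautological bundles and the `ℂ^n` are finite cell
spaces. -/
class Cells : Prop where
  gr (n : ℕ) (A : Type) [Fintype A] : LC.FC (LC.of (Gr n A))
  th (n : ℕ) (A : Type) [Fintype A] : LC.FC (LC.of (Th n A))
  cn (n : ℕ) : LC.FC (Cn n)

section maps

variable {A B : Type} [Fintype A] [Fintype B] {m n : ℕ}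

/-- `f : X ⟶ Th n A` is the map `x ↦ (P x, v x)`. -/
def IsPair {X : LC} (P : X → Matrix A A ℂ) (v : X → A → ℂ) (f : X ⟶ LC.of (Th n A)) : Prop :=
  ∀ x : X, ∃ y : Th n A, app f (x : OnePoint X) = (y : OnePoint (Th n A)) ∧ y.P = P x ∧ y.v = v x

/-- `f : Th n A ⊗ Th m B ⟶ Th (n + m) (A ⊕ B)` is the direct sum of bundles,
`((P, v), (Q, w)) ↦ (P ⊕ Q, v ⊕ w)`. -/
def IsSum (f : LC.of (Th n A) ⊗ LC.of (Th m B) ⟶ LC.of (Th (n + m) (A ⊕ B))) : Prop :=
  IsPair (X := LC.of (Th n A × Th m B)) (fun x => fromBlocks x.1.P 0 0 x.2.P)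
    (fun x => Sum.elim x.1.v x.2.v) f

/-- `g : ℂ^n × ℂ^m ≅ ℂ^(n+m)` is the standard homeomorphism. -/
def IsAppend (g : Cn n ⊗ Cn m ≅ Cn (n + m)) : Prop :=
  ∀ (x : Fin n → ℂ) (y : Fin m → ℂ),
    app g.hom (((x, y) : (Fin n → ℂ) × (Fin m → ℂ)) : OnePoint ((Fin n → ℂ) × (Fin m → ℂ))) =
      ((Fin.append x y : Fin (n + m) → ℂ) : OnePoint (Fin (n + m) → ℂ))

/-- `e : ℂP(A) ⟶ Th r (Fin r × A)` is the zero section of the sum of `r` copies of the
tautological line bundle. -/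
def IsMultiple (r : ℕ) (e : LC.of (Gr 1 A) ⟶ LC.of (Th r (Fin r × A))) : Prop :=
  IsPair (X := LC.of (Gr 1 A)) (fun x i j => if i.1 = j.1 then x.P i.2 j.2 else 0) (fun _ => 0) e

/-- `e : ℂP(A) ⟶ Th 1 (Fin r → A)` is the zero section of the `r`-th tensor power of the
tautological line bundle. -/
def IsTensorPower (r : ℕ) (e : LC.of (Gr 1 A) ⟶ LC.of (Th 1 (Fin r → A))) : Prop :=
  IsPair (X := LC.of (Gr 1 A)) (fun x i j => ∏ k, x.P (i k) (j k)) (fun _ => 0) e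

end maps

/-! ### Ring spectra: orientations, Morava K-theories -/

section spectra

variable {T : Type u} [Category.{v} T] [Preadditive T] [HasZeroObject T]
  [HasShift T ℤ] [∀ n : ℤ, (shiftFunctor T n).Additive] [Pretriangulated T]
  [MonoidalCategory T] [SymmetricCategory T] [TensorTriangulated T]
  [FCP.IsMonoidal] [Cells]

/-- `Gr n A` as a finite cell space -/
noncomputable abbrev grF (n : ℕ) (A : Type) [Fintype A] : FCat := ⟨LC.of (Gr n A), Cells.gr n A⟩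

/-- `Th n A` as a finite cell space -/
noncomputable abbrev thF (n : ℕ) (A : Type) [Fintype A] : FCat := ⟨LC.of (Th n A), Cells.th n A⟩

/-- `ℂ^n` as a finite cell space -/
noncomputable abbrev cnF (n : ℕ) : FCat := ⟨Cn n, Cells.cn n⟩

variable (S : SpaceFunctor T)

/-- The spectrum `S^(2n) = Σ^∞ (ℂ^n)⁺`. -/
noncomputable abbrev SC (n : ℕ) : T := S.S.obj (cnF n)

/-- the map of spectra induced by a map of finite cell spaces -/
noncomputable abbrev sus {X Y : FCat} (f : X.obj ⟶ Y.obj) : S.S.obj X ⟶ S.S.obj Y :=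
  S.S.map (FCat.hom f)

/-- the identification `S^(2n) ⊗ S^(2m) ≅ S^(2(n+m))` induced by `g : ℂ^n × ℂ^m ≅ ℂ^(n+m)` -/
noncomputable def SCadd {n m : ℕ} (g : Cn n ⊗ Cn m ≅ Cn (n + m)) :
    SC S n ⊗ SC S m ≅ SC S (n + m) :=
  Functor.Monoidal.μIso S.S (cnF n) (cnF m) ≪≫
    S.S.mapIso ((FCP).isoMk (X := cnF n ⊗ cnF m) (Y := cnF (n + m)) g)

/-- A complex orientation of the ring spectrum `K`: a multiplicative family of Thom classes
`θ n A ∈ K^(2n)(Th n A)` of the tautological bundles, which are compatible with isometries, direct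
sums and normalised on the fibre `ℂ^n`. -/
structure Oriented (K : T) [MonObj K] where
  /-- the Thom classes -/
  θ (n : ℕ) (A : Type) [Fintype A] : S.S.obj (thF n A) ⟶ K ⊗ SC S n
  /-- compatibility with the maps `(P, v) ↦ (u P u*, u v)`, for isometries `u : ℂ^A → ℂ^B` -/
  isom {n : ℕ} {A B : Type} [Fintype A] [Fintype B] [DecidableEq A] (u : Matrix B A ℂ)
    (hu : uᴴ * u = 1) (f : LC.of (Th n A) ⟶ LC.of (Th n B))
    (hf : IsPair (X := LC.of (Th n A)) (fun x => u * x.P * uᴴ) (fun x => u *ᵥ x.v) f) :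
    sus S (X := thF n A) (Y := thF n B) f ≫ θ n B = θ n A
  /-- the Thom class of a direct sum is the product of the Thom classes -/
  sum {n m : ℕ} {A B : Type} [Fintype A] [Fintype B]
    (f : LC.of (Th n A) ⊗ LC.of (Th m B) ⟶ LC.of (Th (n + m) (A ⊕ B))) (hf : IsSum f)
    (g : Cn n ⊗ Cn m ≅ Cn (n + m)) (hg : IsAppend g) :
    sus S (X := thF n A ⊗ thF m B) (Y := thF (n + m) (A ⊕ B)) f ≫ θ (n + m) (A ⊕ B) =
      (Functor.Monoidal.μIso S.S (thF n A) (thF m B)).inv ≫ (θ n A ⊗ₘ θ m B) ≫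
        tensorμ K (SC S n) K (SC S m) ≫ (μ[K] ⊗ₘ (SCadd S g).hom)
  /-- the Thom class restricts to the unit on the fibre `ℂ^n` -/
  fibre (n : ℕ) (f : Cn n ⟶ LC.of (Th n (Fin n)))
    (hf : IsPair (X := Cn n) (fun _ => 1) (fun x => x) f) :
    sus S (X := cnF n) (Y := thF n (Fin n)) f ≫ θ n (Fin n) = (λ_ (SC S n)).inv ≫ η[K] ▷ SC S n

/-- Multiplication `K^{2(N+1)}(-) ⟶ K^2(-)` by the homotopy class `a : S^(2N) ⟶ K`. -/
noncomputable def mulBy {K : T} [MonObj K] {N : ℕ} (a : SC S N ⟶ K)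
    (g : Cn N ⊗ Cn 1 ≅ Cn (N + 1)) : K ⊗ SC S (N + 1) ⟶ K ⊗ SC S 1 :=
  K ◁ (SCadd S g).inv ≫ K ◁ (a ▷ SC S 1) ≫ (α_ K K (SC S 1)).inv ≫ μ[K] ▷ SC S 1

/-- `K` is a Morava `K`-theory of height `n ≥ 1` at the prime `p`, with complex orientation `o`:
`π_* K = 𝔽_p[v^{±1}]` with `|v| = 2 (p^n - 1) = 2 N`, and the `p`-series of the orientation is
`[p](x) = v x^{p^n}` modulo `x^{p^n + 1}`. -/
structure IsMoravaPos (p n : ℕ) {K : T} [MonObj K] (o : Oriented S K) : Prop where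
  /-- the homotopy is concentrated in degrees divisible by `2 (p^n - 1)` -/
  sparse (k : ℤ) (hk : ¬ (2 * ((p : ℤ) ^ n - 1) ∣ k)) (f : (𝟙_ T)⟦k⟧ ⟶ K) : f = 0
  /-- `π_0 K = 𝔽_p` -/
  char : (p : ℤ) • η[K] = 0
  ne : η[K] ≠ 0
  gen (f : 𝟙_ T ⟶ K) : ∃ a : ℤ, f = a • η[K]
  /-- the element `v`, its inverse `w` and the `p`-series -/
  height (N : ℕ) (hN : N + 1 = p ^ n) : ∃ (v : SC S N ⟶ K) (w : 𝟙_ T ⟶ K ⊗ SC S N),
    w ≫ K ◁ v ≫ μ[K] = η[K] ∧
      ∀ (g : Cn N ⊗ Cn 1 ≅ Cn (N + 1)) (_ : IsAppend g)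
        (t : LC.of (Gr 1 (Fin (N + 2))) ⟶ LC.of (Th 1 (Fin p → Fin (N + 2))))
        (_ : IsTensorPower p t)
        (e : LC.of (Gr 1 (Fin (N + 2))) ⟶ LC.of (Th (N + 1) (Fin (N + 1) × Fin (N + 2))))
        (_ : IsMultiple (N + 1) e),
        sus S (X := grF 1 (Fin (N + 2))) (Y := thF 1 (Fin p → Fin (N + 2))) t ≫ o.θ 1 _ =
          sus S (X := grF 1 (Fin (N + 2))) (Y := thF (N + 1) (Fin (N + 1) × Fin (N + 2))) e ≫
            o.θ (N + 1) _ ≫ mulBy S v g

/-- `K` is the rational Eilenberg-Mac Lane spectrum `Hℚ = K(0)`: its homotopy is `ℚ` in degree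
`0`. -/
structure IsRational (K : T) [MonObj K] : Prop where
  conc (k : ℤ) (hk : k ≠ 0) (f : (𝟙_ T)⟦k⟧ ⟶ K) : f = 0
  ne : η[K] ≠ 0
  div (m : ℤ) (hm : m ≠ 0) : Function.Bijective fun f : 𝟙_ T ⟶ K => m • f
  gen (f : 𝟙_ T ⟶ K) : ∃ a m : ℤ, m ≠ 0 ∧ m • f = a • η[K]

/-- `K` is a Morava `K`-theory of height `n` at the prime `p`. -/
def IsMorava (p : ℕ) : (n : ℕ) → (K : T) → [MonObj K] → Prop
  | 0, K, _ => IsRational K
  | n + 1, K, _ => IsCommMonObj K ∧ ∃ o : Oriented S K, IsMoravaPos S p (n + 1) o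

end spectra

section bousfield

variable {T : Type u} [Category.{v} T] [MonoidalCategory T] [Preadditive T]

/-- `f : X ⟶ Y` is the Bousfield localization of `X` with respect to `K`: it is a
`K`-equivalence, and `Y` is `K`-local. -/
def IsLoc (K : T) {X Y : T} (f : X ⟶ Y) : Prop :=
  IsIso (K ◁ f) ∧ IsLocal K Y

end bousfield

section final

variable {T : Type u} [Category.{v} T] [Preadditive T] [HasZeroObject T]
  [HasShift T ℤ] [∀ n : ℤ, (shiftFunctor T n).Additive] [Pretriangulated T]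
  [MonoidalCategory T] [SymmetricCategory T] [TensorTriangulated T]
  [FCP.IsMonoidal] [Cells]

/-- `E` has the Bousfield class of `K(0) ∨ ⋯ ∨ K(n-1)`, which is the one of the Johnson-Wilson
spectrum `E(n-1)`. -/
def IsClassE (n : ℕ) (K : ℕ → T) (E : T) : Prop :=
  ∀ W : T, Acyclic E W ↔ ∀ i < n, Acyclic (K i) W

/-- The canonical map `L_{n-1} S_p ⟶ L_{n-1} L_{K(n)} S_p` has no retraction. Here:
`K 0, …, K n` are Morava `K`-theories of heights `0, …, n` at `p`, `E` is a spectrum with the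
Bousfield class of `K 0 ∨ ⋯ ∨ K (n-1)` (such as `E(n-1)`), `M` is the mod `p` Moore spectrum,
`c : 𝟙 ⟶ Sp` is the `p`-completion of the sphere, `l : Sp ⟶ X` is the `E`-localization of `Sp`,
`z : Sp ⟶ Z` the `K(n)`-localization of `Sp`, `y : Z ⟶ Y` the `E`-localization of `Z`, and
`i : X ⟶ Y` the induced map. -/
def NoRetraction (S : SpaceFunctor T) (p n : ℕ) : Prop :=
  ∀ (K : ℕ → T) [∀ i, MonObj (K i)] (_ : ∀ i ≤ n, IsMorava S p i (K i))
    (E : T) (_ : IsClassE n K E)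
    (M : T) (a : 𝟙_ T ⟶ M) (b : M ⟶ (𝟙_ T)⟦(1 : ℤ)⟧)
    (_ : Triangle.mk ((p : ℤ) • 𝟙 (𝟙_ T)) a b ∈ distTriang T)
    (Sp X Z Y : T) (c : 𝟙_ T ⟶ Sp) (_ : IsLoc M c) (l : Sp ⟶ X) (_ : IsLoc E l)
    (z : Sp ⟶ Z) (_ : IsLoc (K n) z) (y : Z ⟶ Y) (_ : IsLoc E y)
    (i : X ⟶ Y) (_ : l ≫ i = z ≫ y),
    ¬ ∃ r : Y ⟶ X, i ≫ r = 𝟙 X

end final

end Vale.Agent.P251.Z
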