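import Vale.Agent.P251.Z.KRing
import Vale.Agent.P251.Z.Statement

/-!
# P251, part Z: the coefficient ring of a Morava `K`-theory, from `IsMoravaPos`
-/

open CategoryTheory MonoidalCategory Limits MonObj Pretriangulated

set_option linter.unusedSectionVars false

universe v u

namespace Vale.Agent.P251.Z

open Vale.Agent.P251.M Vale.Agent.P251.M.EvenSpheres Vale.Agent.P251.I Vale.Agent.P251.T
  Vale.Agent.P251.G

section inv

variable {T : Type u} [Category.{v} T] [MonoidalCategory T] [SymmetricCategory T]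
  {E : EvenSpheres T} {K : T} [MonObj K]

/-- The inverse of a unit of the homotopy ring, given as a map `𝟙 ⟶ K ⊗ S^{2n}`. -/
lemma exists_inverse {n : ℤ} (v : E.S n ⟶ K) (w : 𝟙_ T ⟶ K ⊗ E.S n)
    (hw : w ≫ K ◁ v ≫ μ[K] = η[K]) :
    ∃ a : E.S (-n) ⟶ K, gmul (neg_add_cancel n) a v = E.zero.inv ≫ η[K] := by
  obtain ⟨a, ha⟩ := whiskerRight_surj (E.S n)
    ((E.mu (-n) n 0 (neg_add_cancel n)).hom ≫ E.zero.inv ≫ w)
  refine ⟨a, ?_⟩
  rw [gmul, EvenSpheres.ext, tensorHom_def, Category.assoc, Category.assoc, ha]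
  simp only [Category.assoc, Iso.inv_hom_id_assoc, hw]

end inv

variable {T : Type u} [Category.{v} T] [Preadditive T] [HasZeroObject T]
  [HasShift T ℤ] [∀ n : ℤ, (shiftFunctor T n).Additive] [Pretriangulated T]
  [MonoidalCategory T] [SymmetricCategory T] [TensorTriangulated T]
  [FCP.IsMonoidal] [Cells] (S : SpaceFunctor T)

/-- The coefficient ring of a Morava `K`-theory. -/
theorem IsMoravaPos.exists_isLaurent {p n : ℕ} {K : T} [MonObj K] {o : Oriented S K}
    (hK : IsMoravaPos S p n o) (N : ℕ) (hN : N + 1 = p ^ n) (e : SC S N ≅ (stdEven T).S N)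
    (v : SC S N ⟶ K) (w : 𝟙_ T ⟶ K ⊗ SC S N) (hw : w ≫ K ◁ v ≫ μ[K] = η[K]) :
    ∃ a : (stdEven T).S (-N) ⟶ K, IsLaurent (stdEven T) p N (e.inv ≫ v) a := by
  obtain ⟨a, ha⟩ := exists_inverse (E := stdEven T) (e.inv ≫ v) (w ≫ K ◁ e.hom) (by
    rw [Category.assoc, ← MonoidalCategory.whiskerLeft_comp_assoc, Iso.hom_inv_id_assoc, hw])
  refine ⟨a, ha, fun m hm f => ?_, hK.char, hK.ne, hK.gen⟩
  rw [← cancel_epi ((stdEven T).sphIso (Iso.refl _) m).inv, comp_zero]
  refine hK.sparse (2 * m) ?_ _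
  have hN' : (p : ℤ) ^ n - 1 = N := by
    have : (N : ℤ) + 1 = (p : ℤ) ^ n := by exact_mod_cast hN
    linarith
  rw [hN']
  intro h
  exact hm ((mul_dvd_mul_iff_left (two_ne_zero' ℤ)).1 h)

end Vale.Agent.P251.Z
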