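import Vale.Agent.P251.I.M2
import Vale.Agent.P251.Z.OrFam
import Vale.Agent.P251.Z.MoravaP
import Vale.Agent.P251.Z.KRingOf

/-!
# P251, part Z: comparison (a)

`exists_hom_of_morava` : a Morava `K`-theory `K` of height `n` receives a monoid map from `MU` such
that `v_i = 0` for `i < n` and `v_n` is invertible on it.

`acyclic_of_kos` : the objects which are acyclic for the Koszul object of height `n` are
`K`-acyclic.
-/

open CategoryTheory MonoidalCategory Limits Pretriangulated MonObj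

set_option linter.unusedSectionVars false

universe v u

namespace Vale.Agent.P251.Z

open Vale.Agent.P251.T Vale.Agent.P251.M Vale.Agent.P251.S Vale.Agent.P251.F Vale.Agent.P251.I

variable {T : Type u} [Category.{v} T] [Preadditive T] [HasZeroObject T]
    [HasShift T ℤ] [∀ n : ℤ, (shiftFunctor T n).Additive] [Pretriangulated T] [IsTriangulated T]
    [MonoidalCategory T] [SymmetricCategory T] [TensorTriangulated T] [MonoidalClosed T]
    [HasCoproducts.{0} T] [HasProducts.{0} T] [StableCat T] {F : SpaceFunctor T} {e : F.S.obj CCF ≅ (stdEven T).L} {D : MUData T}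

/-- the Morava `K`-theory `K` as an algebra over `MU` -/
theorem exists_hom_of_morava (H : MUUniv e D) {p n : ℕ} (hp : 1 < p) {K : T} [MonObj K]
    [IsCommMonObj K] (o : Oriented F K) (hK : IsMoravaPos F p n o) (N : ℕ) (hN : N + 1 = p ^ n) :
    ∃ (u : D.R ⟶ K) (_ : IsMonHom u) (v : SC F N ⟶ K) (w : 𝟙_ T ⟶ K ⊗ SC F N),
      w ≫ K ◁ v ≫ μ[K] = η[K] ∧
      (∀ i < n, vv p i (D.law.map (HRing.map (E := stdEven T) u)) = 0) ∧
      vv p n (D.law.map (HRing.map (E := stdEven T) u)) =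
        HRing.of (stdEven T) K N (inv (sph e N) ≫ v) := by
  obtain ⟨u, hu, h⟩ := H.univ K (famK e o)
  obtain ⟨v, w, h1, h2, h3⟩ := IsFam.vv (hF := cofTriangles F)
    (hs := isSusp_lineCls e (SeqMonoid.const K)) (isFam_famK e o) hp hK N hN
  exact ⟨u, hu, v, w, h1, by rw [h]; exact h2, by rw [h]; exact h3⟩

/-- a homogeneous element of the homotopy ring whose component is invertible -/
theorem isUnit_of_inv {E : EvenSpheres T} {K : T} [MonObj K] [IsCommMonObj K] {N : ℕ}
    (e' : F.S.obj (cnF N) ≅ E.S N) (v : SC F N ⟶ K) (w : 𝟙_ T ⟶ K ⊗ SC F N)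
    (h : w ≫ K ◁ v ≫ μ[K] = η[K]) : IsUnit (HRing.of E K N (e'.inv ≫ v)) := by
  obtain ⟨a, ha⟩ := exists_inverse (E := E) (e'.inv ≫ v) (w ≫ K ◁ e'.hom) (by
    rw [Category.assoc, ← MonoidalCategory.whiskerLeft_comp_assoc, Iso.hom_inv_id_assoc, h])
  refine IsUnit.of_mul_eq_one (HRing.of E K (-(N : ℤ)) a) ?_
  rw [mul_comm, M.of_mul_of (neg_add_cancel (N : ℤ)), ha]
  exact M.of_one

/-- **Comparison (a)** for Morava `K`-theories. -/
theorem acyclic_of_kos (H : MUUniv e D) {p n : ℕ} [Fact p.Prime] (hn : 1 ≤ n) {K : T}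
    [MonObj K] [IsCommMonObj K] (o : Oriented F K) (hK : IsMoravaPos F p n o)
    (Z : KosData D.P (p : ℤ) n (D.vs p)) {W : T} (hW : Acyclic Z.K W) : Acyclic K W := by
  have hp : 1 < p := (Fact.out : p.Prime).one_lt
  obtain ⟨N, hN⟩ : ∃ N, N + 1 = p ^ n := ⟨p ^ n - 1, Nat.sub_add_cancel (Nat.one_le_pow _ _ (by omega))⟩
  obtain ⟨u, hu, v, w, h1, h2, h3⟩ := exists_hom_of_morava H hp o hK N hN
  refine acyclic_of_height D u p hn (fun i hi => ?_) ?_ Z hW
  · rw [h2 i hi]
    exact IsNilpotent.zero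
  · rw [h3]
    exact isUnit_of_inv (asIso (sph e N)) v w h1

end Vale.Agent.P251.Z
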