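import Vale.Agent.P251.S.KosData
import Vale.Agent.P251.Z.Chase

/-!
# P251, part Z: objects acyclic for the Moore object are acyclic for the Koszul objects
-/

open CategoryTheory MonoidalCategory Limits MonObj Pretriangulated

set_option linter.unusedSectionVars false

universe v u

namespace Vale.Agent.P251.Z

open Vale.Agent.P251.T Vale.Agent.P251.S

variable {T : Type u} [Category.{v} T] [Preadditive T] [HasZeroObject T] [HasShift T ℤ]
  [∀ n : ℤ, (shiftFunctor T n).Additive] [Pretriangulated T]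
  [MonoidalCategory T] [SymmetricCategory T] [TensorTriangulated T]

lemma isZero_whisker {A B : T} (h : IsZero A) : IsZero (A ⊗ B) := by
  rw [IsZero.iff_id_eq_zero] at h ⊢
  rw [← id_whiskerRight, h]
  exact ((tensorRight B).map_zero _ _)

/-- `Acyclic` is invariant under isomorphism of the first object. -/
lemma acyclic_of_iso_left {K K' W : T} (e : K ≅ K') (h : Acyclic K W) : Acyclic K' W :=
  IsZero.of_iso h (whiskerRightIso e.symm W)

/-- If `W` is `A`-acyclic, it is `A ⊗ B`-acyclic. -/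
lemma acyclic_tensor_right {A W : T} (B : T) (h : Acyclic A W) : Acyclic (A ⊗ B) W := by
  have e : (A ⊗ B) ⊗ W ≅ (A ⊗ W) ⊗ B :=
    α_ A B W ≪≫ whiskerLeftIso A (β_ B W) ≪≫ (α_ A W B).symm
  exact IsZero.of_iso (isZero_whisker h) e

/-- If `W` is `B`-acyclic, it is `A ⊗ B`-acyclic. -/
lemma acyclic_tensor_left {B W : T} (A : T) (h : Acyclic B W) : Acyclic (A ⊗ B) W :=
  acyclic_of_iso_left (β_ B A) (acyclic_tensor_right A h)

/-- two cofibres of the same map are isomorphic -/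
lemma cofibre_iso {X Y C C' : T} {f : X ⟶ Y} {g : Y ⟶ C} {h : C ⟶ X⟦(1 : ℤ)⟧} {g' : Y ⟶ C'}
    {h' : C' ⟶ X⟦(1 : ℤ)⟧} (H : Triangle.mk f g h ∈ distTriang T)
    (H' : Triangle.mk f g' h' ∈ distTriang T) : Nonempty (C ≅ C') := by
  have e := isoTriangleOfIso₁₂ _ _ H H' (Iso.refl X) (Iso.refl Y)
    ((Category.comp_id f).trans (Category.id_comp f).symm)
  exact ⟨Triangle.π₃.mapIso e⟩

variable [HasCoproducts.{0} T]

/-- `M`-acyclic objects are acyclic for the Koszul objects of height `≥ 1`, `M` the cofibre of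
`p`. -/
theorem acyclic_kos_of_moore {P : T} [MonObj P] {p : ℤ} {h : ℕ} {v : ℕ → (𝟙_ T ⟶ P)}
    (D : KosData P p h v) (hh : 1 ≤ h) {M : T} {a : 𝟙_ T ⟶ M} {b : M ⟶ (𝟙_ T)⟦(1 : ℤ)⟧}
    (hM : Triangle.mk (p • 𝟙 (𝟙_ T)) a b ∈ distTriang T) {W : T} (hW : Acyclic M W) :
    Acyclic D.K W := by
  obtain ⟨e⟩ := cofibre_iso hM D.dist0
  have h0 : Acyclic (D.Q 0) W := acyclic_of_iso_left e hW
  have h1 : ∀ i, Acyclic (D.kos (i + 1)) W := by
    intro i
    induction i with
    | zero => exact acyclic_tensor_left _ h0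
    | succ i ih => exact acyclic_tensor_right _ ih
  obtain ⟨i, rfl⟩ : ∃ i, h = i + 1 := ⟨h - 1, by omega⟩
  exact acyclic_tensor_right _ (h1 i)

end Vale.Agent.P251.Z
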