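import Vale.Agent.P251.Z.Chase
import Vale.Agent.P251.S.LocMod

/-!
# P251, part Z: from the two halves of the witness to the absence of retractions

`M` is the cofibre of `p : 𝟙 ⟶ 𝟙`, `f₀ : 𝟙⟦m⟧ ⟶ 𝟙` an element whose image in `L_{KK} M` vanishes and
whose image in `L_{KK'} M` does not vanish. Then for the localizations `Sp ⟶ X`, `Sp ⟶ Z`, `Z ⟶ Y`
of the `p`-complete sphere as in the chromatic splitting conjecture, `X ⟶ Y` has no retraction.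
-/

open CategoryTheory MonoidalCategory Limits Pretriangulated

set_option linter.unusedSectionVars false

universe v u

namespace Vale.Agent.P251.Z

open Vale.Agent.P251.T Vale.Agent.P251.S

variable {T : Type u} [Category.{v} T] [Preadditive T] [HasZeroObject T]
  [HasShift T ℤ] [∀ n : ℤ, (shiftFunctor T n).Additive] [Pretriangulated T]
  [MonoidalCategory T] [SymmetricCategory T] [TensorTriangulated T]

section Moore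

variable {p : ℤ} {M : T} {a : 𝟙_ T ⟶ M} {b : M ⟶ (𝟙_ T)⟦(1 : ℤ)⟧}
  (hM : Triangle.mk (p • 𝟙 (𝟙_ T)) a b ∈ distTriang T)

include hM

/-- `p` kills `a : 𝟙 ⟶ M`. -/
lemma moore_smul : p • a = 0 := by
  have h := comp_distTriang_mor_zero₁₂ _ hM
  change (p • 𝟙 (𝟙_ T)) ≫ a = 0 at h
  rwa [Preadditive.zsmul_comp, Category.id_comp] at h

/-- An element of `π_m Z` which vanishes in `Z ⊗ M` is divisible by `p`. -/
lemma moore_divisible {W Z : T} (e : W ⟶ Z) (he : e ≫ (ρ_ Z).inv ≫ (Z ◁ a) = 0) :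
    ∃ e' : W ⟶ Z, e = p • e' := by
  have h1 := TensorTriangulated.distinguished Z _ hM
  obtain ⟨g, hg⟩ : ∃ g : W ⟶ Z ⊗ 𝟙_ T, e ≫ (ρ_ Z).inv = g ≫ (Z ◁ (p • 𝟙 (𝟙_ T))) :=
    Triangle.coyoneda_exact₂ _ h1 (e ≫ (ρ_ Z).inv) ((Category.assoc _ _ _).trans he)
  have h2 : Z ◁ (p • 𝟙 (𝟙_ T)) = p • 𝟙 (Z ⊗ 𝟙_ T) := by
    have := map_zsmul ((tensorLeft Z).mapAddHom (X := 𝟙_ T) (Y := 𝟙_ T)) p (𝟙 _)
    change Z ◁ (p • 𝟙 (𝟙_ T)) = p • (Z ◁ 𝟙 (𝟙_ T)) at this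
    rw [this, MonoidalCategory.whiskerLeft_id]
  refine ⟨g ≫ (ρ_ Z).hom, ?_⟩
  rw [← Preadditive.zsmul_comp, ← Category.comp_id g, ← Preadditive.comp_zsmul, ← h2, ← hg,
    Category.assoc, Iso.inv_hom_id, Category.comp_id]

/-- The fibre of `p`. -/
lemma moore_fibre : ∃ (DM : T) (π : DM ⟶ 𝟙_ T) (δ : 𝟙_ T ⟶ DM⟦(1 : ℤ)⟧),
    Triangle.mk π (p • 𝟙 (𝟙_ T)) δ ∈ distTriang T :=
  ⟨_, _, _, inv_rot_of_distTriang _ hM⟩

/-- `- ⊗ M` preserves local objects. -/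
lemma tensLoc_moore (K : T) : TensLoc K M :=
  TensLoc.ext₃ hM tensLoc_unit tensLoc_unit

end Moore

/-- A map which vanishes on the fibre of `p` is divisible by `p`. -/
lemma divisible_of_fibre {p : ℤ} {DM : T} {π : DM ⟶ 𝟙_ T} {δ : 𝟙_ T ⟶ DM⟦(1 : ℤ)⟧}
    (h : Triangle.mk π (p • 𝟙 (𝟙_ T)) δ ∈ distTriang T) (m : ℤ) {Z : T} (e : (𝟙_ T)⟦m⟧ ⟶ Z)
    (he : π⟦m⟧' ≫ e = 0) : ∃ e' : (𝟙_ T)⟦m⟧ ⟶ Z, e = p • e' := by
  obtain ⟨w, hw⟩ : ∃ w, Triangle.mk (π⟦m⟧') ((p • 𝟙 (𝟙_ T))⟦m⟧') w ∈ distTriang T :=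
    exists_dist_shift h m
  obtain ⟨g, hg⟩ : ∃ g : (𝟙_ T)⟦m⟧ ⟶ Z, e = ((p • 𝟙 (𝟙_ T))⟦m⟧') ≫ g :=
    Triangle.yoneda_exact₂ _ hw e he
  refine ⟨g, ?_⟩
  rw [hg, Functor.map_zsmul, CategoryTheory.Functor.map_id, Preadditive.zsmul_comp,
    Category.id_comp]

/-- The witness argument. -/
theorem noRetraction_of_witness {p : ℤ} {M : T} {a : 𝟙_ T ⟶ M} {b : M ⟶ (𝟙_ T)⟦(1 : ℤ)⟧}
    (hM : Triangle.mk (p • 𝟙 (𝟙_ T)) a b ∈ distTriang T) {m : ℤ} (f₀ : (𝟙_ T)⟦m⟧ ⟶ 𝟙_ T)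
    {KK KK' : T} (F : LocFunctor KK) (F' : LocFunctor KK')
    (hI : f₀ ≫ a ≫ F.u M = 0) (hII : f₀ ≫ a ≫ F'.u M ≠ 0)
    {K K' E : T} (h1 : ∀ W : T, Acyclic KK W → Acyclic K W)
    (h2 : ∀ W : T, Acyclic K' W → Acyclic KK' W) (hE : ∀ W : T, Acyclic E W → Acyclic K' W)
    (hp : ∀ W : T, Acyclic M W → Acyclic KK' W)
    {Sp X Z Y : T} (c : 𝟙_ T ⟶ Sp) (hc : IsIso (M ◁ c)) (l : Sp ⟶ X) (hl : IsIso (E ◁ l))
    (z : Sp ⟶ Z) (hZ : IsLocal K Z) (y : Z ⟶ Y) (i : X ⟶ Y) (hi : l ≫ i = z ≫ y) :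
    ¬ ∃ r : Y ⟶ X, i ≫ r = 𝟙 X := by
  obtain ⟨DM, π, δ, hπ⟩ := moore_fibre hM
  have hπp : p • π = 0 := by
    have h := comp_distTriang_mor_zero₁₂ _ hπ
    change π ≫ (p • 𝟙 (𝟙_ T)) = 0 at h
    rwa [Preadditive.comp_zsmul, Category.comp_id] at h
  -- the localization of the complete sphere at `KK'`
  have hc' : IsIso (KK' ◁ c) := by
    obtain ⟨C, g, w, hC⟩ := distinguished_cocone_triangle c
    exact (acyclic₃_iff_isIso₁ hC).1 (hp _ ((acyclic₃_iff_isIso₁ hC).2 hc))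
  obtain ⟨l'', hl''⟩ := isLocal_factor (F'.isLocal (𝟙_ T)) c hc' (F'.u (𝟙_ T))
  refine no_retraction (π⟦m⟧' ≫ f₀ ≫ c) l hl z y i hi ?_ l''
    (isLocal_mono (fun W hW => h2 W (hE W hW)) (F'.isLocal (𝟙_ T))) ?_
  · -- (I)
    have hZ' : IsLocal KK Z := isLocal_mono h1 hZ
    have hZM : IsLocal KK (Z ⊗ M) := tensLoc_moore hM KK hZ'
    obtain ⟨e', he'⟩ := moore_divisible hM (f₀ ≫ c ≫ z) (by
      have h3 : (c ≫ z) ≫ (ρ_ Z).inv ≫ (Z ◁ a) = a ≫ (λ_ M).inv ≫ ((c ≫ z) ▷ M) := by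
        rw [rightUnitor_inv_naturality_assoc, ← whisker_exchange, leftUnitor_inv_naturality_assoc,
          unitors_inv_equal]
      have h4 := F.u_desc hZM ((λ_ M).inv ≫ ((c ≫ z) ▷ M))
      rw [Category.assoc, h3, ← h4]
      have h5 : (f₀ ≫ a ≫ F.u M) ≫ F.desc hZM ((λ_ M).inv ≫ ((c ≫ z) ▷ M)) = 0 := by
        rw [hI, zero_comp]
      simpa only [Category.assoc] using h5)
    have h6 : (π⟦m⟧' ≫ f₀ ≫ c) ≫ z = π⟦m⟧' ≫ f₀ ≫ c ≫ z := by simp only [Category.assoc]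
    rw [h6, he', Preadditive.comp_zsmul, ← Preadditive.zsmul_comp, ← Functor.map_zsmul, hπp,
      Functor.map_zero, zero_comp]
  · -- (II)
    intro h0
    apply hII
    have h7 : π⟦m⟧' ≫ (f₀ ≫ F'.u (𝟙_ T)) = 0 := by
      rw [← hl'']
      simpa only [Category.assoc] using h0
    obtain ⟨e', he'⟩ := divisible_of_fibre hπ m _ h7
    rw [← F'.u_naturality, ← Category.assoc, he', Preadditive.zsmul_comp,
      ← Preadditive.comp_zsmul, ← Functor.map_zsmul, moore_smul hM, Functor.map_zero, comp_zero]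

end Vale.Agent.P251.Z
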