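import Vale.Agent.P251.S.Final4
import Vale.Agent.P251.F.MainFS
import Vale.Agent.P251.H.BLoc
import Vale.Agent.P251.Z.WitChase
import Vale.Agent.P251.Z.KosMoore
import Vale.Agent.P251.Z.Statement

/-!
# P251, part Z: `NoRetraction` from `MUData` and the comparison of Bousfield classes

`noRetraction_of_MUData`: the absence of retractions at `p = n = 5`, from `D : MUData T`
and the two comparisons
* `h1`: objects which are acyclic for the Koszul object of height `5` are acyclic for `K(5)`;
* `h2`: objects which are acyclic for `K(4)` are acyclic for the Koszul object of height `4`.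
-/

open CategoryTheory MonoidalCategory Limits Pretriangulated MonObj

set_option linter.unusedSectionVars false

universe v u

namespace Vale.Agent.P251.Z

open Vale.Agent.P251.T Vale.Agent.P251.S Vale.Agent.P251.I Vale.Agent.P251.G

open Vale.Agent.P251.F (FS)

variable {T : Type u} [Category.{v} T] [Preadditive T] [HasZeroObject T]
    [HasShift T ℤ] [∀ n : ℤ, (shiftFunctor T n).Additive] [Pretriangulated T] [IsTriangulated T]
    [MonoidalCategory T] [SymmetricCategory T] [TensorTriangulated T] [MonoidalClosed T]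
    [HasCoproducts.{0} T] [HasProducts.{0} T] [StableCat T]

/-- Localization functors exist. -/
theorem nonempty_locFunctor' [LocallySmall.{0} T] (K : T) : Nonempty (LocFunctor K) :=
  nonempty_locFunctor (K := K) (H.nonempty_bLoc_of_stableCat K)

/-- **No retraction**, from `MUData`. -/
theorem noRetraction_of_MUData [LocallySmall.{0} T] [FCP.IsMonoidal] [Cells]
    (F : SpaceFunctor T) (D : MUData T)
    (h1 : ∀ (K : T) [MonObj K], IsMorava F 5 5 K →
      ∀ (Dk : KosData D.P ((5 : ℕ) : ℤ) 5 (D.vs 5)) (W : T), Acyclic Dk.K W → Acyclic K W)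
    (h2 : ∀ (K : T) [MonObj K], IsMorava F 5 4 K →
      ∀ (Dk : KosData D.P ((5 : ℕ) : ℤ) 4 (D.vs 5)) (W : T), Acyclic K W → Acyclic Dk.K W) :
    NoRetraction F 5 5 := by
  have : Fact (Nat.Prime 5) := ⟨by norm_num⟩
  intro K _ hK E hE M a b hM Sp X Z Y c hc l hl z hz y hy i hi
  obtain ⟨D₅⟩ := exists_kosData D.P ((5 : ℕ) : ℤ) 5 (D.vs 5)
  obtain ⟨D₄⟩ := exists_kosData D.P ((5 : ℕ) : ℤ) 4 (D.vs 5)
  obtain ⟨F₅⟩ := nonempty_locFunctor' D₅.K
  obtain ⟨F₄⟩ := nonempty_locFunctor' D₄.K
  obtain ⟨m, f, hI, hII⟩ := exists_witness_of_MUData FS D hM D₅ D₄ F₅ F₄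
  exact noRetraction_of_witness hM f F₅ F₄ hI hII (h1 (K 5) (hK 5 le_rfl) D₅)
    (h2 (K 4) (hK 4 (by norm_num)) D₄) (fun W hW => (hE W).1 hW 4 (by norm_num))
    (fun W hW => acyclic_kos_of_moore D₄ (by norm_num) hM hW) c hc.1 l hl.1 z hz.2 y i hi

end Vale.Agent.P251.Z
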