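import Vale.Agent.P251.Z.KMor
import Vale.Agent.P251.Z.CompA

/-!
# P251, part Z2: comparison (b)

`kos_of_acyclic` : for a Morava `K`-theory `K` of height `n`, the `K`-acyclic objects are acyclic
for the Koszul object of height `n`.
-/

open CategoryTheory MonoidalCategory Limits Pretriangulated MonObj

set_option linter.unusedSectionVars false

universe v u

namespace Vale.Agent.P251.Z

open Vale.Agent.P251.T Vale.Agent.P251.M Vale.Agent.P251.S Vale.Agent.P251.F Vale.Agent.P251.I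

variable {T : Type u} [Category.{v} T] [Preadditive T] [HasZeroObject T]
    [HasShift T ℤ] [∀ n : ℤ, (shiftFunctor T n).Additive] [Pretriangulated T] [IsTriangulated T]
    [MonoidalCategory T] [SymmetricCategory T] [TensorTriangulated T] [MonoidalClosed T]
    [HasCoproducts.{0} T] [HasProducts.{0} T] [StableCat T] {F : SpaceFunctor T}
    {e : F.S.obj CCF ≅ (stdEven T).L} {D : MUData T}

/-- **Comparison (b)** for Morava `K`-theories. -/
theorem kos_of_acyclic (H : MUUniv e D) {p n : ℕ} [Fact p.Prime] (hp2 : p ≠ 2) (hn : 1 ≤ n)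
    {C : T} {i : 𝟙_ T ⟶ C} {δ : C ⟶ (𝟙_ T)⟦(1 : ℤ)⟧}
    (hC : Triangle.mk ((p : ℤ) • 𝟙 (𝟙_ T)) i δ ∈ distTriang T) {K : T}
    [MonObj K] [IsCommMonObj K] (o : Oriented F K) (hK : IsMoravaPos F p n o)
    (Z : KosData D.P (p : ℤ) n (D.vs p)) {W : T} (hW : Acyclic K W) : Acyclic Z.K W := by
  have hp : 1 < p := (Fact.out : p.Prime).one_lt
  have hpn : 1 < p ^ n := Nat.one_lt_pow (by omega) hp
  obtain ⟨N, hN⟩ : ∃ N, N + 1 = p ^ n := ⟨p ^ n - 1, Nat.sub_add_cancel hpn.le⟩
  obtain ⟨u, hu, v, w, h1, h2, h3⟩ := exists_hom_of_morava H hp o hK N hN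
  obtain ⟨a, L⟩ := hK.exists_isLaurent F N hN (asIso (sph e N)) v w h1
  let _ := L.algebra
  have := L.isLocalization (by omega)
  refine acyclic_kos H hp2 hC u (by omega) h2 ?_ (fun l f => hK.sparse (2 * l + 1) ?_ f)
    L.char Z hW
  · rw [L.algebraMap_X]
    exact h3
  · intro hd
    have h4 : (2 : ℤ) ∣ 2 * l + 1 := (Dvd.intro _ rfl).trans hd
    omega

end Vale.Agent.P251.Z
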