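import Vale.Agent.P251.I.M2
import Vale.Agent.P251.M.LineIso
import Vale.Agent.P251.Z.CellsInst
import Vale.Agent.P251.Z.CompA
import Vale.Agent.P251.Z.KRev
import Vale.Agent.P251.Z.FinalA

/-!
# P251, part Z: there is no retraction at `p = n = 5`

`noRetraction_of_muUniv` : `NoRetraction F 5 5` in a stable homotopy category `T` with a suspension
spectrum functor `F`, from `MU`.
-/

open CategoryTheory MonoidalCategory Limits Pretriangulated MonObj

universe v u

namespace Vale.Agent.P251.Z

open Vale.Agent.P251.T Vale.Agent.P251.M Vale.Agent.P251.S Vale.Agent.P251.F Vale.Agent.P251.I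

variable {T : Type u} [Category.{v} T] [Preadditive T] [HasZeroObject T]
    [HasShift T ℤ] [∀ n : ℤ, (shiftFunctor T n).Additive] [Pretriangulated T] [IsTriangulated T]
    [MonoidalCategory T] [SymmetricCategory T] [TensorTriangulated T] [MonoidalClosed T]
    [HasCoproducts.{0} T] [HasProducts.{0} T] [StableCat T]

/-- **No retraction**, from `MU` and its universal property. -/
theorem noRetraction_of_muUniv [LocallySmall.{0} T] (F : SpaceFunctor T)
    {e : F.S.obj CCF ≅ (stdEven T).L} {D : MUData T} (H : MUUniv e D) : NoRetraction F 5 5 := by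
  have : Fact (Nat.Prime 5) := ⟨by norm_num⟩
  refine noRetraction_of_MUData F D ?_ ?_
  · rintro K _ ⟨_, o, hK⟩ Z W hW
    exact acyclic_of_kos H (by norm_num) o hK Z hW
  · rintro K _ ⟨_, o, hK⟩ Z W hW
    obtain ⟨C, i, δ, hC⟩ := distinguished_cocone_triangle (((5 : ℕ) : ℤ) • 𝟙 (𝟙_ T))
    exact kos_of_acyclic H (by norm_num) (by norm_num) hC o hK Z hW

/-- **No retraction**, from the main output of part M. -/
theorem noRetraction_of_statement [LocallySmall.{0} T] (hMU : MU_univ_statement.{v, u})
    (F : SpaceFunctor T) : NoRetraction F 5 5 := by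
  obtain ⟨D, H⟩ := hMU T F (M.lineIso F)
  exact noRetraction_of_muUniv F H

end Vale.Agent.P251.Z
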