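import Vale.Agent.P251.St.Base
import Vale.Agent.P251.M.BGlueD
import Vale.Agent.P251.Z.Final

/-!
# P251, part Z: there is no retraction at `p = n = 5`, for all stable homotopy categories
-/

open CategoryTheory

namespace Vale.Agent.P251.Z

/-- **No retraction** at `p = n = 5`, in every stable homotopy category with a suspension spectrum
functor. -/
theorem noRetraction_five (T : St.SHCat) (F : I.SpaceFunctor T.C) : NoRetraction F 5 5 := by
  have := locallySmall_self.{0} T.C
  exact noRetraction_of_statement M.MU_univ F

end Vale.Agent.P251.Z
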