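import Vale.Agent.P251.F.F4Flat
import Vale.Agent.P251.F.OInv
import Mathlib.RingTheory.RingHom.FaithfullyFlat
import Mathlib.RingTheory.TensorProduct.MvPolynomial

/-!
# P251, part Z: flatness of rings of invertible series

`OInv S = S[c₀^{±1}, c₁, …]` is faithfully flat over `S`, and `OInv S → OInv B` is (faithfully) flat
if `S → B` is.
-/

open TensorProduct

namespace Vale.Agent.P251.Z

open Vale.Agent.P251.F

universe u

/-- Descent of flatness along a faithfully flat extension of the target. -/
theorem flat_of_flat_of_faithfullyFlat (R S T : Type*) [CommRing R] [CommRing S] [CommRing T]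
    [Algebra R S] [Algebra S T] [Algebra R T] [IsScalarTower R S T] [Module.FaithfullyFlat S T]
    [Module.Flat R T] : Module.Flat R S := by
  rw [Module.Flat.iff_lTensor_preserves_injective_linearMap]
  intro N N' _ _ _ _ f hf
  have h1 : Function.Injective (f.lTensor T) := Module.Flat.lTensor_preserves_injective_linearMap f hf
  have h2 : Function.Injective (LinearMap.lTensor T (f.baseChange S)) := by
    let e := AlgebraTensorModule.cancelBaseChange R S T T N
    let e' := AlgebraTensorModule.cancelBaseChange R S T T N'
    have h3 : ∀ x, e' (LinearMap.lTensor T (f.baseChange S) x) = f.lTensor T (e x) := by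
      intro x
      induction x using TensorProduct.induction_on with
      | zero => simp
      | add x y hx hy => simp only [map_add, hx, hy]
      | tmul t y =>
        induction y using TensorProduct.induction_on with
        | zero => simp
        | add x y hx hy => simp only [tmul_add, map_add, hx, hy]
        | tmul s n => simp [e, e']
    intro x y hxy
    apply e.injective
    apply h1
    rw [← h3, ← h3, hxy]
  have h4 := (Module.FaithfullyFlat.lTensor_injective_iff_injective S T (f.baseChange S)).1 h2
  exact h4

theorem ringHom_flat_of_comp {R S T : Type*} [CommRing R] [CommRing S] [CommRing T]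
    {f : R →+* S} {g : S →+* T} (hg : g.FaithfullyFlat) (h : (g.comp f).Flat) : f.Flat := by
  algebraize [f, g, g.comp f]
  have h1 : Module.FaithfullyFlat S T := hg
  have h2 : Module.Flat R T := h
  exact flat_of_flat_of_faithfullyFlat R S T

/-- `OInv S` is faithfully flat over `S`. -/
instance faithfullyFlat_OInv (S : Type u) [CommRing S] : Module.FaithfullyFlat S (OInv S) := by
  have h1 : Module.Flat S (OInv S) := inferInstance
  let φ : OInv S →ₐ[S] S :=
    { OInv.lift (RingHom.id S) 1 with
      commutes' := fun r => OInv.lift_inc (RingHom.id S) 1 r }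
  exact faithfullyFlat_of_algHom φ

theorem faithfullyFlat_inc (S : Type u) [CommRing S] : (OInv.inc S).FaithfullyFlat :=
  (RingHom.faithfullyFlat_algebraMap_iff (R := S) (S := OInv S)).2 inferInstance

section mapE

/-- A property of ring maps stable under base change passes to localizations away from an element
of the source. -/
theorem of_away {P : ∀ {R S : Type u} [CommRing R] [CommRing S], (R →+* S) → Prop}
    (hP : RingHom.IsStableUnderBaseChange P) {MS MB LS LB : Type u} [CommRing MS] [CommRing MB]
    [CommRing LS] [CommRing LB] (φ : MS →+* MB) (hφ : P φ) (x : MS) [Algebra MS LS]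
    [Algebra MB LB] [IsLocalization.Away x LS] [h : IsLocalization.Away (φ x) LB] (ψ : LS →+* LB)
    (comm : ψ.comp (algebraMap MS LS) = (algebraMap MB LB).comp φ) : P ψ := by
  let _ : Algebra MS MB := φ.toAlgebra
  let _ : Algebra LS LB := ψ.toAlgebra
  let _ : Algebra MS LB := ((algebraMap MB LB).comp φ).toAlgebra
  have _ : IsScalarTower MS MB LB := IsScalarTower.of_algebraMap_eq fun _ => rfl
  have _ : IsScalarTower MS LS LB := IsScalarTower.of_algebraMap_eq' comm.symm
  have h1 : Algebra.algebraMapSubmonoid MB (Submonoid.powers x) = Submonoid.powers (φ x) := by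
    rw [Algebra.algebraMapSubmonoid, Submonoid.map_powers]
    rfl
  have h2 : IsLocalization (Algebra.algebraMapSubmonoid MB (Submonoid.powers x)) LB := by
    rw [h1]; exact h
  have h3 : Algebra.IsPushout MS MB LS LB :=
    (Algebra.isLocalization_iff_isPushout (Submonoid.powers x) LS).1 h2
  exact hP MS MB LS LB hφ

theorem mapE_comp_algebraMap {S B : Type u} [CommRing S] [CommRing B] (φ : S →+* B) :
    (OInv.mapE φ).comp (algebraMap (MvPolynomial ℕ S) (OInv S)) =
      (algebraMap (MvPolynomial ℕ B) (OInv B)).comp (MvPolynomial.map φ) := by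
  refine MvPolynomial.ringHom_ext (fun e => ?_) fun n => ?_
  · rw [RingHom.comp_apply, RingHom.comp_apply, MvPolynomial.map_C]
    have h1 : algebraMap (MvPolynomial ℕ S) (OInv S) (MvPolynomial.C e) = OInv.inc S e := by
      rw [OInv.inc_eq]; rfl
    have h2 : algebraMap (MvPolynomial ℕ B) (OInv B) (MvPolynomial.C (φ e)) =
        OInv.inc B (φ e) := by
      rw [OInv.inc_eq]; rfl
    rw [h1, h2, OInv.mapE_inc]
  · rw [RingHom.comp_apply, RingHom.comp_apply, MvPolynomial.map_X]
    change OInv.mapE φ (OInv.cc S n) = OInv.cc B n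
    rw [OInv.mapE, OInv.lift_cc, OInv.c_f]

theorem of_mapE {P : ∀ {R S : Type u} [CommRing R] [CommRing S], (R →+* S) → Prop}
    (hP : RingHom.IsStableUnderBaseChange P) {S B : Type u} [CommRing S] [CommRing B]
    (φ : S →+* B) (h : P (MvPolynomial.map (σ := ℕ) φ)) : P (OInv.mapE φ) := by
  have : IsLocalization.Away (MvPolynomial.map φ (MvPolynomial.X 0 : MvPolynomial ℕ S))
      (OInv B) := by
    rw [MvPolynomial.map_X]
    infer_instance
  exact of_away hP (MvPolynomial.map φ) h (MvPolynomial.X 0) (OInv.mapE φ)
    (mapE_comp_algebraMap φ)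

attribute [local instance] MvPolynomial.algebraMvPolynomial in
theorem of_mvPolynomial_map {P : ∀ {R S : Type u} [CommRing R] [CommRing S], (R →+* S) → Prop}
    (hP : RingHom.IsStableUnderBaseChange P) {S B : Type u} [CommRing S] [CommRing B]
    (φ : S →+* B) (h : P φ) : P (MvPolynomial.map (σ := ℕ) φ) := by
  algebraize [φ]
  exact hP S B (MvPolynomial ℕ S) (MvPolynomial ℕ B) h

end mapE

theorem faithfullyFlat_mapE {S B : Type u} [CommRing S] [CommRing B] {φ : S →+* B}
    (h : φ.FaithfullyFlat) : (OInv.mapE φ).FaithfullyFlat :=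
  of_mapE (P := fun f => f.FaithfullyFlat) RingHom.FaithfullyFlat.isStableUnderBaseChange φ
    (of_mvPolynomial_map (P := fun f => f.FaithfullyFlat)
      RingHom.FaithfullyFlat.isStableUnderBaseChange φ h)

theorem flat_mapE {S B : Type u} [CommRing S] [CommRing B] {φ : S →+* B}
    (h : φ.Flat) : (OInv.mapE φ).Flat :=
  of_mapE (P := fun f => f.Flat) RingHom.Flat.isStableUnderBaseChange φ
    (of_mvPolynomial_map (P := fun f => f.Flat) RingHom.Flat.isStableUnderBaseChange φ h)

/-- the automorphism `(x, f) ↦ (x, f * g)` of `OInv B`, `g` an invertible series over `B` -/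
noncomputable def shiftR {B : Type u} [CommRing B] (g : InvSeries B) : OInv B →+* OInv B :=
  OInv.lift (OInv.inc B) (OInv.f B * InvSeries.map (OInv.inc B) g)

theorem shiftR_comp_inc {B : Type u} [CommRing B] (g : InvSeries B) :
    (shiftR g).comp (OInv.inc B) = OInv.inc B := OInv.lift_comp_inc _ _

theorem map_shiftR_f {B : Type u} [CommRing B] (g : InvSeries B) :
    InvSeries.map (shiftR g) (OInv.f B) = OInv.f B * InvSeries.map (OInv.inc B) g :=
  OInv.map_lift_f _ _

theorem shiftR_shiftR {B : Type u} [CommRing B] (g g' : InvSeries B) :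
    (shiftR g).comp (shiftR g') = shiftR (g * g') := by
  apply OInv.hom_ext
  · rw [RingHom.comp_assoc, shiftR_comp_inc, shiftR_comp_inc, shiftR_comp_inc]
  · rw [← InvSeries.map_map, map_shiftR_f, map_shiftR_f, map_mul, map_shiftR_f,
      InvSeries.map_map, shiftR_comp_inc, mul_assoc, map_mul]

theorem shiftR_one {B : Type u} [CommRing B] : shiftR (1 : InvSeries B) = RingHom.id _ := by
  apply OInv.hom_ext
  · rw [shiftR_comp_inc, RingHom.id_comp]
  · rw [map_shiftR_f, map_one, mul_one, InvSeries.map_id]

theorem bijective_shiftR {B : Type u} [CommRing B] (g : InvSeries B) :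
    Function.Bijective (shiftR g) := by
  have h1 : ∀ x, shiftR g (shiftR g⁻¹ x) = x := fun x => by
    have := RingHom.congr_fun (shiftR_shiftR g g⁻¹) x
    rwa [mul_inv_cancel, shiftR_one] at this
  have h2 : ∀ x, shiftR g⁻¹ (shiftR g x) = x := fun x => by
    have := RingHom.congr_fun (shiftR_shiftR g⁻¹ g) x
    rwa [inv_mul_cancel, shiftR_one] at this
  exact ⟨Function.LeftInverse.injective h2, fun x => ⟨_, h1 x⟩⟩

/-- the automorphism `(x, f) ↦ (x, f⁻¹)` of `OInv B` -/
noncomputable def invO (B : Type u) [CommRing B] : OInv B →+* OInv B :=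
  OInv.lift (OInv.inc B) (OInv.f B)⁻¹

theorem bijective_invO (B : Type u) [CommRing B] : Function.Bijective (invO B) := by
  have h : (invO B).comp (invO B) = RingHom.id _ := by
    apply OInv.hom_ext
    · rw [RingHom.comp_assoc, invO, OInv.lift_comp_inc, OInv.lift_comp_inc, RingHom.id_comp]
    · rw [← InvSeries.map_map, invO, OInv.map_lift_f, map_inv, OInv.map_lift_f, inv_inv,
        InvSeries.map_id]
  have h1 : ∀ x, invO B (invO B x) = x := fun x => RingHom.congr_fun h x
  exact ⟨Function.LeftInverse.injective h1, fun x => ⟨_, h1 x⟩⟩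

end Vale.Agent.P251.Z
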