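import Mathlib.RingTheory.Flat.EquationalCriterion
import Mathlib.RingTheory.Flat.Localization
import Mathlib.RingTheory.Ideal.Quotient.Operations
import Mathlib.LinearAlgebra.TensorProduct.RightExactness

/-!
# P251, part Z: a criterion for flatness along a regular element

If `x` is regular on `R` and on `M`, `M / x M` is flat over `R / x` and `M[1/x]` is flat over `R`,
then `M` is flat over `R`.
-/

open scoped BigOperators

namespace Vale.Agent.P251.Z

universe u v w

/-- The equational criterion for finitely many relations. -/
theorem flat_matrix {R : Type u} {M : Type v} [CommRing R] [AddCommGroup M] [Module R M]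
    [Module.Flat R M] {m n : ℕ} (a : Fin m → Fin n → R) (y : Fin n → M)
    (h : ∀ i, ∑ j, a i j • y j = 0) :
    ∃ (k : ℕ) (b : Fin n → Fin k → R) (w : Fin k → M),
      (∀ j, y j = ∑ l, b j l • w l) ∧ ∀ i l, ∑ j, a i j * b j l = 0 := by
  classical
  let f : (Fin m →₀ R) →ₗ[R] (Fin n →₀ R) :=
    Finsupp.linearCombination R (fun i => ∑ j, Finsupp.single j (a i j))
  let x : (Fin n →₀ R) →ₗ[R] M := Finsupp.linearCombination R y
  have hf : ∀ i, f (Finsupp.single i 1) = ∑ j, Finsupp.single j (a i j) := fun i => by
    simp [f]
  have hx : x ∘ₗ f = 0 := by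
    ext i
    simp only [LinearMap.coe_comp, Function.comp_apply, Finsupp.lsingle_apply, hf, map_sum,
      LinearMap.zero_comp, LinearMap.zero_apply]
    simp only [x, Finsupp.linearCombination_single]
    exact h i
  obtain ⟨k, A, w, h1, h2⟩ :=
    Module.Flat.exists_factorization_of_comp_eq_zero_of_free (R := R) hx
  refine ⟨k, fun j l => A (Finsupp.single j 1) l, fun l => w (Finsupp.single l 1), ?_, ?_⟩
  · intro j
    have h3 : y j = w (A (Finsupp.single j 1)) := by
      have := LinearMap.congr_fun h1 (Finsupp.single j 1)
      simpa [x] using this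
    rw [h3]
    conv_lhs => rw [← Finsupp.univ_sum_single (A (Finsupp.single j 1))]
    rw [map_sum]
    refine Finset.sum_congr rfl fun l _ => ?_
    rw [← map_smul, Finsupp.smul_single, smul_eq_mul, mul_one]
  · intro i l
    have h4 : A (f (Finsupp.single i 1)) = 0 := LinearMap.congr_fun h2 (Finsupp.single i 1)
    rw [hf, map_sum] at h4
    have h5 := DFunLike.congr_fun h4 l
    rw [Finsupp.finsetSum_apply] at h5
    refine Eq.trans ?_ h5
    refine Finset.sum_congr rfl fun j _ => ?_
    have : Finsupp.single j (a i j) = a i j • Finsupp.single j (1 : R) := by simp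
    rw [this, map_smul]
    rfl

/-- The criterion. `M'` (with the map `f : M → M'`) plays the role of `M[1/x]`, `Q` (with
`g : M → Q`) the role of `M / x M` as a module over `S = R / x`. -/
theorem flat_of_regular {R : Type u} {S : Type w} {M M' Q : Type v} [CommRing R] [CommRing S]
    [Algebra R S] [AddCommGroup M] [Module R M] [AddCommGroup M'] [Module R M']
    [AddCommGroup Q] [Module S Q] [Module R Q] [IsScalarTower R S Q] (x : R)
    (hR : ∀ r : R, x * r = 0 → r = 0) (hM : ∀ m : M, x • m = 0 → m = 0)
    (f : M →ₗ[R] M') (hf : Function.Injective f) (hf' : ∀ y : M', ∃ (N : ℕ) (m : M), x ^ N • y = f m)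
    (hflat' : Module.Flat R M')
    (hS : Function.Surjective (algebraMap R S)) (hS' : ∀ r : R, algebraMap R S r = 0 → ∃ r', r = x * r')
    (g : M →ₗ[R] Q) (hg : Function.Surjective g) (hg' : ∀ m : M, g m = 0 ↔ ∃ m', m = x • m')
    (hflat : Module.Flat S Q) : Module.Flat R M := by
  classical
  rw [Module.Flat.iff_forall_isTrivialRelation]
  intro l c m hm
  -- the descent on the exponent
  have key : ∀ N : ℕ, (∃ (k : ℕ) (a : Fin l → Fin k → R) (y : Fin k → M),
      (∀ i, x ^ N • m i = ∑ j, a i j • y j) ∧ ∀ j, ∑ i, c i * a i j = 0) →
      Module.IsTrivialRelation c m := by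
    intro N
    induction N with
    | zero =>
      rintro ⟨k, a, y, h1, h2⟩
      exact ⟨k, a, y, fun i => by simpa using h1 i, h2⟩
    | succ N ih =>
      rintro ⟨k, a, y, h1, h2⟩
      apply ih
      -- reduce modulo `x`
      have h3 : ∀ i, ∑ j, algebraMap R S (a i j) • g (y j) = 0 := by
        intro i
        have h4 : g (∑ j, a i j • y j) = 0 := by
          rw [hg']
          exact ⟨x ^ N • m i, by rw [← h1 i, pow_succ', mul_smul]⟩
        rw [map_sum] at h4
        rw [← h4]
        refine Finset.sum_congr rfl fun j _ => ?_
        rw [map_smul, algebraMap_smul]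
      obtain ⟨k', b, w, h5, h6⟩ := flat_matrix _ _ h3
      choose b' hb' using fun (j : Fin k) (t : Fin k') => hS (b j t)
      choose w' hw' using fun t => hg (w t)
      have h7 : ∀ j, ∃ u, y j - ∑ t, b' j t • w' t = x • u := by
        intro j
        rw [← hg', map_sub, map_sum, h5 j, sub_eq_zero]
        refine Finset.sum_congr rfl fun t _ => ?_
        rw [map_smul, hw', ← hb' j t, algebraMap_smul]
      choose u hu using h7
      have h8 : ∀ i t, ∃ d, ∑ j, a i j * b' j t = x * d := by
        intro i t
        apply hS'
        rw [map_sum, ← h6 i t]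
        refine Finset.sum_congr rfl fun j _ => ?_
        rw [map_mul, hb']
      choose d hd using h8
      refine ⟨k' + k, fun i => Fin.append (d i) (a i), Fin.append w' u, ?_, ?_⟩
      · intro i
        rw [Fin.sum_univ_add]
        simp only [Fin.append_left, Fin.append_right]
        have h9 : x • (x ^ N • m i - (∑ t, d i t • w' t + ∑ j, a i j • u j)) = 0 := by
          have h10 : x ^ (N + 1) • m i = ∑ j, a i j • (∑ t, b' j t • w' t + x • u j) := by
            rw [h1 i]
            refine Finset.sum_congr rfl fun j _ => ?_
            rw [← hu j]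
            congr 1
            abel
          rw [smul_sub, smul_add, ← mul_smul, ← pow_succ', h10, sub_eq_zero]
          simp only [smul_add, Finset.sum_add_distrib, Finset.smul_sum]
          congr 1
          · rw [Finset.sum_comm]
            refine Finset.sum_congr rfl fun t _ => ?_
            rw [← mul_smul, ← hd i t, Finset.sum_smul]
            refine Finset.sum_congr rfl fun j _ => ?_
            rw [mul_smul]
          · refine Finset.sum_congr rfl fun j _ => ?_
            rw [smul_comm]
        exact sub_eq_zero.1 (hM _ h9)
      · intro j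
        refine Fin.addCases (fun t => ?_) (fun j => ?_) j
        · simp only [Fin.append_left]
          apply hR
          rw [Finset.mul_sum]
          calc ∑ i, x * (c i * d i t) = ∑ i, c i * (∑ j, a i j * b' j t) := by
                refine Finset.sum_congr rfl fun i _ => ?_
                rw [hd i t]; ring
            _ = ∑ j, (∑ i, c i * a i j) * b' j t := by
                simp only [Finset.mul_sum, Finset.sum_mul]
                rw [Finset.sum_comm]
                refine Finset.sum_congr rfl fun j _ => Finset.sum_congr rfl fun i _ => ?_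
                ring
            _ = 0 := by simp [h2]
        · simpa using h2 j
  -- start with `M'`
  have h0 : ∑ i, c i • f (m i) = 0 := by
    rw [← map_zero f, ← hm, map_sum]
    exact Finset.sum_congr rfl fun i _ => (map_smul f _ _).symm
  obtain ⟨k, a, y, h1, h2⟩ := Module.Flat.isTrivialRelation_of_sum_smul_eq_zero (R := R) h0
  choose N y' hy' using fun j => hf' (y j)
  let L := ∑ j, N j
  apply key L
  refine ⟨k, a, fun j => x ^ (L - N j) • y' j, ?_, h2⟩
  intro i
  apply hf
  have h1i : f (m i) = ∑ j, a i j • y j := h1 i
  rw [map_smul, h1i, map_sum, Finset.smul_sum]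
  refine Finset.sum_congr rfl fun j _ => ?_
  rw [map_smul, map_smul, ← hy' j, smul_comm, ← mul_smul (x ^ (L - N j)), ← pow_add,
    Nat.sub_add_cancel (Finset.single_le_sum (fun _ _ => Nat.zero_le _) (Finset.mem_univ j))]

end Vale.Agent.P251.Z
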