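import Mathlib.Algebra.BigOperators.Finsupp.Basic
import Mathlib.Algebra.Group.Subgroup.Basic
import Mathlib.Data.Finsupp.Basic
import Mathlib.Tactic

/-!
# P251, part Z: the algebraic bookkeeping of the Koszul comparison

Abelian groups `E` with commuting endomorphisms `v 0, v 1, …` (think `v 0 = p`), regular in a
range, and families of maps `ψ e : E ⟶ E'` which become a direct sum decomposition of `E'` after
killing `v 0, …, v (h-1)` and inverting `v h` on `E`.
-/

namespace Vale.Agent.P251.Z

section VI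

variable {E E₂ : Type*} [AddCommGroup E] [AddCommGroup E₂]

/-- `v_0 E + ⋯ + v_{k-1} E` -/
def VI (v : ℕ → E →+ E) (k : ℕ) : AddSubgroup E where
  carrier := {x | ∃ y : ℕ → E, x = ∑ j ∈ Finset.range k, v j (y j)}
  add_mem' := by
    rintro x x' ⟨y, rfl⟩ ⟨y', rfl⟩
    exact ⟨fun j => y j + y' j, by simp [Finset.sum_add_distrib]⟩
  zero_mem' := ⟨fun _ => 0, by simp⟩
  neg_mem' := by
    rintro x ⟨y, rfl⟩
    exact ⟨fun j => -y j, by simp⟩

theorem mem_VI {v : ℕ → E →+ E} {k : ℕ} {x : E} :
    x ∈ VI v k ↔ ∃ y : ℕ → E, x = ∑ j ∈ Finset.range k, v j (y j) := Iff.rfl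

theorem apply_mem_VI (v : ℕ → E →+ E) {j k : ℕ} (h : j < k) (x : E) : v j x ∈ VI v k := by
  classical
  refine ⟨fun i => if i = j then x else 0, ?_⟩
  rw [Finset.sum_eq_single j]
  · simp
  · intro i _ hi
    simp [hi]
  · intro hj
    exact absurd (Finset.mem_range.2 h) hj

theorem VI_mono (v : ℕ → E →+ E) {k l : ℕ} (h : k ≤ l) : VI v k ≤ VI v l := by
  rintro x ⟨y, rfl⟩
  exact AddSubgroup.sum_mem _ fun j hj =>
    apply_mem_VI v (lt_of_lt_of_le (Finset.mem_range.1 hj) h) _

theorem map_mem_VI {v : ℕ → E →+ E} {v₂ : ℕ → E₂ →+ E₂} (f : E →+ E₂)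
    (hf : ∀ j x, f (v j x) = v₂ j (f x)) {k : ℕ} {x : E} (hx : x ∈ VI v k) : f x ∈ VI v₂ k := by
  obtain ⟨y, rfl⟩ := hx
  exact ⟨fun j => f (y j), by rw [map_sum]; exact Finset.sum_congr rfl fun j _ => hf j _⟩

theorem iterate_mem_VI {v : ℕ → E →+ E} (hc : ∀ i j x, v i (v j x) = v j (v i x)) (h : ℕ)
    {k : ℕ} {x : E} (hx : x ∈ VI v k) (m : ℕ) : (v h)^[m] x ∈ VI v k := by
  induction m with
  | zero => exact hx
  | succ m ih =>
    rw [Function.iterate_succ_apply']
    exact map_mem_VI (v h) (fun j x => hc h j x) ih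

theorem iterate_map_eq {f : E →+ E₂} {a : E →+ E} {b : E₂ →+ E₂} (h : ∀ x, f (a x) = b (f x))
    (m : ℕ) (x : E) : f (a^[m] x) = b^[m] (f x) := by
  induction m with
  | zero => rfl
  | succ m ih => rw [Function.iterate_succ_apply', Function.iterate_succ_apply', h, ih]

/-- the `m`-th power of an additive endomorphism -/
def itA (a : E →+ E) (m : ℕ) : E →+ E where
  toFun := a^[m]
  map_zero' := iterate_map_zero a m
  map_add' := iterate_map_add a m

@[simp] theorem itA_apply (a : E →+ E) (m : ℕ) (x : E) : itA a m x = a^[m] x := rfl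

end VI

/-- Regularity of `v i, …, v (h-1)`, `v 0, …, v (i-1)` being zero. -/
structure GoodReg {E : Type*} [AddCommGroup E] (i h : ℕ) (v : ℕ → E →+ E) : Prop where
  comm : ∀ j k x, v j (v k x) = v k (v j x)
  zero : ∀ j < i, ∀ x, v j x = 0
  reg : ∀ k, i ≤ k → k < h → ∀ x, v k x ∈ VI v k → x ∈ VI v k

/-- The family `ψ e : E ⟶ E'` becomes a direct sum decomposition after killing `v 0, …, v (h-1)`
and inverting `v h` on `E`. -/
structure GoodMap {E E' I : Type*} [AddCommGroup E] [AddCommGroup E'] (h : ℕ)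
    (v : ℕ → E →+ E) (v' : E' →+ E') (ψ : I → E →+ E') : Prop where
  comp : ∀ e x, ψ e (v h x) = v' (ψ e x)
  surj : ∀ y : E', ∃ (k : ℕ) (x : I →₀ E), v'^[k] y = x.sum fun e x => ψ e x
  inj : ∀ x : I →₀ E, (x.sum fun e x => ψ e x) = 0 → ∀ e, ∃ k, (v h)^[k] (x e) ∈ VI v h

section steps

variable {E E' E₂ E₂' : Type*} [AddCommGroup E] [AddCommGroup E'] [AddCommGroup E₂]
  [AddCommGroup E₂'] {I J : Type*}

/-- transport of regularity along a direct sum decomposition -/
theorem GoodReg.sum {i h : ℕ} {v : ℕ → E →+ E} (H : GoodReg i h v) {v₂ : ℕ → E₂ →+ E₂}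
    (f : J → E →+ E₂) (hf : Function.Bijective (Finsupp.liftAddHom f))
    (hfv : ∀ a k x, f a (v k x) = v₂ k (f a x)) : GoodReg i h v₂ := by
  classical
  -- the action on coordinates
  have key : ∀ (k : ℕ) (x : J →₀ E), v₂ k (Finsupp.liftAddHom f x) =
      Finsupp.liftAddHom f (x.mapRange (v k) (map_zero _)) := by
    intro k x
    induction x using Finsupp.induction_linear with
    | zero => simp
    | add x y hx hy =>
      rw [map_add, map_add, hx, hy, Finsupp.mapRange_add (fun a b => map_add _ a b), map_add]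
    | single a x => simp [hfv]
  have memVI : ∀ (k : ℕ) (x : J →₀ E),
      Finsupp.liftAddHom f x ∈ VI v₂ k ↔ ∀ a, x a ∈ VI v k := by
    intro k x
    constructor
    · rintro ⟨y, hy⟩ a
      choose z hz using fun j => hf.2 (y j)
      refine ⟨fun j => z j a, ?_⟩
      have h1 : Finsupp.liftAddHom f x = Finsupp.liftAddHom f
          (∑ j ∈ Finset.range k, (z j).mapRange (v j) (map_zero _)) := by
        rw [hy, map_sum]
        refine Finset.sum_congr rfl fun j _ => ?_
        rw [← key, hz]
      rw [hf.1 h1, Finsupp.finsetSum_apply]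
      rfl
    · intro hx
      rw [Finsupp.liftAddHom_apply]
      exact AddSubgroup.sum_mem _ fun a _ => map_mem_VI (f a) (fun j x => hfv a j x) (hx a)
  refine ⟨?_, ?_, ?_⟩
  · intro j k x
    obtain ⟨x, rfl⟩ := hf.2 x
    rw [key, key, key, key]
    congr 1
    ext a
    simp [H.comm]
  · intro j hj x
    obtain ⟨x, rfl⟩ := hf.2 x
    rw [key]
    have : x.mapRange (v j) (map_zero _) = 0 := by
      ext a
      simp [H.zero j hj]
    rw [this, map_zero]
  · intro k hk hk' x hx
    obtain ⟨x, rfl⟩ := hf.2 x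
    rw [key, memVI] at hx
    rw [memVI]
    intro a
    exact H.reg k hk hk' _ (by simpa using hx a)

/-- the regularity passes to the quotient by `v i` -/
theorem GoodReg.quot {i h : ℕ} {v : ℕ → E →+ E} (H : GoodReg i h v) {v₂ : ℕ → E₂ →+ E₂}
    (π : E →+ E₂) (hπ : Function.Surjective π) (hπv : ∀ k x, π (v k x) = v₂ k (π x))
    (hker : ∀ x, π x = 0 ↔ ∃ z, x = v i z) : GoodReg (i + 1) h v₂ := by
  refine ⟨?_, ?_, ?_⟩
  · intro j k x
    obtain ⟨x, rfl⟩ := hπ x
    rw [← hπv, ← hπv, ← hπv, ← hπv, H.comm]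
  · intro j hj x
    obtain ⟨x, rfl⟩ := hπ x
    rw [← hπv]
    rcases Nat.lt_succ_iff_lt_or_eq.1 hj with hj | rfl
    · rw [H.zero j hj, map_zero]
    · exact (hker _).2 ⟨x, rfl⟩
  · intro k hk hk' x hx
    obtain ⟨x, rfl⟩ := hπ x
    rw [← hπv] at hx
    obtain ⟨y, hy⟩ := hx
    choose z hz using fun j => hπ (y j)
    have h1 : π (v k x - ∑ j ∈ Finset.range k, v j (z j)) = 0 := by
      rw [map_sub, hy, map_sum, sub_eq_zero]
      exact Finset.sum_congr rfl fun j _ => by rw [hπv, hz]
    obtain ⟨t, ht⟩ := (hker _).1 h1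
    have h2 : v k x ∈ VI v k := by
      have : v k x = v i t + ∑ j ∈ Finset.range k, v j (z j) := by
        rw [← ht, sub_add_cancel]
      rw [this]
      exact add_mem (apply_mem_VI v (by omega) t) ⟨z, rfl⟩
    exact map_mem_VI π hπv (H.reg k (by omega) hk' x h2)

/-- `v i` is injective -/
theorem GoodReg.injective {i h : ℕ} {v : ℕ → E →+ E} (H : GoodReg i h v) (hi : i < h) {x : E}
    (hx : v i x = 0) : x = 0 := by
  obtain ⟨y, hy⟩ := H.reg i le_rfl hi x (by rw [hx]; exact zero_mem _)
  rw [hy]
  exact Finset.sum_eq_zero fun j hj => H.zero j (Finset.mem_range.1 hj) _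

/-- transport along a direct sum decomposition -/
theorem GoodMap.sum {h : ℕ} {v : ℕ → E →+ E} {v' : E' →+ E'} {ψ : I → E →+ E'}
    (H : GoodMap h v v' ψ) (hc : ∀ j k x, v j (v k x) = v k (v j x))
    {v₂ : ℕ → E₂ →+ E₂} {v₂' : E₂' →+ E₂'} {ψ₂ : I → E₂ →+ E₂'}
    (f : J → E →+ E₂) (hf : Function.Bijective (Finsupp.liftAddHom f))
    (g : J → E' →+ E₂') (hg : Function.Bijective (Finsupp.liftAddHom g))
    (hfv : ∀ a k x, f a (v k x) = v₂ k (f a x)) (hgv : ∀ a x, g a (v' x) = v₂' (g a x))
    (hψ : ∀ a e x, ψ₂ e (f a x) = g a (ψ e x)) : GoodMap h v₂ v₂' ψ₂ := by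
  classical
  have hcomp : ∀ e x, ψ₂ e (v₂ h x) = v₂' (ψ₂ e x) := by
    intro e x
    obtain ⟨x, rfl⟩ := hf.2 x
    induction x using Finsupp.induction_linear with
    | zero => simp
    | add x y hx hy => rw [map_add, map_add, map_add, hx, hy, map_add, map_add]
    | single a x =>
      rw [Finsupp.liftAddHom_apply_single, ← hfv, hψ, H.comp, hgv, hψ]
  refine ⟨hcomp, ?_, ?_⟩
  · intro y
    obtain ⟨y, rfl⟩ := hg.2 y
    induction y using Finsupp.induction_linear with
    | zero => exact ⟨0, 0, by simp⟩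
    | add y y' hy hy' =>
      obtain ⟨k, x, hx⟩ := hy
      obtain ⟨k', x', hx'⟩ := hy'
      have aux : ∀ (m : ℕ) (x : I →₀ E₂), v₂'^[m] (x.sum fun e x => ψ₂ e x) =
          (x.mapRange (itA (v₂ h) m) (map_zero _)).sum fun e x => ψ₂ e x := by
        intro m x
        induction x using Finsupp.induction_linear with
        | zero => simp [iterate_map_zero]
        | add a b ha hb =>
          rw [Finsupp.mapRange_add (fun a b => map_add _ a b),
            Finsupp.sum_add_index' (by simp) (by simp),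
            Finsupp.sum_add_index' (by simp) (by simp), iterate_map_add, ha, hb]
        | single e x =>
          rw [Finsupp.mapRange_single, Finsupp.sum_single_index (by simp),
            Finsupp.sum_single_index (by simp), itA_apply,
            iterate_map_eq (f := ψ₂ e) (hcomp e)]
      refine ⟨k' + k, x.mapRange (itA (v₂ h) k') (map_zero _) +
        x'.mapRange (itA (v₂ h) k) (map_zero _), ?_⟩
      rw [map_add, iterate_map_add, Finsupp.sum_add_index' (by simp) (by simp), ← aux, ← aux]
      congr 1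
      · rw [Function.iterate_add_apply, hx]
      · rw [add_comm k' k, Function.iterate_add_apply, hx']
    | single a y =>
      obtain ⟨k, x, hx⟩ := H.surj y
      refine ⟨k, x.mapRange (f a) (map_zero _), ?_⟩
      rw [Finsupp.liftAddHom_apply_single, ← iterate_map_eq (f := g a) (hgv a), hx,
        Finsupp.sum_mapRange_index (by simp), map_finsuppSum]
      exact Finsupp.sum_congr fun e _ => (hψ a e _).symm
  · intro x hx e
    choose z hz using fun e => hf.2 (x e)
    -- the `a`-th coordinate
    have hsum : (x.sum fun e x => ψ₂ e x) = Finsupp.liftAddHom g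
        (∑ e ∈ x.support, (z e).mapRange (ψ e) (map_zero _)) := by
      rw [map_sum, Finsupp.sum]
      refine Finset.sum_congr rfl fun e _ => ?_
      rw [← hz e]
      generalize z e = w
      induction w using Finsupp.induction_linear with
      | zero => simp
      | add a b ha hb =>
        rw [map_add, map_add, ha, hb, Finsupp.mapRange_add (fun a b => map_add _ a b), map_add]
      | single a w =>
        rw [Finsupp.liftAddHom_apply_single, Finsupp.mapRange_single,
          Finsupp.liftAddHom_apply_single, hψ]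
    rw [hx] at hsum
    have h0 : (∑ e ∈ x.support, (z e).mapRange (ψ e) (map_zero _)) = 0 := by
      apply hg.1
      rw [← hsum, map_zero]
    have hcoord : ∀ a, ∃ k, (v h)^[k] (z e a) ∈ VI v h := by
      intro a
      by_cases he : e ∈ x.support
      · let xa : I →₀ E := Finsupp.onFinset x.support
          (fun e => if e ∈ x.support then z e a else 0) (by
            intro e he
            by_contra h1
            simp [h1] at he)
        have h1 : (xa.sum fun e x => ψ e x) = 0 := by
          have h2 := DFunLike.congr_fun h0 a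
          rw [Finsupp.finsetSum_apply] at h2
          rw [Finsupp.onFinset_sum _ (by simp)]
          refine Eq.trans ?_ h2
          refine Finset.sum_congr rfl fun e he => ?_
          simp [he]
        obtain ⟨k, hk⟩ := H.inj xa h1 e
        refine ⟨k, ?_⟩
        have : xa e = z e a := by
          simp only [xa, Finsupp.onFinset_apply]
          rw [if_pos he]
        rwa [this] at hk
      · have hxe : x e = 0 := by simpa using he
        have hze : z e = 0 := by
          apply hf.1
          rw [hz, hxe, map_zero]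
        exact ⟨0, by rw [hze]; simp⟩
    choose k hk using hcoord
    refine ⟨∑ a ∈ (z e).support, k a, ?_⟩
    rw [← hz e, Finsupp.liftAddHom_apply, Finsupp.sum]
    have h3 : (v₂ h)^[∑ a ∈ (z e).support, k a] (∑ a ∈ (z e).support, f a (z e a)) =
        ∑ a ∈ (z e).support, (v₂ h)^[∑ a ∈ (z e).support, k a] (f a (z e a)) :=
      map_sum (itA (v₂ h) (∑ a ∈ (z e).support, k a)) _ _
    rw [h3]
    refine AddSubgroup.sum_mem _ fun a ha => ?_
    rw [← iterate_map_eq (f := f a) (fun x => hfv a h x)]
    refine map_mem_VI (f a) (fun j x => hfv a j x) ?_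
    rw [← Finset.sum_erase_add _ _ ha, Function.iterate_add_apply]
    exact iterate_mem_VI hc h (hk a) _

/-- passage to a quotient of `E` and to an isomorphic copy of `E'` -/
theorem GoodMap.quot {h : ℕ} {v : ℕ → E →+ E} {v' : E' →+ E'} {ψ : I → E →+ E'}
    (H : GoodMap h v v' ψ) {v₂ : ℕ → E₂ →+ E₂} {v₂' : E₂' →+ E₂'} {ψ₂ : I → E₂ →+ E₂'}
    (π : E →+ E₂) (hπ : Function.Surjective π) (hπv : ∀ k x, π (v k x) = v₂ k (π x))
    (g : E' →+ E₂') (hg : Function.Bijective g) (hgv : ∀ x, g (v' x) = v₂' (g x))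
    (hψ : ∀ e x, ψ₂ e (π x) = g (ψ e x)) : GoodMap h v₂ v₂' ψ₂ := by
  classical
  refine ⟨?_, ?_, ?_⟩
  · intro e x
    obtain ⟨x, rfl⟩ := hπ x
    rw [← hπv, hψ, hψ, H.comp, hgv]
  · intro y
    obtain ⟨y, rfl⟩ := hg.2 y
    obtain ⟨k, x, hx⟩ := H.surj y
    refine ⟨k, x.mapRange π (map_zero _), ?_⟩
    rw [← iterate_map_eq (f := g) hgv, hx, Finsupp.sum_mapRange_index (by simp), map_finsuppSum]
    exact Finsupp.sum_congr fun e _ => (hψ e _).symm
  · intro x hx e
    choose z hz using hπ
    by_cases he : e ∈ x.support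
    · let x' : I →₀ E := Finsupp.onFinset x.support
        (fun e => if e ∈ x.support then z (x e) else 0) (by
          intro e he
          by_contra h1
          simp [h1] at he)
      have h1 : (x'.sum fun e x => ψ e x) = 0 := by
        apply hg.1
        rw [Finsupp.onFinset_sum _ (by simp), map_sum, map_zero]
        rw [Finsupp.sum] at hx
        refine Eq.trans ?_ hx
        refine Finset.sum_congr rfl fun e he => ?_
        rw [if_pos he, ← hψ, hz]
      obtain ⟨k, hk⟩ := H.inj x' h1 e
      refine ⟨k, ?_⟩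
      have h2 : x' e = z (x e) := by
        simp only [x', Finsupp.onFinset_apply]
        rw [if_pos he]
      rw [h2] at hk
      have h3 := map_mem_VI π hπv hk
      rw [iterate_map_eq (f := π) (fun x => hπv h x), hz] at h3
      exact h3
    · have : x e = 0 := by simpa using he
      exact ⟨0, by rw [this]; simp⟩

end steps

end Vale.Agent.P251.Z
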