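import Mathlib.RingTheory.MvPolynomial.MonomialOrder
import Mathlib.RingTheory.MvPolynomial.Groebner
import Mathlib.Data.Finsupp.MonomialOrder
import Mathlib.LinearAlgebra.Basis.Defs
import Mathlib.LinearAlgebra.Finsupp.LinearCombination
import Mathlib.Tactic

/-!
# P251, part Z2: triangular polynomial substitutions are free

If `y j = u j * X j ^ d j + (terms in X 0, .., X j of degree < d j in X j)` with `u j` a unit and
`d j > 0`, then the polynomial ring is free over the subring generated by the `y j` (which is a
polynomial ring) on the monomials `X ^ e`, `e j < d j`.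
-/

open MvPolynomial Finsupp

namespace Vale.Agent.P251.Z

section General

variable {σ : Type*} (m : MonomialOrder σ) {R : Type*} [CommRing R]

/-- polynomials with unit leading coefficients and bijective degrees: linear independence -/
theorem linearIndependent_of_degree {ι : Type*} (g : ι → MvPolynomial σ R)
    (hg : ∀ i, IsUnit (m.leadingCoeff (g i)))
    (hinj : Function.Injective fun i => m.degree (g i)) :
    LinearIndependent R g := by
  classical
  rcases subsingleton_or_nontrivial R with hR | hR
  · exact linearIndependent_of_subsingleton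
  rw [linearIndependent_iff]
  intro l hl
  by_contra hne
  have hs : l.support.Nonempty := Finsupp.support_nonempty_iff.2 hne
  obtain ⟨i, hi, hmax⟩ := Finset.exists_max_image l.support
    (fun i => m.toSyn (m.degree (g i))) hs
  have hcoef := congrArg (coeff (m.degree (g i))) hl
  rw [Finsupp.linearCombination_apply, Finsupp.sum, coeff_sum, coeff_zero,
    Finset.sum_eq_single i] at hcoef
  · rw [coeff_smul, smul_eq_mul] at hcoef
    have : l i = 0 := (hg i).mul_left_eq_zero.1 hcoef
    exact (Finsupp.mem_support_iff.1 hi) this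
  · intro j hj hji
    rw [coeff_smul, m.coeff_eq_zero_of_lt, smul_zero]
    refine lt_of_le_of_ne (hmax j hj) ?_
    intro h
    exact hji (hinj (m.toSyn.injective h))
  · intro h
    exact absurd hi h

/-- polynomials with unit leading coefficients and surjective degrees: spanning -/
theorem span_of_degree {ι : Type*} (g : ι → MvPolynomial σ R)
    (hg : ∀ i, IsUnit (m.leadingCoeff (g i)))
    (hsurj : Function.Surjective fun i => m.degree (g i)) :
    Submodule.span R (Set.range g) = ⊤ := by
  classical
  rw [eq_top_iff]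
  rintro f -
  -- strong induction on the degree
  suffices H : ∀ (a : m.syn) (f : MvPolynomial σ R), m.toSyn (m.degree f) = a →
      f ∈ Submodule.span R (Set.range g) from H _ f rfl
  intro a
  induction a using WellFoundedLT.induction with
  | ind a ih =>
    intro f hf
    obtain ⟨i, hi⟩ := hsurj (m.degree f)
    have hi : m.degree (g i) = m.degree f := hi
    obtain ⟨u, hu⟩ := hg i
    set f' : MvPolynomial σ R := f - C (m.leadingCoeff f * ((u⁻¹ : Rˣ) : R)) * g i with hf'
    have hmem : C (m.leadingCoeff f * ((u⁻¹ : Rˣ) : R)) * g i ∈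
        Submodule.span R (Set.range g) := by
      rw [← smul_eq_C_mul]
      exact Submodule.smul_mem _ _ (Submodule.subset_span ⟨i, rfl⟩)
    have hff : f = f' + C (m.leadingCoeff f * ((u⁻¹ : Rˣ) : R)) * g i := by
      rw [hf']; ring
    rw [hff]
    refine Submodule.add_mem _ ?_ hmem
    -- the top coefficient vanishes
    have hc0 : coeff (m.degree f) f' = 0 := by
      rw [hf', coeff_sub, coeff_C_mul]
      have : coeff (m.degree f) (g i) = u := by rw [← hi]; exact hu.symm
      rw [this, mul_assoc, Units.inv_mul, mul_one]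
      exact sub_self _
    have hle : m.toSyn (m.degree f') ≤ m.toSyn (m.degree f) := by
      rw [hf', sub_eq_add_neg]
      refine (m.degree_add_le).trans ?_
      rw [sup_le_iff]
      refine ⟨le_rfl, ?_⟩
      rw [MonomialOrder.degree_neg, ← hi, ← smul_eq_C_mul]
      exact m.degree_smul_le
    rcases lt_or_eq_of_le hle with hlt | heq
    · exact ih _ (hf ▸ hlt) f' rfl
    · have hdeg : m.degree f' = m.degree f := m.toSyn.injective heq
      have : f' = 0 := by
        rw [← m.leadingCoeff_eq_zero_iff]
        unfold MonomialOrder.leadingCoeff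
        rw [hdeg, hc0]
      rw [this]
      exact Submodule.zero_mem _

end General

section Subst

variable {σ : Type*} (m : MonomialOrder σ) {R : Type*} [CommRing R]

theorem leadingCoeff_pow_unit [Nontrivial R] {f : MvPolynomial σ R}
    (hf : IsUnit (m.leadingCoeff f)) (n : ℕ) :
    m.degree (f ^ n) = n • m.degree f ∧ m.leadingCoeff (f ^ n) = m.leadingCoeff f ^ n := by
  have h : m.leadingCoeff f ^ n ≠ 0 := (hf.pow n).ne_zero
  exact ⟨m.degree_pow_of_pow_leadingCoeff_ne_zero h, m.leadingCoeff_pow_of_pow_leadingCoeff_ne_zero h⟩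

/-- degree and leading coefficient of `Π y_j ^ a_j` -/
theorem degree_aeval_monomial [Nontrivial R] (y : σ → MvPolynomial σ R)
    (hy : ∀ j, IsUnit (m.leadingCoeff (y j))) (a : σ →₀ ℕ) :
    m.degree (aeval y (monomial a (1 : R))) = a.sum (fun j n => n • m.degree (y j)) ∧
      IsUnit (m.leadingCoeff (aeval y (monomial a (1 : R)))) := by
  classical
  have h1 : aeval y (monomial a (1 : R)) = ∏ j ∈ a.support, y j ^ a j := by
    rw [aeval_monomial]
    simp [Finsupp.prod]
  have hreg : ∀ j ∈ a.support, IsRegular (m.leadingCoeff (y j ^ a j)) := fun j _ => by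
    rw [(leadingCoeff_pow_unit m (hy j) (a j)).2]
    exact ((hy j).pow _).isRegular
  refine ⟨?_, ?_⟩
  · rw [h1, m.degree_prod_of_regular hreg]
    exact Finset.sum_congr rfl fun j _ => (leadingCoeff_pow_unit m (hy j) (a j)).1
  · rw [h1, m.leadingCoeff_prod_of_regular hreg]
    refine IsUnit.prod_iff.2 fun j _ => ?_
    rw [(leadingCoeff_pow_unit m (hy j) (a j)).2]
    exact (hy j).pow _

/-- The exponents which are small in every variable. -/
def Small (d : σ → ℕ) : Set (σ →₀ ℕ) := {e | ∀ j, e j < d j}

/-- The map `(p_e)_e ↦ ∑ p_e(y) X^e`. -/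
noncomputable def freeMap (d : σ → ℕ) (y : σ → MvPolynomial σ R) :
    (Small d →₀ MvPolynomial σ R) →ₗ[R] MvPolynomial σ R :=
  Finsupp.lsum R fun e =>
    (LinearMap.mulRight R (monomial (e : σ →₀ ℕ) (1 : R))) ∘ₗ (aeval y).toLinearMap

theorem freeMap_single (d : σ → ℕ) (y : σ → MvPolynomial σ R) (e : Small d)
    (p : MvPolynomial σ R) :
    freeMap d y (Finsupp.single e p) = aeval y p * monomial (e : σ →₀ ℕ) 1 := by
  simp [freeMap]

theorem freeMap_apply (d : σ → ℕ) (y : σ → MvPolynomial σ R)
    (p : Small d →₀ MvPolynomial σ R) :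
    freeMap d y p = p.sum fun e q => aeval y q * monomial (e : σ →₀ ℕ) 1 := by
  simp [freeMap, Finsupp.sum]

/-- division with remainder of exponents -/
theorem exponents_bijective (d : σ → ℕ) (hd : ∀ j, 0 < d j) :
    Function.Bijective fun i : Small d × (σ →₀ ℕ) =>
      (i.2.sum fun j n => n • Finsupp.single j (d j)) + (i.1 : σ →₀ ℕ) := by
  classical
  have key : ∀ (a : σ →₀ ℕ) (k : σ), (a.sum fun j n => n • Finsupp.single j (d j)) k
      = a k * d k := by
    intro a k
    rw [Finsupp.sum_apply, Finsupp.sum, Finset.sum_eq_single k]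
    · simp
    · intro j _ hj
      simp [hj]
    · intro hk
      simp [Finsupp.notMem_support_iff.1 hk]
  constructor
  · rintro ⟨e, a⟩ ⟨e', a'⟩ h
    have h' : ∀ k, a k * d k + (e : σ →₀ ℕ) k = a' k * d k + (e' : σ →₀ ℕ) k := by
      intro k
      have := DFunLike.congr_fun h k
      simp only [Finsupp.add_apply] at this
      rwa [key, key] at this
    have h1 : ∀ k, a k = a' k ∧ (e : σ →₀ ℕ) k = (e' : σ →₀ ℕ) k := by
      intro k
      have he := e.2 k
      have he' := e'.2 k
      have hk := h' k
      have hdiv := congrArg (· / d k) hk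
      have hmod := congrArg (· % d k) hk
      simp only [Nat.mul_add_mod', Nat.mod_eq_of_lt he, Nat.mod_eq_of_lt he'] at hmod
      refine ⟨?_, hmod⟩
      have := hd k
      rw [hmod] at hk
      exact Nat.eq_of_mul_eq_mul_right (hd k) (by omega)
    have ha : a = a' := Finsupp.ext fun k => (h1 k).1
    have he : e = e' := Subtype.ext (Finsupp.ext fun k => (h1 k).2)
    rw [ha, he]
  · intro c
    let a : σ →₀ ℕ := Finsupp.onFinset c.support (fun j => c j / d j) (by
      intro j hj
      rw [Finsupp.mem_support_iff]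
      rintro h0
      simp [h0] at hj)
    let e : σ →₀ ℕ := Finsupp.onFinset c.support (fun j => c j % d j) (by
      intro j hj
      rw [Finsupp.mem_support_iff]
      rintro h0
      simp [h0] at hj)
    refine ⟨⟨⟨e, fun j => Nat.mod_lt _ (hd j)⟩, a⟩, Finsupp.ext fun k => ?_⟩
    simp only [Finsupp.add_apply]
    rw [key]
    exact Nat.div_add_mod' (c k) (d k)

/-- **Freeness of triangular substitutions.** -/
theorem freeMap_bijective (d : σ → ℕ) (hd : ∀ j, 0 < d j) (y : σ → MvPolynomial σ R)
    (hy : ∀ j, m.degree (y j) = Finsupp.single j (d j) ∧ IsUnit (m.leadingCoeff (y j))) :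
    Function.Bijective (freeMap d y) := by
  classical
  rcases subsingleton_or_nontrivial R with hR | hR
  · have h1 : Subsingleton (MvPolynomial σ R) := inferInstance
    refine ⟨fun a b _ => Subsingleton.elim _ _, fun b => ⟨0, Subsingleton.elim _ _⟩⟩
  let b : Module.Basis (Σ _ : Small d, (σ →₀ ℕ)) R (Small d →₀ MvPolynomial σ R) :=
    Finsupp.basis fun _ => basisMonomials σ R
  let g : (Σ _ : Small d, (σ →₀ ℕ)) → MvPolynomial σ R :=
    fun i => aeval y (monomial i.2 (1 : R)) * monomial (i.1 : σ →₀ ℕ) 1
  have hdeg : ∀ i, m.degree (g i) =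
      (i.2.sum fun j n => n • Finsupp.single j (d j)) + (i.1 : σ →₀ ℕ) ∧
      IsUnit (m.leadingCoeff (g i)) := by
    intro i
    obtain ⟨h1, h2⟩ := degree_aeval_monomial m y (fun j => (hy j).2) i.2
    have h3 : m.leadingCoeff (monomial (i.1 : σ →₀ ℕ) (1 : R)) = 1 := m.leadingCoeff_monomial 1
    have h4 : m.degree (monomial (i.1 : σ →₀ ℕ) (1 : R)) = i.1 := by
      rw [m.degree_monomial, if_neg one_ne_zero]
    have hne : monomial (i.1 : σ →₀ ℕ) (1 : R) ≠ 0 := by
      simp
    refine ⟨?_, ?_⟩
    · change m.degree (_ * _) = _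
      rw [m.degree_mul_of_isRegular_left h2.isRegular hne, h4, h1]
      congr 1
      exact Finset.sum_congr rfl fun j _ => by simp only [(hy j).1]
    · change IsUnit (m.leadingCoeff (_ * _))
      rw [m.leadingCoeff_mul_of_isRegular_left h2.isRegular, h3, mul_one]
      exact h2
  have hbij : Function.Bijective fun i => m.degree (g i) := by
    have := (exponents_bijective d hd).comp
      (Equiv.sigmaEquivProd (Small d) (σ →₀ ℕ)).bijective
    convert this using 1
    funext i
    exact (hdeg i).1
  let b' : Module.Basis (Σ _ : Small d, (σ →₀ ℕ)) R (MvPolynomial σ R) :=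
    Module.Basis.mk (linearIndependent_of_degree m g (fun i => (hdeg i).2) hbij.1)
      (span_of_degree m g (fun i => (hdeg i).2) hbij.2).ge
  have hmap : freeMap d y = ((b.equiv b' (Equiv.refl _)) : _ →ₗ[R] _) := by
    refine b.ext fun i => ?_
    have hb : b i = Finsupp.single i.1 (monomial i.2 (1 : R)) := by
      simp [b]
    have h1 : (b.equiv b' (Equiv.refl _)) (b i) = g i := by
      rw [b.equiv_apply]
      simp [b']
    change freeMap d y (b i) = (b.equiv b' (Equiv.refl _)) (b i)
    rw [h1, hb, freeMap_single]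
  rw [hmap]
  exact (b.equiv b' (Equiv.refl _)).bijective

end Subst

section Nat

variable {R : Type*} [CommRing R]

/-- the lexicographic order in which the variables with larger index dominate -/
noncomputable def colex : MonomialOrder ℕ := (MonomialOrder.lex (σ := ℕᵒᵈ))

theorem colex_lt_single {c : ℕ →₀ ℕ} {j d : ℕ} (hc : ∀ k, j < k → c k = 0) (hd : c j < d) :
    colex.toSyn c < colex.toSyn (Finsupp.single j d) := by
  change toLex (α := ℕᵒᵈ →₀ ℕ) c < toLex (α := ℕᵒᵈ →₀ ℕ) (Finsupp.single j d)
  rw [Finsupp.Lex.lt_iff (α := ℕᵒᵈ)]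
  refine ⟨OrderDual.toDual j, fun k hk => ?_, ?_⟩
  · have hk' : j < OrderDual.ofDual k := hk
    have h1 := hc _ hk'
    have h2 : (Finsupp.single j d) (OrderDual.ofDual k) = 0 := by
      rw [Finsupp.single_apply, if_neg hk'.ne]
    exact h1.trans h2.symm
  · have h2 : (Finsupp.single j d) j = d := by simp
    exact hd.trans_eq h2.symm

/-- `y j = u_j X_j^{d_j} + (lower terms)` -/
theorem colex_degree {j d : ℕ} {u : R} (hu : IsUnit u) {r : MvPolynomial ℕ R}
    (hr : ∀ c ∈ r.support, (∀ k, j < k → c k = 0) ∧ c j < d) [Nontrivial R] :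
    colex.degree (C u * X j ^ d + r) = Finsupp.single j d ∧
      IsUnit (colex.leadingCoeff (C u * X j ^ d + r)) := by
  classical
  have hmon : (C u * X j ^ d : MvPolynomial ℕ R) = monomial (Finsupp.single j d) u := by
    rw [X_pow_eq_monomial, C_mul_monomial, mul_one]
  have h1 : colex.degree (C u * X j ^ d : MvPolynomial ℕ R) = Finsupp.single j d := by
    rw [hmon, colex.degree_monomial, if_neg hu.ne_zero]
  have h1' : colex.leadingCoeff (C u * X j ^ d : MvPolynomial ℕ R) = u := by
    rw [hmon, colex.leadingCoeff_monomial]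
  rcases eq_or_ne r 0 with rfl | hr0
  · rw [add_zero, h1, h1']
    exact ⟨rfl, hu⟩
  have hlt : colex.toSyn (colex.degree r) <
      colex.toSyn (colex.degree (C u * X j ^ d : MvPolynomial ℕ R)) := by
    rw [h1]
    obtain ⟨ha, hb⟩ := hr _ (colex.degree_mem_support hr0)
    exact colex_lt_single ha hb
  exact ⟨(colex.degree_add_of_lt hlt).trans h1, by
    rw [colex.leadingCoeff_add_of_lt hlt, h1']; exact hu⟩

/-- **Freeness, for variables indexed by `ℕ`**: if `y j = u_j X_j^{d_j} + r_j`, `u_j` a unit,
`d_j > 0`, `r_j` a polynomial in `X_0, .., X_j` of degree `< d_j` in `X_j`, then every polynomial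
is uniquely `∑ p_e(y) X^e` with `e j < d j`. -/
theorem freeMap_bijective_nat (d : ℕ → ℕ) (hd : ∀ j, 0 < d j) (u : ℕ → R) (hu : ∀ j, IsUnit (u j))
    (r : ℕ → MvPolynomial ℕ R)
    (hr : ∀ j, ∀ c ∈ (r j).support, (∀ k, j < k → c k = 0) ∧ c j < d j) :
    Function.Bijective (freeMap d fun j => C (u j) * X j ^ d j + r j) := by
  rcases subsingleton_or_nontrivial R with hR | hR
  · refine ⟨fun a b _ => Subsingleton.elim _ _, fun b => ⟨0, Subsingleton.elim _ _⟩⟩
  exact freeMap_bijective colex d hd _ fun j => colex_degree (hu j) (hr j)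

end Nat

end Vale.Agent.P251.Z
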