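import Vale.Agent.P251.Z.LinMaps
import Vale.Agent.P251.S.Local
import Vale.Agent.P251.S.Scal

/-!
# P251, part Z: the reverse comparison `K ⊗ W = 0 ⟹ K_h ⊗ W = 0`, abstract form
-/

open CategoryTheory MonoidalCategory Limits Pretriangulated MonObj

set_option linter.unusedSectionVars false

universe v u

namespace Vale.Agent.P251.Z

open Vale.Agent.P251.T Vale.Agent.P251.S

section inv

variable {T : Type u} [Category.{v} T] [Preadditive T] [MonoidalCategory T]
  [MonoidalPreadditive T] [SymmetricCategory T] {P : T} [MonObj P] [IsCommMonObj P]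

theorem braid_unit_unit : (β_ (𝟙_ T) (𝟙_ T)).hom = 𝟙 _ := by
  rw [braiding_tensorUnit_left]
  simp [unitors_equal]

theorem scL_braid {R R' : T} [MonObj R] [MonObj R'] (a : 𝟙_ T ⟶ R) :
    scL R' a ≫ (β_ R R').hom = scR R' a := by
  unfold scL scR
  rw [Category.assoc, BraidedCategory.braiding_naturality, braid_unit_unit, Category.id_comp]

theorem scR_braid {R R' : T} [MonObj R] [MonObj R'] (a : 𝟙_ T ⟶ R') :
    scR R a ≫ (β_ R R').hom = scL R a := by
  unfold scL scR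
  rw [Category.assoc, BraidedCategory.braiding_naturality, braid_unit_unit, Category.id_comp]

/-- the invariance relation, with the roles of the factors exchanged, as endomorphisms -/
theorem InvRel.swap {v : ℕ → (𝟙_ T ⟶ P)} {i : ℕ} (hv : InvRel P v i) :
    ∃ (u : P ⊗ P ⟶ P ⊗ P) (c : ℕ → (P ⊗ P ⟶ P ⊗ P)), IsIso u ∧
      (ModStr.self P).smul (v i) ▷ P = u ≫ P ◁ (ModStr.self P).smul (v i) +
        ∑ k ∈ Finset.range i, c k ≫ P ◁ (ModStr.self P).smul (v k) := by
  obtain ⟨u, u', c, hu, hc⟩ := hv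
  have h1 := congrArg (fun z => z ≫ (β_ P P).hom) hc
  simp only [Preadditive.add_comp, Preadditive.sum_comp, scMul_comp, scL_braid, scR_braid] at h1
  have hu1 : scMul (u ≫ (β_ P P).hom) (u' ≫ (β_ P P).hom) = η[P ⊗ P] := by
    rw [← scMul_comp, hu, IsMonHom.one_hom]
  set M := (ModStr.self P).tens (ModStr.self P) with hM
  have h2 := congrArg M.smul h1
  rw [M.smul_add, M.smul_sum] at h2
  refine ⟨M.smul (u ≫ (β_ P P).hom), fun k => M.smul (c k ≫ (β_ P P).hom), ?_, ?_⟩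
  · refine ⟨M.smul (u' ≫ (β_ P P).hom), ?_, ?_⟩
    · rw [← M.smul_mul', hu1, M.smul_one]
    · rw [← M.smul_mul, hu1, M.smul_one]
  · rw [← (ModStr.self P).tens_smul_left (ModStr.self P), h2, M.smul_mul']
    congr 1
    · rw [(ModStr.self P).tens_smul_right (ModStr.self P)]
    · refine Finset.sum_congr rfl fun k _ => ?_
      rw [M.smul_mul, (ModStr.self P).tens_smul_right (ModStr.self P)]

end inv

section main

variable {T : Type u} [Category.{v} T] [Preadditive T] [HasZeroObject T]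
    [HasShift T ℤ] [∀ n : ℤ, (shiftFunctor T n).Additive] [Pretriangulated T] [IsTriangulated T]
    [MonoidalCategory T] [SymmetricCategory T] [TensorTriangulated T] [MonoidalClosed T]
    [HasCoproducts.{0} T] [HasProducts.{0} T] [StableCat T]

/-- multiplication by `v k` on `P` -/
abbrev vP {P : T} [MonObj P] (v : ℕ → (𝟙_ T ⟶ P)) (k : ℕ) : P ⟶ P := (ModStr.self P).smul (v k)

theorem whiskerLeft_zsmul' (X : T) {Y Z : T} (f : Y ⟶ Z) (n : ℤ) : X ◁ (n • f) = n • (X ◁ f) :=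
  (tensorLeft X).map_zsmul

theorem whiskerRight_zsmul' (X : T) {Y Z : T} (f : Y ⟶ Z) (n : ℤ) : (n • f) ▷ X = n • (f ▷ X) :=
  (tensorRight X).map_zsmul

theorem vP_zero {P : T} [MonObj P] [IsCommMonObj P] {p : ℤ} {h : ℕ} {v : ℕ → (𝟙_ T ⟶ P)}
    (hv : InvData P p h v) : vP v 0 = p • 𝟙 P := by
  unfold vP
  rw [hv.v0]
  have h1 := map_zsmul (ModStr.self P).smulHom p η[P]
  have h2 : (ModStr.self P).smulHom η[P] = 𝟙 P := (ModStr.self P).smul_one
  rw [h2] at h1
  exact h1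

instance isIso_desc_unit (P : T) : IsIso (Sigma.desc fun _ : Unit => (λ_ P).inv) :=
  ⟨(λ_ P).hom ≫ Sigma.ι (fun _ : Unit => P) (), by
    apply Sigma.hom_ext
    intro a
    simp, by simp⟩

/-- The hypotheses of the reverse comparison: `v_0 = p, v_1, …, v_{h-1}` are zero on `K ⊗ P`,
`v_h` is invertible on `K ⊗ P`, the `φ e : P ⟶ K ⊗ P` are linear maps such that
`⨁_e v_h⁻¹ π_*(P) / I_h ⟶ π_*(K ⊗ P)` is an isomorphism, `I_h` is regular on `π_*(P)`, and
`P ⊗ P` is a free `P`-module. -/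
structure RevData (P : T) [MonObj P] (p : ℤ) (h : ℕ) (v : ℕ → (𝟙_ T ⟶ P)) (K : T)
    {I : Type} (φ : I → (P ⟶ K ⊗ P)) {J : Type} (f : J → (P ⟶ P ⊗ P)) : Prop where
  inv : InvData P p h v
  char : p • 𝟙 K = 0
  zero : ∀ i, 1 ≤ i → i < h → K ◁ vP v i = 0
  unit : IsIso (K ◁ vP v h)
  linφ : ∀ e, Lin (φ e)
  linf : ∀ a, Lin (f a)
  free : IsIso (Sigma.desc f)
  reg : ∀ A : T, IsSphere A → GoodReg 0 h (fun k => pc A (vP v k))
  map : ∀ A : T, IsSphere A → GoodMap h (fun k => pc A (vP v k)) (pc A (K ◁ vP v h))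
    (fun e => pc A (φ e))

variable {P : T} [MonObj P] [IsCommMonObj P] {p : ℤ} {h : ℕ} {v : ℕ → (𝟙_ T ⟶ P)}
  (D : KosData P p h v) {K : T} {I : Type} {φ : I → (P ⟶ K ⊗ P)} {J : Type}
  {f : J → (P ⟶ P ⊗ P)}

/-- the level `0` -/
theorem RevData.level_zero (R : RevData P p h v K φ f) :
    Level P K (vP v) φ 0 h (𝟙_ T) K (λ_ K).hom := by
  have hb : ∀ (A X : T), Function.Bijective (pc A (λ_ X).inv) := by
    intro A X
    constructor
    · intro x y hxy
      exact (cancel_mono (λ_ X).inv).1 hxy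
    · intro y
      exact ⟨y ≫ (λ_ X).hom, by simp⟩
  have hn : ∀ (A : T) (k : ℕ) (x : A ⟶ P), pc A (λ_ P).inv (pc A (vP v k) x) =
      pc A ((𝟙_ T) ◁ vP v k) (pc A (λ_ P).inv x) := by
    intro A k x
    simp only [pc_apply, Category.assoc]
    rw [leftUnitor_inv_naturality]
  refine ⟨fun A hA => ?_, fun A hA => ?_⟩
  · have H := R.reg A hA
    refine ⟨?_, fun j hj => absurd hj (Nat.not_lt_zero j), ?_⟩
    · intro j k x
      obtain ⟨x, rfl⟩ := (hb A P).2 x
      rw [← hn, ← hn, ← hn, ← hn, H.comm]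
    · intro k hk hk' x hx
      obtain ⟨x, rfl⟩ := (hb A P).2 x
      rw [← hn] at hx
      have h1 : pc A (vP v k) x ∈ VI (fun k => pc A (vP v k)) k := by
        have := map_mem_VI (v₂ := fun k => pc A (vP v k)) (pc A (λ_ P).hom) (fun j y => by
          simp only [pc_apply, Category.assoc]
          rw [leftUnitor_naturality]) hx
        simpa using this
      exact map_mem_VI (pc A (λ_ P).inv) (fun j y => hn A j y) (H.reg k hk hk' x h1)
  · refine (R.map A hA).quot (pc A (λ_ P).inv) (hb A P).2 (hn A) (AddMonoidHom.id _)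
      Function.bijective_id (fun _ => rfl) ?_
    intro e x
    simp only [pc_apply, AddMonoidHom.id_apply, Category.assoc]
    rw [← leftUnitor_inv_naturality_assoc]
    congr 1
    have : (λ_ (K ⊗ P)).inv ≫ (α_ (𝟙_ T) K P).inv ≫ (λ_ K).hom ▷ P = 𝟙 _ := by monoidal
    rw [this, Category.comp_id]

/-- all levels -/
theorem RevData.exists_level (R : RevData P p h v K φ f) (i : ℕ) (hi : i ≤ h) :
    ∃ (G Z : T) (_ : G ≅ K ⊗ Z) (r : D.kos i ⊗ K ⟶ G), Level P K (vP v) φ i h (D.kos i) G r := by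
  induction i with
  | zero => exact ⟨K, 𝟙_ T, (ρ_ K).symm, (λ_ K).hom, R.level_zero⟩
  | succ i ih =>
    obtain ⟨G, Z, e, r, L⟩ := ih (by omega)
    have hdist : ∀ (S : T), (K ⊗ Z) ⊗ S ≅ K ⊗ (Z ⊗ S) := fun S => α_ K Z S
    match i, r, L with
    | 0, r, L =>
      have hfv : ∀ (_ : Unit) (k : ℕ), (λ_ P).inv ≫ (𝟙_ T) ◁ vP v k = vP v k ≫ (λ_ P).inv :=
        fun _ k => (leftUnitor_inv_naturality _).symm
      obtain ⟨r', L'⟩ := L.step (by omega) D.dist0 (fun _ : Unit => (λ_ P).inv) hfv (𝟙 _)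
        (fun _ => 0) (by
          rw [Category.id_comp, Finset.sum_range_zero, add_zero, vP_zero R.inv,
            whiskerLeft_zsmul', whiskerRight_zsmul', id_whiskerRight,
            MonoidalCategory.whiskerLeft_id])
        (by
          rw [whiskerLeft_zsmul', MonoidalCategory.whiskerLeft_id, ← id_whiskerRight,
            ← whiskerRight_zsmul', R.char, MonoidalPreadditive.zero_whiskerRight])
        (fun _ e => by
          rw [← leftUnitor_inv_naturality_assoc, unit_perm])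
      exact ⟨G ⊗ 𝟙_ T, Z ⊗ 𝟙_ T, whiskerRightIso e _ ≪≫ hdist _, r', L'⟩
    | i + 1, r, L =>
      obtain ⟨u, c, hu, hw⟩ := InvRel.swap (R.inv.inv (i + 1) (by omega) (by omega))
      have := R.free
      obtain ⟨r', L'⟩ := L.step (by omega) (D.dist i) f
        (fun a k => ((R.linf a).smul_comm (v k)).symm) u c hw
        (R.zero (i + 1) (by omega) (by omega)) (fun a e => (R.linf a).comm (R.linφ e))
      exact ⟨G ⊗ P, Z ⊗ P, whiskerRightIso e _ ≪≫ hdist _, r', L'⟩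

/-- **The reverse comparison.** `K_h` is a direct summand of `K ⊗ (Z ⊗ P)`, for some `Z`. -/
theorem RevData.exists_retract [Nonempty I] (R : RevData P p h v K φ f) :
    ∃ (Z : T) (s : D.K ⟶ K ⊗ Z) (t : K ⊗ Z ⟶ D.K), s ≫ t = 𝟙 _ := by
  obtain ⟨G, Z, e, r, L⟩ := R.exists_level D h le_rfl
  have := R.unit
  have hG : IsIso (G ◁ vP v h) := by
    have h1 : IsIso ((K ⊗ Z) ◁ vP v h) := by
      refine isIso_conj (f := Z ◁ (K ◁ vP v h)) ((α_ Z K P).symm ≪≫ whiskerRightIso (β_ Z K) P)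
        ?_ inferInstance
      simp only [Iso.trans_hom, Iso.symm_hom, whiskerRightIso_hom, Category.assoc]
      rw [← whisker_exchange, associator_inv_naturality_right_assoc]
    refine isIso_conj (f := (K ⊗ Z) ◁ vP v h) (whiskerRightIso e.symm P) ?_ h1
    exact (whisker_exchange _ _).symm
  obtain ⟨l, -, hl⟩ := L.isIso_final D.isTel.tel (fun e => (R.linφ e).smul_comm (v h))
  let e₀ : I := Classical.arbitrary I
  let F : I → (D.K ⟶ G ⊗ P) := fun e => D.kos h ◁ l e ≫ (α_ (D.kos h) K P).inv ≫ r ▷ P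
  have hF : IsIso (Sigma.desc F) := hl
  let E : G ⊗ P ≅ K ⊗ (Z ⊗ P) := whiskerRightIso e P ≪≫ α_ K Z P
  refine ⟨Z ⊗ P, F e₀ ≫ E.hom, E.inv ≫ CategoryTheory.inv (Sigma.desc F) ≫ sproj (fun _ : I => D.K) e₀, ?_⟩
  have h1 : F e₀ = Sigma.ι (fun _ : I => D.K) e₀ ≫ Sigma.desc F := by simp
  rw [Category.assoc, Iso.hom_inv_id_assoc, h1, Category.assoc, IsIso.hom_inv_id_assoc,
    ι_sproj_self]

/-- **`K ⊗ W = 0` implies `K_h ⊗ W = 0`.** -/
theorem RevData.acyclic [Nonempty I] (R : RevData P p h v K φ f) {W : T} (hW : Acyclic K W) :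
    Acyclic D.K W := by
  obtain ⟨Z, s, t, hst⟩ := R.exists_retract D
  have h1 : IsZero ((K ⊗ Z) ⊗ W) := by
    have e : (K ⊗ Z) ⊗ W ≅ K ⊗ (Z ⊗ W) := α_ K Z W
    exact (acyclic_tensor hW Z).of_iso e
  unfold Acyclic
  rw [IsZero.iff_id_eq_zero]
  have h2 : 𝟙 (D.K ⊗ W) = (s ▷ W) ≫ (t ▷ W) := by
    rw [← comp_whiskerRight, hst, id_whiskerRight]
  rw [h2, h1.eq_of_tgt (s ▷ W) 0, zero_comp]

end main

end Vale.Agent.P251.Z
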