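import Vale.Agent.P251.Z.KFree
import Vale.Agent.P251.Z.GoodAlg

/-!
# P251, part Z2: the good map `⨁_e v_h⁻¹ π_* MU / I_h ⟶ K_* MU`, algebraic form

`G` a law over `R₀` (`= π_* MU`), `R₀ = im(Laz) + p R₀`; `F` a law over `A = 𝔽_p[v^{±1}]`,
`B₀ = A[b_0, b_1, …]` (`= K_* MU`), `ρ : R₀ ⟶ B₀` with `ρ_* G = (x + b_0 x^2 + …) • F`.
-/

namespace Vale.Agent.P251.Z

open Vale.Agent.P217 Vale.Agent.P251.F

/-- multiplication by `a` as an additive map -/
def mulA {R : Type*} [CommRing R] (a : R) : R →+ R := AddMonoidHom.mulLeft a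

@[simp] theorem mulA_apply {R : Type*} [CommRing R] (a x : R) : mulA a x = a * x := rfl

theorem mulA_iterate {R : Type*} [CommRing R] (a x : R) (n : ℕ) :
    (mulA a)^[n] x = a ^ n * x := by
  induction n with
  | zero => simp
  | succ n ih => rw [Function.iterate_succ_apply', ih, mulA_apply, pow_succ]; ring

/-- a common denominator -/
theorem exists_common {L₀ L : Type*} [CommRing L₀] [CommRing L] [Algebra L₀ L] (x : L₀)
    [IsLocalization.Away x L] {I : Type*} (l : I →₀ L) :
    ∃ (N : ℕ) (z : I → L₀), ∀ e, algebraMap L₀ L x ^ N * l e = algebraMap L₀ L (z e) := by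
  classical
  have h1 : ∀ e, ∃ (n : ℕ) (z : L₀), algebraMap L₀ L x ^ n * l e = algebraMap L₀ L z := by
    intro e
    obtain ⟨n, a, hna⟩ := IsLocalization.Away.surj (S := L) x (l e)
    exact ⟨n, a, by rw [mul_comm]; exact hna⟩
  choose n z hz using h1
  refine ⟨∑ e ∈ l.support, n e, fun e => if e ∈ l.support then
    x ^ (∑ e' ∈ l.support.erase e, n e') * z e else 0, fun e => ?_⟩
  by_cases he : e ∈ l.support
  · dsimp only
    rw [if_pos he, map_mul, ← hz, map_pow, ← Finset.sum_erase_add _ _ he, pow_add, mul_assoc]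
  · dsimp only
    rw [if_neg he, map_zero, Finsupp.notMem_support_iff.1 he, mul_zero]

section main

variable {p h : ℕ} [hp : Fact p.Prime] {A : Type*} [CommRing A]
  [Algebra (Polynomial (ZMod p)) A] [IsLocalization.Away (Polynomial.X : Polynomial (ZMod p)) A]

omit hp in
/-- elements of `I_h` act through `v_0, …, v_{h-1}` -/
theorem lift_mem_VI {R₀ : Type*} [CommRing R₀] (G : Law R₀) {z : Laz} (hz : z ∈ Laz.I p h)
    (x : R₀) : Laz.lift G z * x ∈ VI (fun k => mulA (vv p k G)) h := by
  unfold Laz.I Ih at hz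
  induction hz using Submodule.span_induction generalizing x with
  | mem a ha =>
    obtain ⟨i, hi, rfl⟩ := ha
    have h2 : Laz.lift G (vv p i Laz.univ) = vv p i G := by
      rw [← vv_map, Laz.univ_map_lift]
    rw [h2]
    exact apply_mem_VI (fun k => mulA (vv p k G)) hi x
  | zero => rw [map_zero, zero_mul]; exact zero_mem _
  | add a b _ _ ha hb => rw [map_add, add_mul]; exact add_mem (ha x) (hb x)
  | smul a b _ hb =>
    rw [smul_eq_mul, map_mul, mul_comm (Laz.lift G a), mul_assoc]
    exact hb _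

/-- **The good map, algebraic form.** -/
theorem goodMap_ring (hh : h ≠ 0) (F : Law A) (hF : ∀ i < h, vv p i F = 0)
    (hv : vv p h F = algebraMap (Polynomial (ZMod p)) A Polynomial.X)
    {R₀ B₀ : Type*} [CommRing R₀] [CommRing B₀] (G : Law R₀) (ε : MvPolynomial ℕ A →+* B₀)
    (hε : Function.Bijective ε) (ρ : R₀ →+* B₀) (hρ : G.map ρ = (bL F).map ε)
    (hgen : ∀ x : R₀, ∃ (z : Laz) (y : R₀), x = Laz.lift G z + (p : R₀) * y) :
    GoodMap h (fun k => mulA (vv p k G)) (mulA (ρ (vv p h G)))
      (fun e : Small (kdeg p h) => (mulA (ε (MvPolynomial.monomial (e : ℕ →₀ ℕ) 1))).comp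
        ρ.toAddMonoidHom) := by
  classical
  have hA : (p : A) = 0 := natCast_eq_zero_of_loc p
  have hvu : IsUnit (vv p h F) := by
    rw [hv]
    exact IsLocalization.Away.algebraMap_isUnit _
  have hB : (p : B₀) = 0 := by
    rw [← map_natCast ε, ← map_natCast (MvPolynomial.C (σ := ℕ) (R := A)), hA, map_zero, map_zero]
  have hρG : ∀ z, ρ (Laz.lift G z) = ε (Laz.lift (bL F) z) := by
    have h1 : ρ.comp (Laz.lift G) = ε.comp (Laz.lift (bL F)) := by
      have h2 : ∀ {B : Type _} [CommRing B] (f g : Laz →+* B), Laz.univ.map f = Laz.univ.map g →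
          f = g := fun f g hfg => by
        rw [← Laz.lift_map_univ f, ← Laz.lift_map_univ g, hfg]
      apply h2
      rw [← Law.map_map, ← Law.map_map, Laz.univ_map_lift, Laz.univ_map_lift, hρ]
    exact fun z => congrFun (congrArg DFunLike.coe h1) z
  -- the localization
  set L := Localization.Away (Ideal.Quotient.mk (Laz.I p h) (Laz.v p h)) with hL
  have hker : ∀ a ∈ Laz.I p h, Laz.lift (bL F) a = 0 := by
    have h1 : Laz.I p h ≤ RingHom.ker (Laz.lift (bL F)) := by
      rw [Laz.I, Ih, Ideal.span_le]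
      rintro _ ⟨i, hi, rfl⟩
      change Laz.lift (bL F) (Laz.v p i) = 0
      rw [Laz.lift_v]
      exact vv_bL_lt hF hi
    exact fun a ha => h1 ha
  have hunit : IsUnit (Ideal.Quotient.lift (Laz.I p h) (Laz.lift (bL F)) hker
      (Ideal.Quotient.mk (Laz.I p h) (Laz.v p h))) := by
    rw [Ideal.Quotient.lift_mk, Laz.lift_v, vv_bL_self hF]
    exact hvu.map _
  set φ : L →+* MvPolynomial ℕ A := IsLocalization.Away.lift
    (Ideal.Quotient.mk (Laz.I p h) (Laz.v p h)) hunit with hφd
  have hφ : (φ.comp (algebraMap (Laz ⧸ Laz.I p h) L)).comp (Ideal.Quotient.mk (Laz.I p h)) =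
      Laz.lift (bL F) := by
    rw [hφd, IsLocalization.Away.lift_comp]
    rfl
  have hφz : ∀ z : Laz, φ (algebraMap (Laz ⧸ Laz.I p h) L (Ideal.Quotient.mk (Laz.I p h) z)) =
      Laz.lift (bL F) z := fun z => congrFun (congrArg DFunLike.coe hφ) z
  have hfree := kfree (p := p) hh F hF hv φ hφ
  have hvG : ρ (vv p h G) = ε (MvPolynomial.C (vv p h F)) := by
    rw [← vv_map, hρ, vv_map, vv_bL_self hF]
  refine ⟨fun e x => ?_, fun y => ?_, fun x hx e => ?_⟩
  · change _ * ρ (vv p h G * x) = ρ (vv p h G) * (_ * ρ x)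
    rw [map_mul]
    ring
  · obtain ⟨y, rfl⟩ := hε.2 y
    obtain ⟨l, rfl⟩ := hfree.2 y
    obtain ⟨N, z, hz⟩ := exists_common (Ideal.Quotient.mk (Laz.I p h) (Laz.v p h)) l
    have hz' : ∀ e, ∃ z' : Laz, Ideal.Quotient.mk (Laz.I p h) z' = z e := fun e =>
      Ideal.Quotient.mk_surjective (z e)
    choose z' hz' using hz'
    refine ⟨N, Finsupp.onFinset l.support (fun e => if e ∈ l.support then Laz.lift G (z' e) else 0)
      (by
        intro a ha
        by_contra h1
        simp [h1] at ha), ?_⟩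
    rw [mulA_iterate, Finsupp.onFinset_sum _ (fun a => map_zero _)]
    change ρ (vv p h G) ^ N * ε (l.sum fun e l => φ l * MvPolynomial.monomial (e : ℕ →₀ ℕ) 1) = _
    rw [hvG, ← map_pow, ← map_mul, Finsupp.sum, Finset.mul_sum, map_sum]
    refine Finset.sum_congr rfl fun e he => ?_
    rw [if_pos he]
    change _ = ε (MvPolynomial.monomial (e : ℕ →₀ ℕ) 1) * ρ (Laz.lift G (z' e))
    rw [hρG, ← map_mul]
    congr 1
    have h1 : φ (algebraMap (Laz ⧸ Laz.I p h) L (Ideal.Quotient.mk (Laz.I p h) (Laz.v p h)) ^ N *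
        l e) = Laz.lift (bL F) (z' e) := by
      rw [hz, ← hz', hφz]
    rw [map_mul, map_pow, hφz, Laz.lift_v, vv_bL_self hF] at h1
    rw [← h1]
    ring
  · choose z y hzy using hgen
    -- choose `z = 0` outside of the support
    let z' : Small (kdeg p h) → Laz := fun e => if e ∈ x.support then z (x e) else 0
    let y' : Small (kdeg p h) → R₀ := fun e => if e ∈ x.support then y (x e) else 0
    have hxz : ∀ e, x e = Laz.lift G (z' e) + (p : R₀) * y' e := by
      intro e
      by_cases he : e ∈ x.support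
      · simp only [z', y', if_pos he]
        exact hzy (x e)
      · simp only [z', y', if_neg he]
        rw [map_zero, mul_zero, add_zero]
        exact Finsupp.notMem_support_iff.1 he
    let l : Small (kdeg p h) →₀ L := Finsupp.onFinset x.support (fun e =>
      algebraMap (Laz ⧸ Laz.I p h) L (Ideal.Quotient.mk (Laz.I p h) (z' e))) (by
        intro a ha
        by_contra h1
        simp only [z', if_neg h1, map_zero] at ha
        exact ha rfl)
    have h1 : (l.sum fun e l => φ l * MvPolynomial.monomial (e : ℕ →₀ ℕ) 1) = 0 := by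
      apply hε.1
      rw [map_zero, ← hx]
      change ε ((Finsupp.onFinset x.support _ _).sum _) = _
      rw [Finsupp.onFinset_sum _ (fun a => by rw [map_zero, zero_mul]), Finsupp.sum, map_sum]
      refine Finset.sum_congr rfl fun e _ => ?_
      change _ = ε (MvPolynomial.monomial (e : ℕ →₀ ℕ) 1) * ρ (x e)
      rw [hxz e, map_add ρ, map_mul ρ, map_natCast, hB, zero_mul, add_zero, hρG, ← map_mul, hφz,
        mul_comm]
    have h2 : l = 0 := by
      apply hfree.1
      change (l.sum fun e l => φ l * MvPolynomial.monomial (e : ℕ →₀ ℕ) 1) =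
        ((0 : Small (kdeg p h) →₀ L).sum fun e l => φ l * MvPolynomial.monomial (e : ℕ →₀ ℕ) 1)
      rw [h1, Finsupp.sum_zero_index]
    have h3 : algebraMap (Laz ⧸ Laz.I p h) L (Ideal.Quotient.mk (Laz.I p h) (z' e)) = 0 := by
      have := DFunLike.congr_fun h2 e
      simpa [l] using this
    obtain ⟨⟨_, k, rfl⟩, hk⟩ := (IsLocalization.map_eq_zero_iff
      (Submonoid.powers (Ideal.Quotient.mk (Laz.I p h) (Laz.v p h))) L _).1 h3
    refine ⟨k, ?_⟩
    dsimp only at hk
    rw [← map_pow, ← map_mul, Ideal.Quotient.eq_zero_iff_mem] at hk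
    rw [mulA_iterate, hxz e, mul_add]
    refine add_mem ?_ ?_
    · have h4 := lift_mem_VI G hk (1 : R₀)
      rw [mul_one, map_mul, map_pow, Laz.lift_v] at h4
      exact h4
    · have h5 : vv p h G ^ k * ((p : R₀) * y' e) = mulA (vv p 0 G) (vv p h G ^ k * y' e) := by
        rw [mulA_apply, vv_zero]
        ring
      rw [h5]
      exact apply_mem_VI (fun k => mulA (vv p k G)) (Nat.pos_of_ne_zero hh) _

end main

end Vale.Agent.P251.Z
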