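import Vale.Agent.P251.M.KBasisMU
import Vale.Agent.P251.Z.KComparison
import Vale.Agent.P251.Z.KGood

/-!
# P251, part Z2: `π_*(K ⊗ R) = K_*[b_0, b_1, …]`

From a graded basis of `K ⊗ R` over `K` consisting of the monomials `b^a`.
-/

open CategoryTheory MonoidalCategory Limits Pretriangulated MonObj

set_option linter.unusedSectionVars false

universe v u

namespace Vale.Agent.P251.Z

open Vale.Agent.P251.T Vale.Agent.P251.M Vale.Agent.P251.S Vale.Agent.P251.F EvenSpheres

variable {T : Type u} [Category.{v} T] [Preadditive T] [HasZeroObject T]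
    [HasShift T ℤ] [∀ n : ℤ, (shiftFunctor T n).Additive] [Pretriangulated T] [IsTriangulated T]
    [MonoidalCategory T] [SymmetricCategory T] [TensorTriangulated T] [MonoidalClosed T]
    [HasCoproducts.{0} T] [HasProducts.{0} T] [StableCat T]

theorem isSphere_unit : IsSphere (𝟙_ T) := ⟨0, ⟨((shiftFunctorZero T ℤ).app _).symm⟩⟩

/-- homotopy of a coproduct -/
theorem bij_sum' {J : Type} {N Y : T} (f : J → (N ⟶ Y)) [IsIso (Sigma.desc f)] {A : T}
    (hA : IsSphere A) : Function.Bijective (Finsupp.liftAddHom fun a : J => pc A (f a)) := by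
  classical
  have h := bij_sum (𝟙_ T) f hA
  have key : ∀ x : J →₀ (A ⟶ N), Finsupp.liftAddHom (fun a => pc A (f a)) x ≫ (λ_ Y).inv =
      Finsupp.liftAddHom (fun a => pc A ((𝟙_ T) ◁ f a))
        (x.mapRange (fun z => z ≫ (λ_ N).inv) zero_comp) := by
    intro x
    rw [Finsupp.liftAddHom_apply, Finsupp.liftAddHom_apply, Finsupp.sum_mapRange_index
      (fun a => map_zero _), Finsupp.sum, Finsupp.sum, Preadditive.sum_comp]
    refine Finset.sum_congr rfl fun a _ => ?_
    rw [pc_apply, pc_apply, Category.assoc, Category.assoc, leftUnitor_inv_naturality]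
  constructor
  · rw [injective_iff_map_eq_zero]
    intro x hx
    have h1 := key x
    rw [hx, zero_comp] at h1
    have h2 : x.mapRange (fun z => z ≫ (λ_ N).inv) zero_comp = 0 :=
      h.1 (h1.symm.trans (map_zero _).symm)
    ext a
    have h3 := DFunLike.congr_fun h2 a
    rw [Finsupp.mapRange_apply, Finsupp.zero_apply] at h3
    rw [Finsupp.zero_apply, ← cancel_mono (λ_ N).inv, h3, zero_comp]
  · intro y
    obtain ⟨x, hx⟩ := h.2 (y ≫ (λ_ Y).inv)
    refine ⟨x.mapRange (fun z => z ≫ (λ_ N).hom) zero_comp, ?_⟩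
    rw [← cancel_mono (λ_ Y).inv, key, ← hx]
    congr 1
    ext a
    simp

section eps

variable {E : EvenSpheres T} {K R : T} [MonObj K] [IsCommMonObj K] [MonObj R] [IsCommMonObj R]

/-- `K_*[b_0, b_1, …] ⟶ π_*(K ⊗ R)` -/
noncomputable def epsH (β : ℕ → HRing E (K ⊗ R)) :
    MvPolynomial ℕ (HRing E K) →+* HRing E (K ⊗ R) :=
  MvPolynomial.eval₂Hom (HRing.map (inlM K R)) β

theorem epsH_monomial (β : ℕ → HRing E (K ⊗ R)) (a : ℕ →₀ ℕ) (c : HRing E K) :
    epsH β (MvPolynomial.monomial a c) =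
      HRing.map (inlM K R) c * a.prod fun i m => β i ^ m :=
  MvPolynomial.eval₂_monomial _ _

theorem epsH_C (β : ℕ → HRing E (K ⊗ R)) (c : HRing E K) :
    epsH β (MvPolynomial.C c) = HRing.map (inlM K R) c := MvPolynomial.eval₂_C _ _ _

theorem epsH_X (β : ℕ → HRing E (K ⊗ R)) (i : ℕ) :
    epsH β (MvPolynomial.X i) = β i := MvPolynomial.eval₂_X _ _ _

/-- **`π_*(K ⊗ R) = K_*[b_0, b_1, …]`.** -/
theorem epsH_bijective (b : GBasis E (inlM K R) (ℕ →₀ ℕ)) (β : ℕ → HRing E (K ⊗ R))
    (hb : ∀ a, HRing.of E (K ⊗ R) (b.k a) (b.w a) = a.prod fun i m => β i ^ m) :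
    Function.Bijective (epsH β) := by
  classical
  let f : (ℕ →₀ ℕ) → (K ⊗ E.PS ⟶ (K ⊗ R) ⊗ E.PS) := fun a =>
    (inlM K R ▷ E.PS) ≫ (ModStr.self ((K ⊗ R) ⊗ E.PS)).smul (sharp (b.w a))
  have h1 : IsIso (Sigma.desc f) := isIso_desc_per (inlM K R) b.k b.w b.isIso
  have h2 := bij_sum' f (A := 𝟙_ T) isSphere_unit
  have h3 : ∀ x : (ℕ →₀ ℕ) →₀ HRing E K,
      sharpTot E (K ⊗ R) (epsH β (x.sum fun a c => MvPolynomial.monomial a c)) =
        Finsupp.liftAddHom (fun a => pc (𝟙_ T) (f a))
          (x.mapRange (sharpTot E K) (map_zero _)) := by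
    intro x
    rw [Finsupp.liftAddHom_apply, Finsupp.sum_mapRange_index (fun a => map_zero _), Finsupp.sum,
      Finsupp.sum, map_sum, map_sum]
    refine Finset.sum_congr rfl fun a _ => ?_
    rw [epsH_monomial, ← hb, mul_comm, ← sharpHom_eq_sharpTot, map_mul, sharpHom_of,
      ← sharpHom_map]
    change scMul (sharp (b.w a)) (sharpTot E K (x a) ≫ inlM K R ▷ E.PS) = _
    rw [scMul_eq_smul, Category.assoc]
    rfl
  have h4 : ∀ P : MvPolynomial ℕ (HRing E K), ∃ x : (ℕ →₀ ℕ) →₀ HRing E K,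
      P = x.sum fun a c => MvPolynomial.monomial a c := by
    intro P
    refine ⟨Finsupp.onFinset P.support (fun a => P.coeff a) (fun a ha =>
      MvPolynomial.mem_support_iff.2 ha), ?_⟩
    rw [Finsupp.onFinset_sum _ (fun a => map_zero _)]
    exact P.as_sum
  constructor
  · rw [injective_iff_map_eq_zero]
    intro P hP
    obtain ⟨x, rfl⟩ := h4 P
    have h5 := h3 x
    rw [hP, map_zero] at h5
    have h6 : x.mapRange (sharpTot E K) (map_zero _) = 0 := h2.1 (h5.symm.trans (map_zero _).symm)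
    have h7 : x = 0 := by
      ext1 a
      apply sharpTot_injective K
      have h8 := DFunLike.congr_fun h6 a
      rw [Finsupp.mapRange_apply, Finsupp.zero_apply] at h8
      rw [h8, Finsupp.zero_apply, map_zero]
    rw [h7, Finsupp.sum_zero_index]
  · intro y
    obtain ⟨x, hx⟩ := h2.2 (sharpTot E (K ⊗ R) y)
    have h5 : ∀ a, ∃ z, sharpTot E K z = x a := fun a => sharpTot_surjective K (x a)
    choose z hz using h5
    let x' : (ℕ →₀ ℕ) →₀ HRing E K := Finsupp.onFinset x.support
      (fun a => if a ∈ x.support then z a else 0) (by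
        intro a ha
        by_contra h1
        simp [h1] at ha)
    refine ⟨x'.sum fun a c => MvPolynomial.monomial a c, ?_⟩
    apply sharpTot_injective (K ⊗ R)
    rw [h3, ← hx]
    congr 1
    ext a
    rw [Finsupp.mapRange_apply]
    change sharpTot E K (if a ∈ x.support then z a else 0) = x a
    by_cases ha : a ∈ x.support
    · rw [if_pos ha, hz]
    · rw [if_neg ha, map_zero, Finsupp.notMem_support_iff.1 ha]

end eps

end Vale.Agent.P251.Z
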