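import Vale.Agent.P251.F.KGen
import Vale.Agent.P251.F.LazReg
import Vale.Agent.P251.Z.KAlg

/-!
# P251, part Z2: `K_*[b_0, b_1, …]` is free over `v_h⁻¹ Laz/I_h`

`A = 𝔽_p[v, v⁻¹]` (given as a localization of `𝔽_p[X]` at `X`, `X ↦ v`), `F` a law over `A` with
`v_i(F) = 0` for `i < h` and `v_h(F) = v`. The classifying map of the law
`bL F = (x + b_0 x^2 + …) • F` over `A[b_0, b_1, …]` factors over `v_h⁻¹ Laz/I_h`, and
`A[b_0, b_1, …]` is free over it on the monomials `b^e` with `e_j < p^h` if `j + 2` is a power of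
`p` and `e_j = 0` otherwise.
-/

namespace Vale.Agent.P251.Z

open Vale.Agent.P217 Vale.Agent.P251.F

section Model

variable (p h : ℕ) [hp : Fact p.Prime] {A : Type*} [CommRing A] (v : A)

open Classical in
/-- The coordinates `yF` of the model law over `A[X_0, X_1, …]`. -/
noncomputable def modelY (n : ℕ) : MvPolynomial ℕ A :=
  if hn : ∃ i, n + 2 = p ^ i then
    if hn.choose < h then 0
    else if hn.choose = h then MvPolynomial.C v
    else MvPolynomial.X (p ^ (hn.choose - h) - 2)
  else MvPolynomial.X n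

theorem modelY_pow {i : ℕ} (hi : i ≠ 0) : modelY p h v (p ^ i - 2) =
    if i < h then 0 else if i = h then MvPolynomial.C v
    else MvPolynomial.X (p ^ (i - h) - 2) := by
  have hj : ∃ l, p ^ i - 2 + 2 = p ^ l := ⟨i, Nat.sub_add_cancel (two_le_pow hp.out hi)⟩
  have h1 : hj.choose = i := by
    have h2 : p ^ i = p ^ hj.choose :=
      (Nat.sub_add_cancel (two_le_pow hp.out hi)).symm.trans hj.choose_spec
    exact (Nat.pow_right_injective hp.out.two_le h2).symm
  rw [modelY, dif_pos hj, h1]

variable (hA : (p : A) = 0)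

include hA in
omit hp in
theorem natCast_mv_eq_zero {σ : Type*} : ((p : ℕ) : MvPolynomial σ A) = 0 := by
  rw [← map_natCast (MvPolynomial.C (σ := σ) (R := A)), hA, map_zero]

/-- The model law over `A[X_0, X_1, …]`: `v_i = 0` for `i < h`, `v_h = v`, the other generators are
the variables. -/
noncomputable def modelLaw : Law (MvPolynomial ℕ A) :=
  lawOfY (natCast_mv_eq_zero p hA) (modelY p h v)

theorem vv_modelLaw_lt {i : ℕ} (hi : i < h) : vv p i (modelLaw p h v hA) = 0 := by
  rcases Nat.eq_zero_or_pos i with rfl | hi0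
  · rw [vv_zero, natCast_mv_eq_zero p hA]
  · rw [← yF_pow_sub hp.out _ hi0.ne', modelLaw, yF_lawOfY, modelY_pow p h v hi0.ne', if_pos hi]

theorem vv_modelLaw_self (hh : h ≠ 0) : vv p h (modelLaw p h v hA) = MvPolynomial.C v := by
  rw [← yF_pow_sub hp.out _ hh, modelLaw, yF_lawOfY, modelY_pow p h v hh, if_neg (lt_irrefl h),
    if_pos rfl]

theorem kgen_modelLaw (j : ℕ) : kgen p h (modelLaw p h v hA) j = MvPolynomial.X j := by
  by_cases hj : ∃ i, j + 2 = p ^ i
  · obtain ⟨i, hi⟩ := hj
    have hi0 : i ≠ 0 := by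
      rintro rfl
      rw [pow_zero] at hi
      omega
    obtain rfl : j = p ^ i - 2 := by omega
    rw [kgen_of_pow hp.out h _ hi0, ← yF_pow_sub hp.out _ (show h + i ≠ 0 by omega), modelLaw,
      yF_lawOfY, modelY_pow p h v (by omega), if_neg (by omega), if_neg (by omega),
      Nat.add_sub_cancel_left]
  · rw [kgen_of_not h _ hj, ← yF_eq_xC _ hj, modelLaw, yF_lawOfY, modelY, dif_neg hj]

end Model

section Loc

variable (p h : ℕ) [hp : Fact p.Prime] {A : Type*} [CommRing A]
  [Algebra (Polynomial (ZMod p)) A] [IsLocalization.Away (Polynomial.X : Polynomial (ZMod p)) A]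

omit [IsLocalization.Away (Polynomial.X : Polynomial (ZMod p)) A] in
theorem natCast_eq_zero_of_loc : (p : A) = 0 := by
  rw [← map_natCast (algebraMap (Polynomial (ZMod p)) A),
    ← map_natCast (Polynomial.C (R := ZMod p)), CharP.cast_eq_zero, map_zero, map_zero]

/-- ring homs out of `A = 𝔽_p[v, v⁻¹]` -/
theorem exists_hom_of_unit {L : Type*} [CommRing L] (hL : (p : L) = 0) {u : L} (hu : IsUnit u) :
    ∃ ψ : A →+* L, ψ (algebraMap (Polynomial (ZMod p)) A Polynomial.X) = u := by
  have hZ : ∃ χ : ZMod p →+* L, True := by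
    rcases subsingleton_or_nontrivial L with h1 | h1
    · exact ⟨{ toFun := fun _ => 0
               map_one' := Subsingleton.elim _ _
               map_mul' := fun _ _ => Subsingleton.elim _ _
               map_zero' := Subsingleton.elim _ _
               map_add' := fun _ _ => Subsingleton.elim _ _ }, trivial⟩
    · have : CharP L p := (CharP.charP_iff_prime_eq_zero hp.out).2 hL
      exact ⟨ZMod.castHom dvd_rfl L, trivial⟩
  obtain ⟨χ, -⟩ := hZ
  have h2 : IsUnit (Polynomial.eval₂RingHom χ u Polynomial.X) := by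
    rw [Polynomial.coe_eval₂RingHom, Polynomial.eval₂_X]
    exact hu
  refine ⟨IsLocalization.Away.lift (S := A) Polynomial.X (g := Polynomial.eval₂RingHom χ u) h2, ?_⟩
  rw [IsLocalization.Away.lift_eq, Polynomial.coe_eval₂RingHom, Polynomial.eval₂_X]

/-- two ring homs out of `A = 𝔽_p[v, v⁻¹]` agree if they agree on `v`. -/
theorem hom_ext_of_loc {L : Type*} [CommRing L] {ψ₁ ψ₂ : A →+* L}
    (h : ψ₁ (algebraMap (Polynomial (ZMod p)) A Polynomial.X) =
      ψ₂ (algebraMap (Polynomial (ZMod p)) A Polynomial.X)) : ψ₁ = ψ₂ := by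
  refine IsLocalization.ringHom_ext (Submonoid.powers (Polynomial.X : Polynomial (ZMod p))) ?_
  refine Polynomial.ringHom_ext' (Subsingleton.elim _ _) ?_
  exact h

variable {p h}

/-- **Freeness of `A[b]` over `v_h⁻¹ Laz/I_h`.** -/
theorem kfree (hh : h ≠ 0) (F : Law A) (hF : ∀ i < h, vv p i F = 0)
    (hv : vv p h F = algebraMap (Polynomial (ZMod p)) A Polynomial.X)
    {L : Type*} [CommRing L] [Algebra (Laz ⧸ Laz.I p h) L]
    [IsLocalization.Away (Ideal.Quotient.mk (Laz.I p h) (Laz.v p h)) L]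
    (φ : L →+* MvPolynomial ℕ A)
    (hφ : (φ.comp (algebraMap (Laz ⧸ Laz.I p h) L)).comp (Ideal.Quotient.mk (Laz.I p h)) =
      Laz.lift (bL F)) :
    Function.Bijective fun x : Small (kdeg p h) →₀ L =>
      x.sum fun e l => φ l * MvPolynomial.monomial (e : ℕ →₀ ℕ) 1 := by
  classical
  set v : A := algebraMap (Polynomial (ZMod p)) A Polynomial.X with hvd
  have hvu : IsUnit v := IsLocalization.Away.algebraMap_isUnit _
  have hA : (p : A) = 0 := natCast_eq_zero_of_loc p
  -- the law over `L`
  set q : Laz →+* L := (algebraMap (Laz ⧸ Laz.I p h) L).comp (Ideal.Quotient.mk (Laz.I p h))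
    with hq
  set U : Law L := Laz.univ.map q with hU
  have hUv : ∀ i < h, vv p i U = 0 := fun i hi => by
    rw [hU, vv_map, hq, RingHom.comp_apply]
    have : Ideal.Quotient.mk (Laz.I p h) (vv p i Laz.univ) = 0 :=
      Ideal.Quotient.eq_zero_iff_mem.2 (vv_mem_Ih hi _)
    rw [this, map_zero]
  have hL : (p : L) = 0 := by
    rw [← vv_zero p U]
    exact hUv 0 (Nat.pos_of_ne_zero hh)
  have hUh : IsUnit (vv p h U) := by
    rw [hU, vv_map]
    exact IsLocalization.Away.algebraMap_isUnit (Ideal.Quotient.mk (Laz.I p h) (Laz.v p h))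
  obtain ⟨ψ, hψ⟩ := exists_hom_of_unit (A := A) p hL hUh
  -- `Θ : A[X] → L`
  set Θ : MvPolynomial ℕ A →+* L := MvPolynomial.eval₂Hom ψ (kgen p h U) with hΘ
  -- its left inverse
  set G := modelLaw p h v hA with hG
  have hker : ∀ a ∈ Laz.I p h, Laz.lift G a = 0 := by
    have h1 : Laz.I p h ≤ RingHom.ker (Laz.lift G) := by
      rw [Laz.I, Ih, Ideal.span_le]
      rintro _ ⟨i, hi, rfl⟩
      change Laz.lift G (Laz.v p i) = 0
      rw [Laz.lift_v]
      exact vv_modelLaw_lt p h v hA hi
    exact fun a ha => h1 ha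
  have hunit : IsUnit (Ideal.Quotient.lift (Laz.I p h) (Laz.lift G) hker
      (Ideal.Quotient.mk (Laz.I p h) (Laz.v p h))) := by
    rw [Ideal.Quotient.lift_mk, Laz.lift_v, hG, vv_modelLaw_self p h v hA hh]
    exact hvu.map _
  set Ξ : L →+* MvPolynomial ℕ A := IsLocalization.Away.lift
    (Ideal.Quotient.mk (Laz.I p h) (Laz.v p h)) hunit with hΞ
  have hΞq : Ξ.comp q = Laz.lift G := by
    rw [hq, ← RingHom.comp_assoc, hΞ, IsLocalization.Away.lift_comp]
    rfl
  have hΞU : U.map Ξ = G := by
    rw [hU, Law.map_map, hΞq, Laz.univ_map_lift]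
  have hΞΘ : Ξ.comp Θ = RingHom.id _ := by
    apply MvPolynomial.ringHom_ext
    · intro a
      have h1 : (Ξ.comp ψ) = (MvPolynomial.C : A →+* MvPolynomial ℕ A) := by
        apply hom_ext_of_loc p
        rw [RingHom.comp_apply, hψ, ← vv_map, hΞU]
        exact vv_modelLaw_self p h v hA hh
      rw [RingHom.comp_apply, hΘ, MvPolynomial.eval₂Hom_C, ← RingHom.comp_apply, h1]
      rfl
    · intro j
      rw [RingHom.comp_apply, hΘ, MvPolynomial.eval₂Hom_X', map_kgen, hΞU, hG, kgen_modelLaw]
      rfl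
  have hΘinj : Function.Injective Θ := by
    intro x y hxy
    have := congrArg Ξ hxy
    rwa [← RingHom.comp_apply, ← RingHom.comp_apply, hΞΘ] at this
  -- `Θ` is surjective
  have hΘsurj : Function.Surjective Θ := by
    have hψr : ∀ a, ψ a ∈ Θ.range := fun a => ⟨MvPolynomial.C a, by
      rw [hΘ, MvPolynomial.eval₂Hom_C]⟩
    have hkr : ∀ j, kgen p h U j ∈ Θ.range := fun j => ⟨MvPolynomial.X j, by
      rw [hΘ, MvPolynomial.eval₂Hom_X']⟩
    have hvr : ∀ i, vv p i U ∈ Θ.range := by
      intro i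
      rcases lt_trichotomy i h with hi | rfl | hi
      · rw [hUv i hi]
        exact Subring.zero_mem _
      · rw [← hψ]
        exact hψr _
      · have h1 := hkr (p ^ (i - h) - 2)
        rwa [kgen_of_pow hp.out h _ (by omega), Nat.add_sub_cancel' hi.le] at h1
    have hyr : ∀ n, yF p U n ∈ Θ.range := by
      intro n
      by_cases hn : ∃ i, n + 2 = p ^ i
      · obtain ⟨i, hi⟩ := hn
        rw [yF_eq_vv U hi]
        exact hvr i
      · rw [yF_eq_xC U hn, ← kgen_of_not h U hn]
        exact hkr n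
    have hqr : ∀ a, q a ∈ Θ.range := by
      intro a
      rcases subsingleton_or_nontrivial L with h1 | h1
      · rw [Subsingleton.elim (q a) 0]
        exact Subring.zero_mem _
      have hc : CharP L p := (CharP.charP_iff_prime_eq_zero hp.out).2 hL
      have h2 : q a = MvPolynomial.eval₂Hom (ZMod.castHom dvd_rfl L) (yF p U) (toY p a) := by
        rw [← RingHom.comp_apply, ← lift_eq_comp_toY p U, hU, Laz.lift_map_univ]
      rw [h2]
      generalize toY p a = P
      induction P using MvPolynomial.induction_on with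
      | C r =>
        rw [MvPolynomial.eval₂Hom_C, ← ZMod.natCast_zmod_val r, map_natCast]
        exact natCast_mem _ _
      | add P Q hP hQ => rw [map_add]; exact Subring.add_mem _ hP hQ
      | mul_X P n hP =>
        rw [map_mul, MvPolynomial.eval₂Hom_X']
        exact Subring.mul_mem _ hP (hyr n)
    intro l
    obtain ⟨n, a, hna⟩ := IsLocalization.Away.surj (S := L)
      (Ideal.Quotient.mk (Laz.I p h) (Laz.v p h)) l
    obtain ⟨a, rfl⟩ := Ideal.Quotient.mk_surjective a
    obtain ⟨w, hw⟩ := hvu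
    have h1 : q (Laz.v p h) = ψ v := by
      rw [hψ, hU, vv_map]
      rfl
    have h2 : l * ψ v ^ n = q a := by
      rw [← h1]
      exact hna
    have h3 : l = q a * ψ (((w⁻¹ : Aˣ) : A) ^ n) := by
      rw [← h2, mul_assoc, ← map_pow, ← map_mul, ← hw, ← mul_pow, Units.mul_inv, one_pow, map_one,
        mul_one]
    have h4 : l ∈ Θ.range := by
      rw [h3]
      exact Subring.mul_mem _ (hqr a) (hψr _)
    exact h4
  set Θe : MvPolynomial ℕ A ≃+* L := RingEquiv.ofBijective Θ ⟨hΘinj, hΘsurj⟩ with hΘe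
  -- the generators of `bL F`
  have hφU : U.map φ = bL F := by
    rw [hU, Law.map_map]
    have h1 : φ.comp q = Laz.lift (bL F) := hφ
    rw [h1, Laz.univ_map_lift]
  choose r hr hkr using fun j => kgen_bL hA hh hF j
  have hφΘ : ∀ x, φ (Θ x) = MvPolynomial.aeval (kgen p h (bL F)) x := by
    have h1 : φ.comp Θ = ((MvPolynomial.aeval (kgen p h (bL F)) :
        MvPolynomial ℕ A →ₐ[A] MvPolynomial ℕ A) : MvPolynomial ℕ A →+* MvPolynomial ℕ A) := by
      apply MvPolynomial.ringHom_ext
      · intro a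
        have h2 : (φ.comp ψ) = (MvPolynomial.C : A →+* MvPolynomial ℕ A) := by
          apply hom_ext_of_loc p
          rw [RingHom.comp_apply, hψ, ← vv_map, hφU, vv_bL_self hF, hv]
        rw [RingHom.comp_apply, hΘ, MvPolynomial.eval₂Hom_C, ← RingHom.comp_apply, h2,
          RingHom.coe_coe, ← MvPolynomial.algebraMap_eq, AlgHom.commutes]
      · intro j
        rw [RingHom.comp_apply, hΘ, MvPolynomial.eval₂Hom_X', map_kgen, hφU, RingHom.coe_coe,
          MvPolynomial.aeval_X]
    exact fun x => congrFun (congrArg DFunLike.coe h1) x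
  have hfree := freeMap_bijective_nat (kdeg p h) (kdeg_pos hp.out.ne_zero h)
    (klead p (vv p h F)) (isUnit_klead hA (hv ▸ hvu)) r hr
  have hy : (fun j => MvPolynomial.C (klead p (vv p h F) j) * MvPolynomial.X j ^ kdeg p h j +
      r j) = kgen p h (bL F) := funext fun j => (hkr j).symm
  rw [hy] at hfree
  have hcomp : (fun x : Small (kdeg p h) →₀ L =>
      x.sum fun e l => φ l * MvPolynomial.monomial (e : ℕ →₀ ℕ) 1) =
      (freeMap (kdeg p h) (kgen p h (bL F))) ∘
        (Finsupp.mapRange.addEquiv Θe.symm.toAddEquiv) := by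
    funext x
    rw [Function.comp_apply, freeMap_apply, Finsupp.mapRange.addEquiv_apply,
      Finsupp.sum_mapRange_index (by
        intro e
        rw [map_zero, zero_mul])]
    refine Finsupp.sum_congr fun e _ => ?_
    rw [← hφΘ]
    congr 2
    exact (Θe.apply_symm_apply (x e)).symm
  rw [hcomp]
  exact hfree.comp (Finsupp.mapRange.addEquiv Θe.symm.toAddEquiv).bijective

end Loc

end Vale.Agent.P251.Z
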