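import Vale.Agent.P251.Z.PFree
import Vale.Agent.P251.Z.KComparison

/-!
# P251, part Z2: from the unit to all spheres, `P = R ⊗ PS`

For an even sphere `A` the class `y : A ⟶ PS ⟶ P` is invertible, so that `π_A` of `P` and of
`K ⊗ P` are `Hom(𝟙, P)` and `Hom(𝟙, K ⊗ P)`; for an odd sphere both are zero.
-/

open CategoryTheory MonoidalCategory Limits Pretriangulated MonObj

set_option linter.unusedSectionVars false

universe v u

namespace Vale.Agent.P251.Z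

open Vale.Agent.P251.T Vale.Agent.P251.S Vale.Agent.P251.M Vale.Agent.P251.M.EvenSpheres

section Lin

variable {T : Type u} [Category.{v} T] [MonoidalCategory T] [SymmetricCategory T]
  {P : T} [MonObj P]

lemma Lin.ext {Y : T} [IsCommMonObj P] {f g : P ⟶ Y ⊗ P} (hf : Lin f) (hg : Lin g)
    (h : η[P] ≫ f = η[P] ≫ g) : f = g := by
  rw [hf.eq_mulEl, hg.eq_mulEl, h]

/-- multiplication by a scalar is linear -/
lemma mul_smul_self [IsCommMonObj P] (x : 𝟙_ T ⟶ P) :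
    μ[P] ≫ (ModStr.self P).smul x = P ◁ (ModStr.self P).smul x ≫ μ[P] := by
  have h : perm P P P ≫ P ◁ μ[P] ≫ μ[P] = P ◁ μ[P] ≫ μ[P] := by
    unfold perm
    simp only [Category.assoc]
    rw [← MonObj.mul_assoc, ← comp_whiskerRight_assoc, IsCommMonObj.mul_comm, MonObj.mul_assoc,
      Iso.inv_hom_id_assoc]
  have h1 := insert_perm P P P x
  unfold ModStr.smul ModStr.self
  simp only [MonoidalCategory.whiskerLeft_comp, Category.assoc] at h1 ⊢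
  rw [leftUnitor_inv_naturality_assoc, whisker_exchange_assoc, ← h, reassoc_of% h1]
  rw [h]

lemma Lin.smul_left [IsCommMonObj P] {Y : T} {f : P ⟶ Y ⊗ P} (hf : Lin f) (x : 𝟙_ T ⟶ P) :
    Lin ((ModStr.self P).smul x ≫ f) := by
  unfold Lin at *
  rw [reassoc_of% mul_smul_self, hf, MonoidalCategory.whiskerLeft_comp, Category.assoc]

lemma one_smul_self (x : 𝟙_ T ⟶ P) : η[P] ≫ (ModStr.self P).smul x = x := by
  unfold ModStr.smul ModStr.self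
  rw [leftUnitor_inv_naturality_assoc, whisker_exchange_assoc, MonObj.mul_one]
  simp [unitors_inv_equal]

end Lin

section Twist

variable {T : Type u} [Category.{v} T] [MonoidalCategory T] [SymmetricCategory T]

/-- Tensoring with an invertible object. -/
lemma bij_twist (A : T) [IsInv A] {X X' : T} (e : X ⊗ A ⟶ X') [IsIso e] :
    Function.Bijective (fun γ : 𝟙_ T ⟶ X => (λ_ A).inv ≫ γ ▷ A ≫ e) := by
  constructor
  · intro x y hxy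
    dsimp only at hxy
    rw [cancel_epi, cancel_mono] at hxy
    exact whiskerRight_inj A hxy
  · intro g
    obtain ⟨x, hx⟩ := whiskerRight_surj A ((λ_ A).hom ≫ g ≫ inv e)
    refine ⟨x, ?_⟩
    dsimp only
    rw [hx]
    simp

variable [MonoidalClosed T] [HasCoproducts.{0} T] (E : EvenSpheres T) (R : T) [MonObj R]

/-- The class `S^{2m} ⟶ R ⊗ PS`. -/
noncomputable def ySph (m : ℤ) : E.S m ⟶ R ⊗ E.PS := E.inPS m ≫ inrM R E.PS

instance isIso_ySph_mul (m : ℤ) : IsIso ((R ⊗ E.PS) ◁ ySph E R m ≫ μ[R ⊗ E.PS]) := by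
  have h1 : (R ⊗ E.PS) ◁ ySph E R m ≫ μ[R ⊗ E.PS] =
      (α_ R E.PS (E.S m)).hom ≫ R ◁ ((β_ E.PS (E.S m)).hom ≫ E.tw m) := by
    unfold ySph tw
    rw [MonoidalCategory.whiskerLeft_comp, Category.assoc, mul_inrM,
      associator_naturality_right_assoc, ← MonoidalCategory.whiskerLeft_comp,
      ← BraidedCategory.braiding_naturality_right_assoc, IsCommMonObj.mul_comm]
  rw [h1]
  infer_instance

lemma ySph_mulEl (m : ℤ) {Y : T} (γ : 𝟙_ T ⟶ Y ⊗ (R ⊗ E.PS)) :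
    ySph E R m ≫ mulEl γ = (λ_ (E.S m)).inv ≫ γ ▷ E.S m ≫
      ((α_ Y (R ⊗ E.PS) (E.S m)).hom ≫ Y ◁ ((R ⊗ E.PS) ◁ ySph E R m ≫ μ[R ⊗ E.PS])) := by
  unfold mulEl
  rw [leftUnitor_inv_naturality_assoc, whisker_exchange_assoc,
    associator_naturality_right_assoc, MonoidalCategory.whiskerLeft_comp]

lemma ySph_smul (m : ℤ) (x : 𝟙_ T ⟶ R ⊗ E.PS) :
    ySph E R m ≫ (ModStr.self (R ⊗ E.PS)).smul x = (λ_ (E.S m)).inv ≫ x ▷ E.S m ≫
      ((R ⊗ E.PS) ◁ ySph E R m ≫ μ[R ⊗ E.PS]) := by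
  have h1 : (ModStr.self (R ⊗ E.PS)).smul x = (λ_ (R ⊗ E.PS)).inv ≫
        (x ▷ (R ⊗ E.PS)) ≫ μ[R ⊗ E.PS] := rfl
  rw [h1, leftUnitor_inv_naturality_assoc, whisker_exchange_assoc]

/-- **Even spheres**: `π_A` of `P` and of `Y ⊗ P`. -/
theorem exists_twist (m : ℤ) {A : T} (e : A ≅ E.S m) : ∃ y : A ⟶ R ⊗ E.PS,
    (∀ Y : T, Function.Bijective (fun γ : 𝟙_ T ⟶ Y ⊗ (R ⊗ E.PS) => y ≫ mulEl γ)) ∧
      Function.Bijective (fun x : 𝟙_ T ⟶ R ⊗ E.PS => y ≫ (ModStr.self (R ⊗ E.PS)).smul x) := by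
  have he : ∀ X : T, Function.Bijective (fun g : E.S m ⟶ X => e.hom ≫ g) := fun X =>
    ⟨fun a b h => (cancel_epi e.hom).1 h, fun g => ⟨e.inv ≫ g, by simp⟩⟩
  refine ⟨e.hom ≫ ySph E R m, fun Y => ?_, ?_⟩
  · have h1 := bij_twist (E.S m) ((α_ Y (R ⊗ E.PS) (E.S m)).hom ≫
      Y ◁ ((R ⊗ E.PS) ◁ ySph E R m ≫ μ[R ⊗ E.PS]))
    have h2 := (he _).comp h1
    refine (congrArg Function.Bijective ?_).mp h2
    funext γ
    simp only [Function.comp_apply, Category.assoc]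
    rw [ySph_mulEl]
  · have h1 := bij_twist (E.S m) ((R ⊗ E.PS) ◁ ySph E R m ≫ μ[R ⊗ E.PS])
    have h2 := (he _).comp h1
    refine (congrArg Function.Bijective ?_).mp h2
    funext x
    simp only [Function.comp_apply, Category.assoc]
    rw [ySph_smul]

end Twist

/-- transport of regularity along an isomorphism -/
theorem GoodReg.equiv {E₁ E₂ : Type*} [AddCommGroup E₁] [AddCommGroup E₂] {i h : ℕ}
    {v : ℕ → E₁ →+ E₁} (H : GoodReg i h v) {v₂ : ℕ → E₂ →+ E₂} (π : E₁ →+ E₂)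
    (hπ : Function.Bijective π) (hπv : ∀ k x, π (v k x) = v₂ k (π x)) : GoodReg i h v₂ := by
  refine ⟨?_, ?_, ?_⟩
  · intro j k x
    obtain ⟨x, rfl⟩ := hπ.2 x
    rw [← hπv, ← hπv, ← hπv, ← hπv, H.comm]
  · intro j hj x
    obtain ⟨x, rfl⟩ := hπ.2 x
    rw [← hπv, H.zero j hj, map_zero]
  · intro k hk hk' x hx
    obtain ⟨x, rfl⟩ := hπ.2 x
    rw [← hπv] at hx
    obtain ⟨y, hy⟩ := hx
    choose z hz using fun j => hπ.2 (y j)
    have h1 : v k x = ∑ j ∈ Finset.range k, v j (z j) := by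
      apply hπ.1
      rw [hy, map_sum]
      exact Finset.sum_congr rfl fun j _ => by rw [hπv, hz]
    exact map_mem_VI π hπv (H.reg k hk hk' x ⟨z, h1⟩)

section Odd

variable {T : Type u} [Category.{v} T] [Preadditive T] [HasZeroObject T]
    [HasShift T ℤ] [∀ n : ℤ, (shiftFunctor T n).Additive] [Pretriangulated T] [IsTriangulated T]
    [MonoidalCategory T] [SymmetricCategory T] [TensorTriangulated T] [MonoidalClosed T]
    [HasCoproducts.{0} T] [HasProducts.{0} T] [StableCat T] {E : EvenSpheres T}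

/-- the odd homotopy of `X ⊗ PS` -/
theorem odd_PS (i : E.L ≅ (𝟙_ T)⟦(1 : ℤ)⟧ ⊗ (𝟙_ T)⟦(1 : ℤ)⟧) {X : T}
    (hodd : ∀ (l : ℤ) (f : (𝟙_ T)⟦2 * l + 1⟧ ⟶ X), f = 0) (l : ℤ)
    (f : (𝟙_ T)⟦2 * l + 1⟧ ⟶ X ⊗ E.PS) : f = 0 := by
  obtain ⟨t, g, hg⟩ := compact_sumL X (fun n : ℤ => E.S n) (isSphere_one_shift _) f
  rw [hg]
  refine Finset.sum_eq_zero fun j _ => ?_
  have h1 : g j ≫ ((E.shiftNat i j).app X).hom = 0 := GBasis.odd_aux hodd _ _ _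
  have h2 : g j = 0 := by
    rw [← cancel_mono ((E.shiftNat i j).app X).hom, h1, zero_comp]
  rw [h2]
  exact zero_comp

/-- the odd homotopy of `K ⊗ (R ⊗ PS)` -/
theorem odd_tensor (i : E.L ≅ (𝟙_ T)⟦(1 : ℤ)⟧ ⊗ (𝟙_ T)⟦(1 : ℤ)⟧) {K R : T} [MonObj K]
    [MonObj R] {J : Type} (b : GBasis E (inlM K R) J)
    (hodd : ∀ (l : ℤ) (f : (𝟙_ T)⟦2 * l + 1⟧ ⟶ K), f = 0) (l : ℤ)
    (f : (𝟙_ T)⟦2 * l + 1⟧ ⟶ K ⊗ (R ⊗ E.PS)) : f = 0 := by
  have h1 : f ≫ (α_ K R E.PS).inv = 0 := b.odd i E.PS (odd_PS i hodd) l _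
  rw [← cancel_mono (α_ K R E.PS).inv, h1, zero_comp]

/-- every sphere is even or odd -/
lemma sphere_cases (i : E.L ≅ (𝟙_ T)⟦(1 : ℤ)⟧ ⊗ (𝟙_ T)⟦(1 : ℤ)⟧) {A : T} (hA : IsSphere A) :
    (∃ m : ℤ, Nonempty (A ≅ E.S m)) ∨ (∃ l : ℤ, Nonempty (A ≅ (𝟙_ T)⟦2 * l + 1⟧)) := by
  obtain ⟨n, ⟨e⟩⟩ := hA
  rcases Int.even_or_odd' n with ⟨m, hm | hm⟩
  · subst hm
    exact Or.inl ⟨m, ⟨e ≪≫ (E.sphIso i m).symm⟩⟩
  · subst hm
    exact Or.inr ⟨m, ⟨e⟩⟩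

lemma odd_of_iso {A X : T} {l : ℤ} (e : A ≅ (𝟙_ T)⟦2 * l + 1⟧)
    (hodd : ∀ (l : ℤ) (f : (𝟙_ T)⟦2 * l + 1⟧ ⟶ X), f = 0) (f : A ⟶ X) : f = 0 := by
  rw [← cancel_epi e.inv, hodd _ (e.inv ≫ f), comp_zero]

variable {R : T} [MonObj R] [IsCommMonObj R] {K : T} {h : ℕ} {v : ℕ → (𝟙_ T ⟶ R ⊗ E.PS)}

/-- The comparison `Hom(𝟙, P) ⟶ Hom(A, P)`. -/
noncomputable def twP {P A : T} [MonObj P] (y : A ⟶ P) : (𝟙_ T ⟶ P) →+ (A ⟶ P) where
  toFun x := y ≫ (ModStr.self P).smul x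
  map_zero' := by rw [ModStr.smul_zero, comp_zero]
  map_add' a b := by rw [ModStr.smul_add, Preadditive.comp_add]

lemma mulEl_add {P Y : T} [MonObj P] (a b : 𝟙_ T ⟶ Y ⊗ P) : mulEl (a + b) = mulEl a + mulEl b := by
  unfold mulEl
  simp only [MonoidalPreadditive.add_whiskerRight, Preadditive.comp_add, Preadditive.add_comp]

lemma mulEl_zero {P Y : T} [MonObj P] : mulEl (0 : 𝟙_ T ⟶ Y ⊗ P) = 0 := by
  unfold mulEl
  simp only [MonoidalPreadditive.zero_whiskerRight, comp_zero, zero_comp]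

/-- The comparison `Hom(𝟙, Y ⊗ P) ⟶ Hom(A, Y ⊗ P)`. -/
noncomputable def twY {P A : T} [MonObj P] (Y : T) (y : A ⟶ P) :
    (𝟙_ T ⟶ Y ⊗ P) →+ (A ⟶ Y ⊗ P) where
  toFun γ := y ≫ mulEl γ
  map_zero' := by rw [mulEl_zero, comp_zero]
  map_add' a b := by rw [mulEl_add, Preadditive.comp_add]

lemma twP_vP {P A : T} [MonObj P] (y : A ⟶ P) (v : ℕ → (𝟙_ T ⟶ P)) (k : ℕ) (x : 𝟙_ T ⟶ P) :
    twP y (pc (𝟙_ T) (vP v k) x) = pc A (vP v k) (twP y x) := by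
  change y ≫ (ModStr.self P).smul (x ≫ (ModStr.self P).smul (v k)) =
    (y ≫ (ModStr.self P).smul x) ≫ (ModStr.self P).smul (v k)
  rw [← scMul_eq_smul, ModStr.smul_mul, Category.assoc]

lemma twY_lin {P A Y : T} [MonObj P] [IsCommMonObj P] (y : A ⟶ P) {f : P ⟶ Y ⊗ P}
    (hf : Lin f) (x : 𝟙_ T ⟶ P) :
    pc A f (twP y x) = twY Y y (pc (𝟙_ T) f x) := by
  change (y ≫ (ModStr.self P).smul x) ≫ f = y ≫ mulEl (x ≫ f)
  have h1 : (ModStr.self P).smul x ≫ f = mulEl (x ≫ f) :=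
    (hf.smul_left x).ext (lin_mulEl _) (by
      rw [← Category.assoc, one_smul_self, one_mulEl])
  rw [Category.assoc, h1]

lemma Lin.comp_whiskerLeft {P Y : T} [MonObj P] [IsCommMonObj P] {f : P ⟶ Y ⊗ P}
    (hf : Lin f) (v : 𝟙_ T ⟶ P) : Lin (f ≫ Y ◁ (ModStr.self P).smul v) := by
  unfold Lin at *
  rw [reassoc_of% hf, MonoidalCategory.whiskerLeft_comp, Category.assoc,
    ← MonoidalCategory.whiskerLeft_comp, mul_smul_self, MonoidalCategory.whiskerLeft_comp,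
    reassoc_of% (perm_natural₃ P Y ((ModStr.self P).smul v))]

lemma twY_v {P A : T} [MonObj P] [IsCommMonObj P] (Y : T) (y : A ⟶ P) (v : 𝟙_ T ⟶ P)
    (γ : 𝟙_ T ⟶ Y ⊗ P) :
    twY Y y (pc (𝟙_ T) (Y ◁ (ModStr.self P).smul v) γ) =
      pc A (Y ◁ (ModStr.self P).smul v) (twY Y y γ) := by
  change y ≫ mulEl (γ ≫ Y ◁ (ModStr.self P).smul v) =
    (y ≫ mulEl γ) ≫ Y ◁ (ModStr.self P).smul v
  have h1 : mulEl γ ≫ Y ◁ (ModStr.self P).smul v = mulEl (γ ≫ Y ◁ (ModStr.self P).smul v) :=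
    ((lin_mulEl γ).comp_whiskerLeft v).ext (lin_mulEl _) (by
      rw [← Category.assoc, one_mulEl, one_mulEl])
  rw [Category.assoc, h1]

/-- **Regularity at all spheres** from regularity at the unit. -/
theorem goodReg_of_unit (i : E.L ≅ (𝟙_ T)⟦(1 : ℤ)⟧ ⊗ (𝟙_ T)⟦(1 : ℤ)⟧)
    (hodd : ∀ (l : ℤ) (f : (𝟙_ T)⟦2 * l + 1⟧ ⟶ R), f = 0)
    (H : GoodReg 0 h (fun k => pc (𝟙_ T) (vP v k))) (A : T) (hA : IsSphere A) :
    GoodReg 0 h (fun k => pc A (vP v k)) := by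
  rcases sphere_cases i hA with ⟨m, ⟨e⟩⟩ | ⟨l, ⟨e⟩⟩
  · obtain ⟨y, -, hy⟩ := exists_twist E R m e
    exact H.equiv (twP y) hy (fun k x => twP_vP y v k x)
  · have h0 : ∀ x : A ⟶ R ⊗ E.PS, x = 0 := odd_of_iso e (odd_PS i hodd)
    refine ⟨fun j k x => ?_, fun j hj => absurd hj (Nat.not_lt_zero j), fun k _ _ x _ => ?_⟩
    · rw [h0 (pc A (vP v j) _), h0 (pc A (vP v k) _)]
    · rw [h0 x]
      exact zero_mem _

/-- **The good map at all spheres** from the good map at the unit. -/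
theorem goodMap_of_unit (i : E.L ≅ (𝟙_ T)⟦(1 : ℤ)⟧ ⊗ (𝟙_ T)⟦(1 : ℤ)⟧) [MonObj K]
    (hodd : ∀ (l : ℤ) (f : (𝟙_ T)⟦2 * l + 1⟧ ⟶ R), f = 0)
    (hoddK : ∀ (l : ℤ) (f : (𝟙_ T)⟦2 * l + 1⟧ ⟶ K), f = 0)
    {J : Type} (b : GBasis E (inlM K R) J)
    {I : Type} {φ : I → (R ⊗ E.PS ⟶ K ⊗ (R ⊗ E.PS))} (hφ : ∀ e, Lin (φ e))
    (H : GoodMap h (fun k => pc (𝟙_ T) (vP v k)) (pc (𝟙_ T) (K ◁ vP v h))
      (fun e => pc (𝟙_ T) (φ e))) (A : T) (hA : IsSphere A) :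
    GoodMap h (fun k => pc A (vP v k)) (pc A (K ◁ vP v h)) (fun e => pc A (φ e)) := by
  rcases sphere_cases i hA with ⟨m, ⟨e⟩⟩ | ⟨l, ⟨e⟩⟩
  · obtain ⟨y, hy', hy⟩ := exists_twist E R m e
    exact H.quot (twP y) hy.2 (fun k x => twP_vP y v k x) (twY K y) (hy' K)
      (fun γ => twY_v K y (v h) γ) (fun e x => twY_lin y (hφ e) x)
  · have h0 : ∀ x : A ⟶ R ⊗ E.PS, x = 0 := odd_of_iso e (odd_PS i hodd)
    have h1 : ∀ x : A ⟶ K ⊗ (R ⊗ E.PS), x = 0 := odd_of_iso e (odd_tensor i b hoddK)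
    refine ⟨fun e x => ?_, fun y => ⟨0, 0, ?_⟩, fun x _ e => ⟨0, ?_⟩⟩
    · rw [h1 (pc A (φ e) _), h1 (pc A (K ◁ vP v h) _)]
    · rw [h1 y]
      simp
    · rw [h0 (x e)]
      exact zero_mem _

end Odd

end Vale.Agent.P251.Z
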