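import Vale.Agent.P251.S.RegMU
import Vale.Agent.P251.S.ModP
import Vale.Agent.P251.Z.KComparison

/-!
# P251, part Z: `π_* MU` modulo `p`, and the regularity of `v_0, v_1, …` on `P = MU ⊗ PS`

For `D : MUData T` and an odd prime `p` :

* `L0 D : Laz →+* π_{2*} R`, the classifying homomorphism of the law; it is an isomorphism modulo
  `p` (`exists_L0_add`, `exists_of_L0_eq`), `π_{2*} R` has no `p`-torsion (`hring_torsionFree`), and
  `v_0, v_1, …` is a regular sequence in it (`hring_mem_Ih_of_mul`);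
* `pi_odd_bijective` : `p` is bijective on the odd homotopy of `P`;
* `goodReg_P` : `v_0, v_1, …` is regular on `Hom(A, P)`, for every sphere `A`.
-/

open CategoryTheory MonoidalCategory Limits MonObj Pretriangulated

set_option linter.unusedSectionVars false

universe v u

namespace Vale.Agent.P251.Z

open Vale.Agent.P251.T Vale.Agent.P251.M Vale.Agent.P251.M.EvenSpheres Vale.Agent.P251.S
  Vale.Agent.P251.F

section laz

variable {T : Type u} [Category.{v} T] [Preadditive T] [HasZeroObject T]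
    [HasShift T ℤ] [∀ n : ℤ, (shiftFunctor T n).Additive] [Pretriangulated T] [IsTriangulated T]
    [MonoidalCategory T] [SymmetricCategory T] [TensorTriangulated T] [MonoidalClosed T]
    [HasCoproducts.{0} T] [HasProducts.{0} T] [StableCat T] (D : I.MUData T)

/-- `L ⟶ π_{2*} R`, the classifying homomorphism of the formal group law. -/
noncomputable def L0 : Laz →+* HRing (stdEven T) D.R := Laz.lift D.law

theorem L0_v (p k : ℕ) : L0 D (Laz.v p k) = vv p k D.law := by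
  unfold L0
  rw [Laz.v, ← vv_map, Laz.univ_map_lift]

theorem L0_eq (x : Laz) :
    L0 D x = HRing.map (I.amOne D.R) (D.ev 0 (MvPolynomial.C x)) := by
  have h : D.law = Laz.univ.map ((HRing.map (I.amOne D.R)).comp
      ((D.ev 0).comp MvPolynomial.C)) := by
    unfold I.MUData.law I.MUData.law1
    rw [Law.map_map]
  unfold L0
  rw [h, Laz.lift_map_univ]
  rfl

theorem amOne_v0 (R : T) [MonObj R] : I.amOne R ≫ Am.v R (0 : Fin 1) = 𝟙 _ := by
  rw [GD.v_zero_one]
  exact (λ_ R).hom_inv_id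

theorem map_L0 (x : Laz) :
    HRing.map (Am.v D.R (0 : Fin 1)) (L0 D x) = D.ev 0 (MvPolynomial.C x) := by
  rw [L0_eq]
  have h1 : (HRing.map (E := stdEven T) (Am.v D.R (0 : Fin 1))).comp
      (HRing.map (I.amOne D.R)) = RingHom.id _ := by
    rw [← HRing.map_comp, HRing_map_congr (amOne_v0 D.R), HRing.map_id]
  exact DFunLike.congr_fun h1 _

theorem C_surj (z : Cob Laz 0) : ∃ x : Laz, MvPolynomial.C x = z :=
  MvPolynomial.C_surjective (Fin 0 × ℕ) z

variable {C : T} {i : 𝟙_ T ⟶ C} {p : ℕ} [Fact p.Prime] (hp : p ≠ 2) {δ : C ⟶ (𝟙_ T)⟦(1 : ℤ)⟧}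
  (hC : Triangle.mk ((p : ℤ) • 𝟙 (𝟙_ T)) i δ ∈ distTriang T)

include hp hC

/-- (C1) `L ⟶ π_{2*} R` is onto modulo `p`. -/
theorem exists_L0_add (x : HRing (stdEven T) D.R) :
    ∃ (z : Laz) (y : HRing (stdEven T) D.R), x = L0 D z + (p : HRing (stdEven T) D.R) * y := by
  induction x using DirectSum.induction_on with
  | zero => exact ⟨0, 0, by simp⟩
  | add x x' hx hx' =>
    obtain ⟨z, y, rfl⟩ := hx
    obtain ⟨z', y', rfl⟩ := hx'
    exact ⟨z + z', y + y', by rw [map_add]; ring⟩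
  | of w a =>
    obtain ⟨z, b, -, hz, hf⟩ := D.surj p hp 0 C i δ hC w
      ((a ≫ (λ_ D.R).inv) ≫ (redC i).app (Am D.R 1))
    obtain ⟨x, rfl⟩ := C_surj z
    obtain ⟨c, hc⟩ := exists_zsmul_of_red hC (a ≫ (λ_ D.R).inv - b) (by
      rw [Preadditive.sub_comp, sub_eq_zero]
      exact hf)
    refine ⟨x, HRing.of (stdEven T) D.R w (c ≫ I.amOne D.R), ?_⟩
    have h1 : a = b ≫ I.amOne D.R + (p : ℤ) • (c ≫ I.amOne D.R) := by
      rw [← Preadditive.zsmul_comp, hc, Preadditive.sub_comp, add_sub_cancel, Category.assoc]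
      exact (Category.comp_id a).symm.trans (congrArg (a ≫ ·) (λ_ D.R).inv_hom_id.symm)
    change HRing.of (stdEven T) D.R w a = _
    conv_lhs => rw [h1]
    rw [L0_eq, hz, HRing.map_of]
    change DirectSum.of _ w _ = _
    rw [map_add, map_zsmul, zsmul_eq_mul, Int.cast_natCast]

/-- (C2) `L/p ⟶ π_{2*} R/p` is injective. -/
theorem exists_of_L0_eq (z : Laz) (y : HRing (stdEven T) D.R)
    (h : L0 D z = (p : HRing (stdEven T) D.R) * y) : ∃ z' : Laz, z = (p : Laz) * z' := by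
  have h1 : GD.uN D i 0 ≫ (GD.rN D C 0 (MvPolynomial.C z) : _ ⟶ _) = 0 := by
    have h0 : GD.rN D C 0 (MvPolynomial.C z) = (p : ℤ) • ((GD.MN D C 0).smr
        (sharpHom _ (HRing.map (Am.v D.R (0 : Fin 1)) y)) : _ ⟶ _) := by
      rw [GD.rN, GD.γ, RingHom.comp_apply, RingHom.comp_apply, ← map_L0, h, map_mul, map_natCast,
        map_mul, map_natCast, map_mul, map_natCast]
      exact ((natCast_zsmul _ p).trans (nsmul_eq_mul _ _)).symm
    rw [h0, Preadditive.comp_zsmul, ← Preadditive.zsmul_comp, GD.p_uN D hC, zero_comp]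
  have h2 := GD.mem_span_of_smul_uN D i hp hC 0 _ h1
  obtain ⟨c, hc⟩ := Ideal.mem_span_singleton'.1 h2
  obtain ⟨z', rfl⟩ := C_surj c
  refine ⟨z', ?_⟩
  have h3 : (MvPolynomial.C (z' * (p : Laz)) : Cob Laz 0) = MvPolynomial.C z := by
    rw [map_mul, map_natCast, hc]
  rw [mul_comm]
  exact (MvPolynomial.C_injective (Fin 0 × ℕ) Laz h3).symm

end laz

section sur

variable {T : Type u} [Category.{v} T] [Preadditive T] [HasZeroObject T]
    [HasShift T ℤ] [∀ n : ℤ, (shiftFunctor T n).Additive] [Pretriangulated T] [IsTriangulated T]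
    [MonoidalCategory T] [SymmetricCategory T] [TensorTriangulated T] [MonoidalClosed T]
    [HasCoproducts.{0} T] [HasProducts.{0} T] [StableCat T] {C : T} (i : 𝟙_ T ⟶ C)

theorem redC_tensor (Y X : T) :
    (redC i).app (Y ⊗ X) = (redC i).app Y ▷ X ≫ (swapR Y C X).hom := by
  rw [redC_app, redC_app]
  unfold swapR
  simp only [Iso.trans_hom, whiskerLeftIso_hom, Iso.symm_hom, comp_whiskerRight, Category.assoc]
  rw [associator_naturality_middle_assoc, ← whiskerLeft_comp_assoc,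
    BraidedCategory.braiding_naturality_left, braiding_tensorUnit_left]
  simp only [whiskerLeft_comp, Category.assoc]
  rw [associator_inv_naturality_right]
  monoidal

/-- every map `A ⟶ Y ⊗ C` lifts to `Y` -/
def Sur (Y A : T) : Prop := ∀ g : A ⟶ Y ⊗ C, ∃ g' : A ⟶ Y, g' ≫ (redC i).app Y = g

variable {i}

theorem Sur.iso_src {Y A A' : T} (e : A ≅ A') (h : Sur i Y A) : Sur i Y A' := by
  intro g
  obtain ⟨g', hg'⟩ := h (e.hom ≫ g)
  exact ⟨e.inv ≫ g', by rw [Category.assoc, hg', Iso.inv_hom_id_assoc]⟩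

theorem Sur.conj {Y Y' A : T} (e : Y ≅ Y') (h : Sur i Y A) : Sur i Y' A := by
  intro g
  obtain ⟨g', hg'⟩ := h (g ≫ e.inv ▷ C)
  refine ⟨g' ≫ e.hom, ?_⟩
  have h1 : e.hom ≫ (redC i).app Y' = (redC i).app Y ≫ e.hom ▷ C := (redC i).naturality e.hom
  rw [Category.assoc, h1, ← Category.assoc, hg', Category.assoc, inv_hom_whiskerRight,
    Category.comp_id]

theorem Sur.of_whiskerRight {Y A : T} (X : T) [IsInv X] (h : Sur i (Y ⊗ X) (A ⊗ X)) :
    Sur i Y A := by
  intro g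
  obtain ⟨g', hg'⟩ := h (g ▷ X ≫ (swapR Y C X).hom)
  obtain ⟨g', rfl⟩ := whiskerRight_surj X g'
  refine ⟨g', whiskerRight_inj X ?_⟩
  rw [redC_tensor, ← Category.assoc, ← comp_whiskerRight, cancel_mono] at hg'
  exact hg'

end sur

section main

variable {T : Type u} [Category.{v} T] [Preadditive T] [HasZeroObject T]
    [HasShift T ℤ] [∀ n : ℤ, (shiftFunctor T n).Additive] [Pretriangulated T] [IsTriangulated T]
    [MonoidalCategory T] [SymmetricCategory T] [TensorTriangulated T] [MonoidalClosed T]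
    [HasCoproducts.{0} T] [HasProducts.{0} T] [StableCat T] (D : I.MUData T)

variable {C : T} {i : 𝟙_ T ⟶ C} {p : ℕ} [Fact p.Prime] (hp : p ≠ 2) {δ : C ⟶ (𝟙_ T)⟦(1 : ℤ)⟧}
  (hC : Triangle.mk ((p : ℤ) • 𝟙 (𝟙_ T)) i δ ∈ distTriang T)

include hp hC

/-- `π_0 P ⟶ π_0 (P ⊗ C)` is onto -/
theorem sur_P_one : Sur i D.P (𝟙_ T) := by
  have key : ∀ x : HMod (stdEven T) (Am D.R 1 ⊗ C), ∃ g' : 𝟙_ T ⟶ Am D.R 1 ⊗ (stdEven T).PS,
      g' ≫ (redC i).app (Am D.R 1) ▷ (stdEven T).PS = sharpTot (stdEven T) _ x := by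
    intro x
    induction x using DirectSum.induction_on with
    | zero => exact ⟨0, by rw [map_zero, zero_comp]⟩
    | add x x' hx hx' =>
      obtain ⟨g, hg⟩ := hx
      obtain ⟨g', hg'⟩ := hx'
      exact ⟨g + g', by rw [map_add, Preadditive.add_comp, hg, hg']⟩
    | of w a =>
      obtain ⟨z, b, -, hz, hf⟩ := D.surj p hp 0 C i δ hC w a
      refine ⟨sharp b, ?_⟩
      rw [← sharp_comp, sharpTot_of, hf]
      rfl
  have h1 : Sur i (Am D.R 1 ⊗ (stdEven T).PS) (𝟙_ T) := by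
    intro g
    obtain ⟨x, hx⟩ := sharpTot_surjective (E := stdEven T) (Am D.R 1 ⊗ C)
      (g ≫ (swapR (Am D.R 1) C (stdEven T).PS).inv)
    obtain ⟨g', hg'⟩ := key x
    refine ⟨g', ?_⟩
    rw [redC_tensor, ← Category.assoc, hg', hx, Category.assoc, Iso.inv_hom_id, Category.comp_id]
  exact h1.conj (whiskerRightIso (λ_ D.R) _)

theorem sur_P_even (w : ℤ) : Sur i D.P ((stdEven T).S w) := by
  refine Sur.of_whiskerRight ((stdEven T).S (-w)) ?_
  refine Sur.iso_src ((stdEven T).unitIso w) ?_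
  exact (sur_P_one D hp hC).conj (GD.perN D.R (-w))

/-- the odd homotopy of `P ⊗ C` vanishes -/
theorem oddZero_PC : OddZero (D.P ⊗ C) :=
  (GD.oddZero_N D hp hC 0).of_iso
    (swapR (Am D.R 1) C (stdEven T).PS ≪≫ whiskerRightIso (whiskerRightIso (λ_ D.R) _) C)

/-- (C3) the even homotopy of `P` has no `p`-torsion -/
theorem P_torsionFree_even {n : ℤ} (hn : Even n) (x : Sph T n ⟶ D.P) (h : (p : ℤ) • x = 0) :
    x = 0 :=
  torsionFree_of_red_shift hC n (n + 1) rfl (fun g => oddZero_PC D hp hC (n + 1) hn.add_one g) x h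

/-- (C5) `p` is onto on the odd homotopy of `P` -/
theorem P_divisible_odd {n : ℤ} (hn : Odd n) (x : Sph T n ⟶ D.P) :
    ∃ y : Sph T n ⟶ D.P, (p : ℤ) • y = x :=
  exists_zsmul_of_red hC x (oddZero_PC D hp hC n hn _)

/-- (C5) the odd homotopy of `P` has no `p`-torsion -/
theorem P_torsionFree_odd {n : ℤ} (hn : Odd n) (x : Sph T n ⟶ D.P) (h : (p : ℤ) • x = 0) :
    x = 0 := by
  obtain ⟨w, hw⟩ := hn
  have h1 : x⟦(1 : ℤ)⟧' ≫ ((p : ℤ) • 𝟙 D.P)⟦(1 : ℤ)⟧' = 0 := by
    rw [← Functor.map_comp, Preadditive.comp_zsmul, Category.comp_id, h, Functor.map_zero]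
  obtain ⟨g, hg⟩ : ∃ g : (Sph T n)⟦(1 : ℤ)⟧ ⟶ D.P ⊗ C, x⟦(1 : ℤ)⟧' = g ≫ bdC δ D.P :=
    Triangle.coyoneda_exact₁ _ (redTri_distinguished hC D.P) (x⟦(1 : ℤ)⟧') h1
  have e : (stdEven T).S (w + 1) ≅ (Sph T n)⟦(1 : ℤ)⟧ :=
    (stdEven T).sphIso (Iso.refl _) (w + 1) ≪≫
      (shiftFunctorAdd' T n 1 (2 * (w + 1)) (by rw [hw]; ring)).app (𝟙_ T)
  obtain ⟨g', hg'⟩ := (sur_P_even D hp hC (w + 1)).iso_src e g
  apply (shiftFunctor T (1 : ℤ)).map_injective
  have h2 : (redC i).app D.P ≫ bdC δ D.P = 0 :=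
    comp_distTriang_mor_zero₂₃ _ (redTri_distinguished hC D.P)
  rw [hg, ← hg', Category.assoc, h2, comp_zero, Functor.map_zero]

/-! ### the ring `π_{2*} R` -/

/-- (C3) `π_{2*} R` has no `p`-torsion -/
theorem hring_torsionFree (x : HRing (stdEven T) D.R) (h : (p : HRing (stdEven T) D.R) * x = 0) :
    x = 0 := by
  apply sharpTot_injective (E := stdEven T) D.R
  rw [map_zero]
  have h1 : (p : ℤ) • sharpTot (stdEven T) D.R x = 0 := by
    have h2 : (p : ℤ) • x = 0 := by rw [zsmul_eq_mul, Int.cast_natCast, h]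
    rw [← map_zsmul, h2, map_zero]
  let e : Sph T 0 ≅ 𝟙_ T := (shiftFunctorZero T ℤ).app _
  have h3 := P_torsionFree_even D hp hC (n := 0) (by simp) (e.hom ≫ sharpTot (stdEven T) D.R x)
    (by rw [← Preadditive.comp_zsmul, h1, comp_zero])
  rw [← cancel_epi e.hom, h3, comp_zero]

/-- (C4) `v_0 = p, v_1, …` is a regular sequence in `π_{2*} R` -/
theorem hring_mem_Ih_of_mul {k : ℕ} (x : HRing (stdEven T) D.R)
    (h : vv p k D.law * x ∈ Ih p k D.law) : x ∈ Ih p k D.law := by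
  rcases Nat.eq_zero_or_pos k with rfl | hk
  · have h0 : Ih p 0 D.law = ⊥ := by
      unfold Ih
      rw [Ideal.span_eq_bot]
      rintro x ⟨i, hi, -⟩
      exact absurd hi (Nat.not_lt_zero i)
    rw [h0, Ideal.mem_bot, vv_zero] at h
    rw [hring_torsionFree D hp hC x h]
    exact zero_mem _
  · have hp0 : (p : HRing (stdEven T) D.R) ∈ Ih p k D.law := by
      have := vv_mem_Ih (p := p) hk D.law
      rwa [vv_zero] at this
    have hp1 : (p : Laz) ∈ Laz.I p k := by
      have h2 : Laz.v p 0 = (p : Laz) := vv_zero p _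
      rw [← h2]
      exact vv_mem_Ih hk _
    obtain ⟨z, y, rfl⟩ := exists_L0_add D hp hC x
    refine add_mem ?_ (Ideal.mul_mem_right _ _ hp0)
    have h1 : L0 D (Laz.v p k * z) ∈ Ih p k D.law := by
      rw [map_mul, L0_v]
      have h2 : vv p k D.law * ((p : HRing (stdEven T) D.R) * y) ∈ Ih p k D.law :=
        Ideal.mul_mem_left _ _ (Ideal.mul_mem_right _ _ hp0)
      have h3 := sub_mem h h2
      rwa [mul_add, add_sub_cancel_right] at h3
    obtain ⟨c, hc⟩ := exists_sum_of_mem_Ih p k D.law h1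
    choose z' y' hzy using fun j => exists_L0_add D hp hC (c j)
    obtain ⟨t, ht⟩ := exists_of_L0_eq D hp hC
      (Laz.v p k * z - ∑ j ∈ Finset.range k, Laz.v p j * z' j)
      (∑ j ∈ Finset.range k, vv p j D.law * y' j) (by
        rw [map_sub, hc, map_sum, ← Finset.sum_sub_distrib, Finset.mul_sum]
        refine Finset.sum_congr rfl fun j _ => ?_
        rw [map_mul, L0_v, hzy j]
        ring)
    have h4 : Laz.v p k * z ∈ Laz.I p k := by
      rw [sub_eq_iff_eq_add.1 ht]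
      refine add_mem (Ideal.mul_mem_right _ _ hp1) (sum_mem fun j hj => ?_)
      exact Ideal.mul_mem_right _ _ (vv_mem_Ih (Finset.mem_range.1 hj) _)
    have h5 := mem_I_of_v_mul p le_rfl h4
    have h6 : Ih p k D.law = (Laz.I p k).map (L0 D) := by
      have h7 : D.law = Laz.univ.map (L0 D) := (Laz.univ_map_lift _).symm
      conv_lhs => rw [h7]
      rw [Ih_map]
      rfl
    rw [h6]
    exact Ideal.mem_map_of_mem _ h5

omit [Fact p.Prime] hp hC in
variable (p) in
/-- the scalar `v_k` -/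
theorem sharpHom_vv (k : ℕ) :
    sharpEquiv (stdEven T) D.R (vv p k D.law) = Sc.of (D.vs p k) := by
  rw [D.vel_spec]
  exact sharpHom_of (R := D.R) _ _

theorem regW_P_one (h : ℕ) : RegW 0 h (vP (D.vs p)) (𝟙_ T) := by
  refine ⟨fun k hk => absurd hk (Nat.not_lt_zero k), fun j _ hjh x y hx => ?_⟩
  set e := sharpEquiv (stdEven T) D.R with he
  have hmul : ∀ (k : ℕ) (t : Sc D.P), (t.hom ≫ vP (D.vs p) k) = (e (vv p k D.law) * t : Sc D.P) := by
    intro k t
    rw [he, sharpHom_vv D p]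
    exact (scMul_eq_smul (R := D.P) (D.vs p k) t.hom).symm
  have hsum : ∀ (z : ℕ → (𝟙_ T ⟶ D.P)), (∑ k ∈ Finset.range j, z k ≫ vP (D.vs p) k) =
      (∑ k ∈ Finset.range j, e (vv p k D.law) * Sc.of (z k) : Sc D.P) := by
    intro z
    exact Finset.sum_congr rfl fun k _ => hmul k (Sc.of (z k))
  have h1 : vv p j D.law * e.symm (Sc.of x) ∈ Ih p j D.law := by
    have h2 : vv p j D.law * e.symm (Sc.of x) =
        ∑ k ∈ Finset.range j, vv p k D.law * e.symm (Sc.of (y k)) := by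
      apply e.injective
      rw [map_mul, RingEquiv.apply_symm_apply, map_sum]
      have h3 : (e (vv p j D.law) * Sc.of x : Sc D.P) = ∑ k ∈ Finset.range j,
          e (vv p k D.law) * Sc.of (y k) := (hmul j (Sc.of x)).symm.trans (hx.trans (hsum y))
      rw [h3]
      exact Finset.sum_congr rfl fun k _ => by rw [map_mul, RingEquiv.apply_symm_apply]
    rw [h2]
    exact sum_mem fun k hk => Ideal.mul_mem_right _ _ (vv_mem_Ih (Finset.mem_range.1 hk) _)
  obtain ⟨c, hc⟩ := exists_sum_of_mem_Ih p j D.law (hring_mem_Ih_of_mul D hp hC _ h1)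
  refine ⟨fun k => (e (c k)).hom, ?_⟩
  rw [hsum]
  have h4 := congrArg e hc
  rw [RingEquiv.apply_symm_apply, map_sum] at h4
  refine Eq.trans (b := (Sc.of x : Sc D.P)) rfl (h4.trans (Finset.sum_congr rfl fun k _ => ?_))
  rw [map_mul]
  rfl

omit [Fact p.Prime] hp hC in
theorem self_tens (R R' : T) [MonObj R] [MonObj R'] :
    (ModStr.self R).tens (ModStr.self R') = ModStr.self (R ⊗ R') :=
  ModStr.ext_act rfl

/-- `v_0, v_1, …` is regular on `π_{2w} P` -/
theorem regW_P_even (h : ℕ) {n : ℤ} (hn : Even n) : RegW 0 h (vP (D.vs p)) (Sph T n) := by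
  obtain ⟨w, rfl⟩ := hn
  let eS : (stdEven T).S w ≅ Sph T (w + w) :=
    (stdEven T).sphIso (Iso.refl _) w ≪≫ eqToIso (by rw [two_mul])
  refine RegW.iso_src eS ?_
  refine RegW.of_whiskerRight ((stdEven T).S (-w)) ?_
  refine RegW.iso_src ((stdEven T).unitIso w) ?_
  refine (regW_P_one D hp hC h).conj (GD.perN _ (-w)) fun k => ?_
  have h1 := ModStr.IsLinear.smul (GD.perN_linear (ModStr.self D.R) (-w)) (D.vs p k)
  rw [self_tens, ModStr.tensorRight_smul] at h1
  rw [← cancel_mono (GD.perN _ (-w)).inv, Category.assoc, Category.assoc, Iso.hom_inv_id,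
    Category.comp_id, h1, Iso.hom_inv_id_assoc]

/-- `v_0, v_1, …` is regular on `π_{2w+1} P` (`p` is bijective there) -/
theorem regW_P_odd (h : ℕ) {n : ℤ} (hn : Odd n) : RegW 0 h (vP (D.vs p)) (Sph T n) := by
  have h0 : vP (D.vs p) 0 = (p : ℤ) • 𝟙 D.P := vP_zero (D.invData p 1)
  refine ⟨fun k hk => absurd hk (Nat.not_lt_zero k), fun j _ hjh x y hx => ?_⟩
  rcases Nat.eq_zero_or_pos j with rfl | hj
  · refine ⟨fun _ => 0, ?_⟩
    rw [Finset.sum_range_zero] at hx ⊢
    apply P_torsionFree_odd D hp hC hn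
    rw [h0, Preadditive.comp_zsmul, Category.comp_id] at hx
    exact hx
  · obtain ⟨z, hz⟩ := P_divisible_odd D hp hC hn x
    refine ⟨fun k => if k = 0 then z else 0, ?_⟩
    rw [Finset.sum_eq_single_of_mem 0 (Finset.mem_range.2 hj)]
    · dsimp only
      rw [if_pos rfl, h0, Preadditive.comp_zsmul, Category.comp_id, hz]
    · intro k _ hk
      dsimp only
      rw [if_neg hk, zero_comp]

/-- **(C4), all spheres.** `v_0 = p, v_1, …, v_{h-1}` is regular on the homotopy of `P`. -/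
theorem goodReg_P (h : ℕ) (A : T) (hA : IsSphere A) :
    GoodReg 0 h (fun k => pc A (vP (D.vs p) k)) := by
  have hR : RegW 0 h (vP (D.vs p)) A := by
    obtain ⟨n, ⟨e⟩⟩ := hA
    refine RegW.iso_src e.symm ?_
    rcases Int.even_or_odd n with hn | hn
    · exact regW_P_even D hp hC h hn
    · exact regW_P_odd D hp hC h hn
  refine ⟨fun j k x => ?_, fun j hj => absurd hj (Nat.not_lt_zero j), fun k hk hkh x hx => ?_⟩
  · change (x ≫ vP (D.vs p) k) ≫ vP (D.vs p) j = (x ≫ vP (D.vs p) j) ≫ vP (D.vs p) k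
    rw [Category.assoc, Category.assoc, ModStr.smul_comm]
  · obtain ⟨y, hy⟩ := hx
    exact hR.2 k hk hkh x y hy

end main

end Vale.Agent.P251.Z
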