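import Vale.Agent.P251.Z.KMU
import Vale.Agent.P251.Z.KSph
import Vale.Agent.P251.Z.LazMod

/-!
# P251, part Z2: the reverse comparison for commutative monoids over `MU`

`K` a commutative monoid over `MU` with `π_{odd} K = 0`, `π_{2*} K = 𝔽_p[v^{±1}]`, `v_i = 0` for
`i < h` and `v_h = v`: `K ⊗ W = 0` implies `K_h ⊗ W = 0`.
-/

open CategoryTheory MonoidalCategory Limits Pretriangulated MonObj

set_option linter.unusedSectionVars false

universe v u

namespace Vale.Agent.P251.Z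

open Vale.Agent.P251.T Vale.Agent.P251.M Vale.Agent.P251.S Vale.Agent.P251.F Vale.Agent.P251.I
  EvenSpheres

variable {T : Type u} [Category.{v} T] [Preadditive T] [HasZeroObject T]
    [HasShift T ℤ] [∀ n : ℤ, (shiftFunctor T n).Additive] [Pretriangulated T] [IsTriangulated T]
    [MonoidalCategory T] [SymmetricCategory T] [TensorTriangulated T] [MonoidalClosed T]
    [HasCoproducts.{0} T] [HasProducts.{0} T] [StableCat T]
    {D : MUData T} {F : SpaceFunctor T} {e : F.S.obj CCF ≅ (stdEven T).L} (hU : MUUniv e D)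
    {C : T} {i : 𝟙_ T ⟶ C} {δ : C ⟶ (𝟙_ T)⟦(1 : ℤ)⟧} {p : ℕ} [Fact p.Prime] (hp : p ≠ 2)
    (hC : Triangle.mk ((p : ℤ) • 𝟙 (𝟙_ T)) i δ ∈ distTriang T)
    {K : T} [MonObj K] [IsCommMonObj K] (k : D.R ⟶ K) [IsMonHom k]
    [Algebra (Polynomial (ZMod p)) (HRing (stdEven T) K)]
    [IsLocalization.Away (Polynomial.X : Polynomial (ZMod p)) (HRing (stdEven T) K)]
    {h : ℕ} (hh : h ≠ 0) (h0 : ∀ i < h, vv p i (lawK D k) = 0)
    (hv : vv p h (lawK D k) =
      algebraMap (Polynomial (ZMod p)) (HRing (stdEven T) K) Polynomial.X)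

include hU hp hC hh h0 hv in
/-- the good map at the unit -/
theorem goodMap_one : GoodMap h (fun j => pc (𝟙_ T) (vP (D.vs p) j))
    (pc (𝟙_ T) (K ◁ vP (D.vs p) h))
    (fun e : Small (kdeg p h) => pc (𝟙_ T) (phiK D k e)) := by
  have H := goodMap_ring (p := p) hh (lawK D k) h0 hv D.law (epsH (bK D k))
    (epsK_bijective k hU) (HRing.map (E := stdEven T) (inrM K D.R)) (law_inr D k)
    (exists_L0_add D hp hC)
  refine H.congr (fun j l x => by simp only [mulA_apply]; ring)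
    (sharpTot (stdEven T) D.R) (sharpTot_bijective D.R)
    (theK (E := stdEven T) K D.R).toAddMonoidHom (theK_bijective K D.R)
    (fun j x => ?_) (fun x => ?_) (fun s x => ?_)
  · have h1 : sharpEquiv (stdEven T) D.R (vv p j D.law * x) =
        Sc.of (D.vs p j) * sharpEquiv (stdEven T) D.R x := by
      rw [map_mul, sharpHom_vv]
    exact h1.trans (scMul_eq_smul (R := D.P) (D.vs p j) _)
  · have h1 : theK (E := stdEven T) K D.R
        (HRing.map (E := stdEven T) (inrM K D.R) (vv p h D.law) * x) =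
        theK K D.R (epsH (bK D k) (vv p h (bL (lawK D k)))) * theK K D.R x := by
      rw [map_mul, ← vv_map, law_inr D k, vv_map]
    refine h1.trans ?_
    change _ = (theK (E := stdEven T) K D.R x : 𝟙_ T ⟶ K ⊗ D.P) ≫ K ◁ vP (D.vs p) h
    rw [whiskerLeft_vP D k]
    exact scMul_eq_smul (R := K ⊗ D.P) _ _
  · have h1 : theK (E := stdEven T) K D.R
        (epsH (bK D k) (MvPolynomial.monomial (s : ℕ →₀ ℕ) 1) *
          HRing.map (E := stdEven T) (inrM K D.R) x) =
        theK K D.R (epsH (bK D k) (MvPolynomial.monomial (s : ℕ →₀ ℕ) 1)) *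
          Sc.map (inrM K D.P) (sharpHom D.R x) := by
      rw [map_mul, theK_inr]
    exact (comp_mulEl _ _).trans h1.symm

include hp hC in
/-- the good map at all spheres, from the unit -/
theorem goodMap_of_one (hh : h ≠ 0) (hodd : ∀ (l : ℤ) (f : (𝟙_ T)⟦2 * l + 1⟧ ⟶ K), f = 0)
    {J : Type} (b : GBasis (stdEven T) (inlM K D.R) J) {I : Type}
    {φ : I → (D.P ⟶ K ⊗ D.P)} (hφ : ∀ e, Lin (φ e))
    (H : GoodMap h (fun j => pc (𝟙_ T) (vP (D.vs p) j)) (pc (𝟙_ T) (K ◁ vP (D.vs p) h))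
      (fun e => pc (𝟙_ T) (φ e))) (A : T) (hA : IsSphere A) :
    GoodMap h (fun j => pc A (vP (D.vs p) j)) (pc A (K ◁ vP (D.vs p) h))
      (fun e => pc A (φ e)) := by
  rcases sphere_cases (E := stdEven T) (Iso.refl _) hA with ⟨m, ⟨a⟩⟩ | ⟨l, ⟨a⟩⟩
  · obtain ⟨y, hy', hy⟩ := exists_twist (stdEven T) D.R m a
    exact H.quot (twP y) hy.2 (fun k x => twP_vP y (D.vs p) k x) (twY K y) (hy' K)
      (fun γ => twY_v K y (D.vs p h) γ) (fun e x => twY_lin y (hφ e) x)
  · have h1 : ∀ x : A ⟶ K ⊗ D.P, x = 0 :=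
      odd_of_iso a (odd_tensor (E := stdEven T) (Iso.refl _) b hodd)
    have h0 : vP (D.vs p) 0 = (p : ℤ) • 𝟙 D.P := vP_zero (D.invData p 1)
    refine ⟨fun e x => ?_, fun y => ⟨0, 0, ?_⟩, fun x _ e => ⟨0, ?_⟩⟩
    · rw [h1 (pc A (φ e) _), h1 (pc A (K ◁ vP (D.vs p) h) _)]
    · rw [h1 y]
      simp
    · obtain ⟨y, hy⟩ := P_divisible_odd D hp hC (n := 2 * l + 1) ⟨l, rfl⟩ (a.inv ≫ x e)
      have h2 : (x e : A ⟶ D.P) = pc A (vP (D.vs p) 0) (a.hom ≫ y) := by
        rw [pc_apply, h0, Preadditive.comp_zsmul, Category.comp_id, ← Preadditive.comp_zsmul, hy,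
          Iso.hom_inv_id_assoc]
      change (x e : A ⟶ D.P) ∈ _
      rw [h2]
      exact apply_mem_VI (fun j => pc A (vP (D.vs p) j)) (Nat.pos_of_ne_zero hh) _

include hU hp hC hh h0 hv in
/-- **The reverse comparison** for a commutative monoid `K` over `MU`. -/
theorem acyclic_kos (hodd : ∀ (l : ℤ) (f : (𝟙_ T)⟦2 * l + 1⟧ ⟶ K), f = 0)
    (hchar : (p : ℤ) • η[K] = 0) (Z : KosData D.P (p : ℤ) h (D.vs p)) {W : T}
    (hW : Acyclic K W) : Acyclic Z.K W := by
  obtain ⟨b, -, -⟩ := D.exists_basis_of k hU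
  obtain ⟨b', -, -⟩ := hU.basis
  obtain ⟨J, f, hf, hf'⟩ := exists_free_of_basis (E := stdEven T) (GBasis.ofAm b')
  have hI : Nonempty (Small (kdeg p h)) :=
    ⟨⟨0, fun j => by simpa using kdeg_pos (Fact.out : p.Prime).ne_zero h j⟩⟩
  have hvu : IsUnit (vv p h (lawK D k)) := by
    rw [hv]
    exact IsLocalization.Away.algebraMap_isUnit _
  have hR : RevData D.P (p : ℤ) h (D.vs p) K
      (fun e : Small (kdeg p h) => phiK D k e) f :=
    { inv := D.invData p h
      char := by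
        have h1 : 𝟙 K = (λ_ K).inv ≫ (η[K] ▷ K) ≫ μ[K] := by
          rw [MonObj.one_mul, Iso.inv_hom_id]
        rw [h1, ← Preadditive.comp_zsmul, ← Preadditive.zsmul_comp, ← whiskerRight_zsmul', hchar]
        simp
      zero := fun j _ hj => whiskerLeft_vP_zero D k h0 hj
      unit := isIso_whiskerLeft_vP D k h0 hvu
      linφ := fun e => lin_mulEl _
      linf := hf
      free := hf'
      reg := fun A hA => goodReg_P D hp hC h A hA
      map := goodMap_of_one hp hC hh hodd b (fun e => lin_mulEl _)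
        (goodMap_one hU hp hC k hh h0 hv) }
  exact hR.acyclic Z hW

end Vale.Agent.P251.Z
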