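import Vale.Agent.P251.Z.GoodAlg
import Vale.Agent.P251.S.KosData
import Vale.Agent.P251.S.Coprod
import Vale.Agent.P251.M.BUPi

/-!
# P251, part Z: the reverse comparison, triangulated part

Let `K` be an object such that `K ◁ v_i = 0 : K ⊗ P ⟶ K ⊗ P` for `i < h` and `K ◁ v_h` is an
isomorphism, and suppose that `π_*(K ⊗ P)` is the direct sum of copies of `v_h⁻¹ π_*(P) / I_h`
along maps `φ e : P ⟶ K ⊗ P`. Then the Koszul object `K_h` is a direct summand of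
`K ⊗ P ⊗ ⋯ ⊗ P`.
-/

open CategoryTheory MonoidalCategory Limits Pretriangulated MonObj

set_option linter.unusedSectionVars false

universe v u

namespace Vale.Agent.P251.Z

open Vale.Agent.P251.T Vale.Agent.P251.S

variable {T : Type u} [Category.{v} T] [Preadditive T] [HasZeroObject T]
    [HasShift T ℤ] [∀ n : ℤ, (shiftFunctor T n).Additive] [Pretriangulated T] [IsTriangulated T]
    [MonoidalCategory T] [SymmetricCategory T] [TensorTriangulated T] [MonoidalClosed T]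
    [HasCoproducts.{0} T] [HasProducts.{0} T] [StableCat T]

/-- composition with `f` -/
def pc (A : T) {X Y : T} (f : X ⟶ Y) : (A ⟶ X) →+ (A ⟶ Y) := Preadditive.rightComp A f

@[simp] theorem pc_apply (A : T) {X Y : T} (f : X ⟶ Y) (x : A ⟶ X) : pc A f x = x ≫ f := rfl

theorem pc_iterate (A : T) {X : T} (f : X ⟶ X) (m : ℕ) (x : A ⟶ X) :
    (pc A f)^[m] x = x ≫ itr f m := by
  induction m with
  | zero => simp
  | succ m ih => rw [Function.iterate_succ_apply', ih, itr_succ, pc_apply, Category.assoc]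

/-- homotopy of a coproduct -/
theorem bij_sum (X : T) {J : Type} {N Y : T} (f : J → (N ⟶ Y)) [hf : IsIso (Sigma.desc f)] {A : T}
    (hA : IsSphere A) : Function.Bijective (Finsupp.liftAddHom fun a : J => pc A (X ◁ f a)) := by
  classical
  have hfa : ∀ a, f a = Sigma.ι (fun _ : J => N) a ≫ Sigma.desc f := fun a => by simp
  constructor
  · rw [injective_iff_map_eq_zero]
    intro x hx
    have h1 : (∑ a ∈ x.support, x a ≫ X ◁ Sigma.ι (fun _ : J => N) a) ≫ X ◁ Sigma.desc f = 0 := by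
      rw [Preadditive.sum_comp, ← hx, Finsupp.liftAddHom_apply, Finsupp.sum]
      refine Finset.sum_congr rfl fun a _ => ?_
      rw [pc_apply, Category.assoc, ← whiskerLeft_comp, ← hfa]
    have h2 : (∑ a ∈ x.support, x a ≫ X ◁ Sigma.ι (fun _ : J => N) a) = 0 := by
      rw [← cancel_mono (X ◁ Sigma.desc f), h1, zero_comp]
    ext a
    by_cases ha : a ∈ x.support
    · have h3 := congrArg (fun z => z ≫ X ◁ sproj (fun _ : J => N) a) h2
      simp only [zero_comp, Preadditive.sum_comp, Category.assoc, ← whiskerLeft_comp] at h3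
      rw [Finset.sum_eq_single_of_mem a ha] at h3
      · simpa using h3
      · intro b _ hb
        rw [ι_sproj_ne _ hb, MonoidalPreadditive.whiskerLeft_zero, comp_zero]
    · simpa using ha
  · intro y
    obtain ⟨s, g, hg⟩ := compact_sumL X (fun _ : J => N) hA (y ≫ X ◁ inv (Sigma.desc f))
    refine ⟨Finsupp.onFinset s (fun a => if a ∈ s then g a else 0) (by
      intro a ha
      by_contra h1
      simp [h1] at ha), ?_⟩
    rw [Finsupp.liftAddHom_apply, Finsupp.onFinset_sum _ (by simp)]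
    have h1 : y = (y ≫ X ◁ inv (Sigma.desc f)) ≫ X ◁ Sigma.desc f := by
      rw [Category.assoc, ← whiskerLeft_comp, IsIso.inv_hom_id, MonoidalCategory.whiskerLeft_id,
        Category.comp_id]
    rw [h1, hg, Preadditive.sum_comp]
    refine Finset.sum_congr rfl fun a ha => ?_
    rw [if_pos ha, pc_apply, Category.assoc, ← whiskerLeft_comp, ← hfa]

/-- the map to the cofibre is surjective on homotopy if the first map is injective -/
theorem surj_of_inj {Y Y' C : T} {w : Y ⟶ Y'} {q : Y' ⟶ C} {δ : C ⟶ Y⟦(1 : ℤ)⟧}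
    (h : Triangle.mk w q δ ∈ distTriang T)
    (hw : ∀ A : T, IsSphere A → ∀ x : A ⟶ Y, x ≫ w = 0 → x = 0) {A : T} (hA : IsSphere A)
    (c : A ⟶ C) : ∃ b : A ⟶ Y', b ≫ q = c := by
  obtain ⟨e, f', hf'⟩ := exists_unshift (1 : ℤ) (c ≫ δ)
  have h0 : δ ≫ w⟦(1 : ℤ)⟧' = 0 := comp_distTriang_mor_zero₃₁ _ h
  have h1 : f' ≫ w = 0 := by
    apply (shiftFunctor T (1 : ℤ)).map_injective
    rw [Functor.map_comp, Functor.map_zero, ← cancel_epi e.hom, comp_zero, ← Category.assoc,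
      ← hf', Category.assoc, h0, comp_zero]
  have h2 : f' = 0 := hw _ (hA.shift (-1)) f' h1
  rw [h2, Functor.map_zero, comp_zero] at hf'
  obtain ⟨b, hb⟩ := ex₃ h c hf'
  exact ⟨b, hb.symm⟩

section Level

variable {I : Type} (N K : T) (vN : ℕ → (N ⟶ N)) (φ : I → (N ⟶ K ⊗ N))

/-- The comparison at the object `X` (`= kos i`), with `r : X ⊗ K ⟶ G`. -/
structure Level (i h : ℕ) (X G : T) (r : X ⊗ K ⟶ G) : Prop where
  reg : ∀ A : T, IsSphere A → GoodReg i h (fun k => pc A (X ◁ vN k))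
  map : ∀ A : T, IsSphere A → GoodMap h (fun k => pc A (X ◁ vN k)) (pc A (G ◁ vN h))
    (fun e => pc A (X ◁ φ e ≫ (α_ X K N).inv ≫ r ▷ N))

variable {N K vN φ}

/-- the permutation `S ⊗ (K ⊗ N) ≅ K ⊗ (S ⊗ N)` -/
def perm (S K N : T) : S ⊗ (K ⊗ N) ⟶ K ⊗ (S ⊗ N) :=
  (α_ S K N).inv ≫ (β_ S K).hom ▷ N ≫ (α_ K S N).hom

/-- the coherence used in the step -/
theorem step_coherence {X G S Q : T} (r : X ⊗ K ⟶ G) (q : S ⟶ Q) (s : K ⊗ Q ⟶ K ⊗ S)
    (hs : (K ◁ q) ≫ s = 𝟙 _) (f : N ⟶ K ⊗ N) :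
    (X ◁ (q ▷ N) ≫ (α_ X Q N).inv) ≫ ((X ⊗ Q) ◁ f ≫ (α_ (X ⊗ Q) K N).inv ≫
      ((α_ X Q K).hom ≫ X ◁ ((β_ Q K).hom ≫ s) ≫ (α_ X K S).inv ≫ r ▷ S) ▷ N) =
    (X ◁ (S ◁ f ≫ perm S K N) ≫ (α_ X K (S ⊗ N)).inv ≫ r ▷ (S ⊗ N)) ≫ (α_ G S N).inv := by
  have h1 : X ◁ (q ▷ N) ≫ (α_ X Q N).inv ≫ (X ⊗ Q) ◁ f =
      X ◁ (S ◁ f) ≫ X ◁ (q ▷ (K ⊗ N)) ≫ (α_ X Q (K ⊗ N)).inv := by
    rw [← whiskerLeft_comp_assoc, whisker_exchange, whiskerLeft_comp_assoc,
      tensor_whiskerLeft]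
    simp
  have h2 : (α_ X Q (K ⊗ N)).inv ≫ (α_ (X ⊗ Q) K N).inv ≫ (α_ X Q K).hom ▷ N =
      X ◁ (α_ Q K N).inv ≫ (α_ X (Q ⊗ K) N).inv := by
    monoidal
  have h3 : q ▷ (K ⊗ N) ≫ (α_ Q K N).inv ≫ ((β_ Q K).hom ≫ s) ▷ N =
      (α_ S K N).inv ≫ (β_ S K).hom ▷ N := by
    rw [associator_inv_naturality_left_assoc, ← comp_whiskerRight,
      BraidedCategory.braiding_naturality_left_assoc, hs, Category.comp_id]
  calc _ = (X ◁ (q ▷ N) ≫ (α_ X Q N).inv ≫ (X ⊗ Q) ◁ f) ≫ (α_ (X ⊗ Q) K N).inv ≫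
      (α_ X Q K).hom ▷ N ≫ (X ◁ ((β_ Q K).hom ≫ s)) ▷ N ≫ (α_ X K S).inv ▷ N ≫
        (r ▷ S) ▷ N := by
        simp only [comp_whiskerRight, Category.assoc]
    _ = X ◁ (S ◁ f) ≫ X ◁ (q ▷ (K ⊗ N)) ≫ X ◁ (α_ Q K N).inv ≫ (α_ X (Q ⊗ K) N).inv ≫
      (X ◁ ((β_ Q K).hom ≫ s)) ▷ N ≫ (α_ X K S).inv ▷ N ≫ (r ▷ S) ▷ N := by
        rw [h1]
        simp only [Category.assoc]
        rw [reassoc_of% h2]
    _ = X ◁ (S ◁ f) ≫ X ◁ (q ▷ (K ⊗ N) ≫ (α_ Q K N).inv ≫ ((β_ Q K).hom ≫ s) ▷ N) ≫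
      (α_ X (K ⊗ S) N).inv ≫ (α_ X K S).inv ▷ N ≫ (r ▷ S) ▷ N := by
        rw [whisker_assoc_symm]
        simp
    _ = _ := by
        rw [h3]
        unfold perm
        simp only [whiskerLeft_comp, Category.assoc]
        have h4 : X ◁ (α_ K S N).hom ≫ (α_ X K (S ⊗ N)).inv ≫ r ▷ (S ⊗ N) ≫ (α_ G S N).inv =
            (α_ X (K ⊗ S) N).inv ≫ (α_ X K S).inv ▷ N ≫ (r ▷ S) ▷ N := by
          rw [associator_inv_naturality_left]
          monoidal
        rw [h4]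

/-- **The Koszul step.** `Q` is the cofibre of `w : S ⟶ S`; `S ⊗ N` is a coproduct of copies of
`N` along maps `f a` commuting with the `v k`; on `S ⊗ N` the map `w` is `v i` up to a unit and a
combination of the `v k`, `k < i`; and `w` is zero on `K ⊗ S`. -/
theorem Level.step {i h : ℕ} {X G : T} {r : X ⊗ K ⟶ G} (L : Level N K vN φ i h X G r)
    (hih : i < h) {S Q : T} {w : S ⟶ S} {q : S ⟶ Q} {δ : Q ⟶ S⟦(1 : ℤ)⟧}
    (hT : Triangle.mk w q δ ∈ distTriang T)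
    {J : Type} (f : J → (N ⟶ S ⊗ N)) [hf : IsIso (Sigma.desc f)]
    (hfv : ∀ a k, f a ≫ S ◁ vN k = vN k ≫ f a)
    (u : S ⊗ N ⟶ S ⊗ N) [hu : IsIso u] (c : ℕ → (S ⊗ N ⟶ S ⊗ N))
    (hw : w ▷ N = u ≫ S ◁ vN i + ∑ k ∈ Finset.range i, c k ≫ S ◁ vN k)
    (hK : K ◁ w = 0)
    (hφ : ∀ a e, f a ≫ S ◁ φ e ≫ perm S K N = φ e ≫ K ◁ f a) :
    ∃ r' : (X ⊗ Q) ⊗ K ⟶ G ⊗ S, Level N K vN φ (i + 1) h (X ⊗ Q) (G ⊗ S) r' := by
  -- the retraction of `K ⊗ S ⟶ K ⊗ Q`
  obtain ⟨s, hs⟩ : ∃ s : K ⊗ Q ⟶ K ⊗ S, (K ◁ q) ≫ s = 𝟙 _ := by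
    obtain ⟨s, hs⟩ := Triangle.yoneda_exact₂ _ (tens_dist K hT) (𝟙 (K ⊗ S)) (by
      change K ◁ w ≫ 𝟙 _ = 0
      rw [hK, zero_comp])
    exact ⟨s, hs.symm⟩
  refine ⟨(α_ X Q K).hom ≫ X ◁ ((β_ Q K).hom ≫ s) ≫ (α_ X K S).inv ≫ r ▷ S, ?_⟩
  -- the middle level
  have hreg : ∀ A : T, IsSphere A → GoodReg i h (fun k => pc A (X ◁ (S ◁ vN k))) := by
    intro A hA
    refine (L.reg A hA).sum (fun a => pc A (X ◁ f a)) (bij_sum X f hA) ?_
    intro a k x
    simp only [pc_apply, Category.assoc]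
    rw [← whiskerLeft_comp, ← whiskerLeft_comp, hfv]
  have hmap : ∀ A : T, IsSphere A → GoodMap h (fun k => pc A (X ◁ (S ◁ vN k)))
      (pc A (G ◁ (S ◁ vN h)))
      (fun e => pc A (X ◁ (S ◁ φ e ≫ perm S K N) ≫ (α_ X K (S ⊗ N)).inv ≫ r ▷ (S ⊗ N))) := by
    intro A hA
    refine (L.map A hA).sum (L.reg A hA).comm (fun a => pc A (X ◁ f a)) (bij_sum X f hA)
      (fun a => pc A (G ◁ f a)) (bij_sum G f hA) ?_ ?_ ?_
    · intro a k x
      simp only [pc_apply, Category.assoc]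
      rw [← whiskerLeft_comp, ← whiskerLeft_comp, hfv]
    · intro a x
      simp only [pc_apply, Category.assoc]
      rw [← whiskerLeft_comp, ← whiskerLeft_comp, hfv]
    · intro a e x
      simp only [pc_apply, Category.assoc]
      congr 1
      rw [← whisker_exchange, ← associator_inv_naturality_right_assoc, ← whiskerLeft_comp_assoc,
        ← whiskerLeft_comp_assoc, hφ a e]
  -- the triangle
  have hT' : Triangle.mk (X ◁ (w ▷ N)) (X ◁ (q ▷ N)) (tensδ X (tensRδ δ N)) ∈ distTriang T :=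
    tens_dist X (tensR_dist N hT)
  have hw' : ∀ (A : T) (_ : IsSphere A) (x : A ⟶ X ⊗ (S ⊗ N)),
      x ≫ X ◁ (w ▷ N) = (x ≫ X ◁ u) ≫ X ◁ (S ◁ vN i) := by
    intro A hA x
    rw [hw, MonoidalPreadditive.whiskerLeft_add, Preadditive.comp_add, whiskerLeft_sum,
      Preadditive.comp_sum, Finset.sum_eq_zero, add_zero, whiskerLeft_comp, Category.assoc]
    intro k hk
    rw [whiskerLeft_comp, ← Category.assoc]
    exact (hreg A hA).zero k (Finset.mem_range.1 hk) (x ≫ X ◁ c k)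
  have hinj : ∀ A : T, IsSphere A → ∀ x : A ⟶ X ⊗ (S ⊗ N), x ≫ X ◁ (w ▷ N) = 0 → x = 0 := by
    intro A hA x hx
    rw [hw' A hA] at hx
    have h1 := (hreg A hA).injective hih (x := x ≫ X ◁ u) hx
    rw [← cancel_mono (X ◁ u), h1, zero_comp]
  have hsurj : ∀ A : T, IsSphere A → Function.Surjective
      (pc A (X ◁ (q ▷ N) ≫ (α_ X Q N).inv)) := by
    intro A hA c
    obtain ⟨b, hb⟩ := surj_of_inj hT' hinj hA (c ≫ (α_ X Q N).hom)
    refine ⟨b, ?_⟩
    rw [pc_apply, ← Category.assoc, hb, Category.assoc, Iso.hom_inv_id, Category.comp_id]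
  have hker : ∀ A : T, IsSphere A → ∀ x : A ⟶ X ⊗ (S ⊗ N),
      pc A (X ◁ (q ▷ N) ≫ (α_ X Q N).inv) x = 0 ↔ ∃ z, x = pc A (X ◁ (S ◁ vN i)) z := by
    intro A hA x
    constructor
    · intro hx
      have h1 : x ≫ X ◁ (q ▷ N) = 0 := by
        rw [← cancel_mono (α_ X Q N).inv, zero_comp, Category.assoc]
        exact hx
      obtain ⟨b, hb⟩ := ex₂ hT' x h1
      exact ⟨b ≫ X ◁ u, by rw [hb, hw' A hA]; rfl⟩
    · rintro ⟨z, rfl⟩
      have h0 : (z ≫ X ◁ inv u) ≫ X ◁ u = z := by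
        rw [Category.assoc, ← whiskerLeft_comp, IsIso.inv_hom_id,
          MonoidalCategory.whiskerLeft_id, Category.comp_id]
      have h1 : (pc A (X ◁ (S ◁ vN i))) z = (z ≫ X ◁ inv u) ≫ X ◁ (w ▷ N) := by
        rw [hw' A hA, h0]
        rfl
      have h2 : X ◁ (w ▷ N) ≫ X ◁ (q ▷ N) = 0 := comp_distTriang_mor_zero₁₂ _ hT'
      rw [h1, pc_apply, Category.assoc, reassoc_of% h2, zero_comp, comp_zero]
  have hπv : ∀ (A : T) (k : ℕ) (x : A ⟶ X ⊗ (S ⊗ N)),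
      pc A (X ◁ (q ▷ N) ≫ (α_ X Q N).inv) (pc A (X ◁ (S ◁ vN k)) x) =
        pc A ((X ⊗ Q) ◁ vN k) (pc A (X ◁ (q ▷ N) ≫ (α_ X Q N).inv) x) := by
    intro A k x
    simp only [pc_apply, Category.assoc]
    congr 1
    rw [← whiskerLeft_comp_assoc, whisker_exchange, whiskerLeft_comp_assoc]
    simp
  refine ⟨fun A hA => ?_, fun A hA => ?_⟩
  · exact (hreg A hA).quot (pc A (X ◁ (q ▷ N) ≫ (α_ X Q N).inv)) (hsurj A hA) (hπv A)
      (hker A hA)
  · refine (hmap A hA).quot (pc A (X ◁ (q ▷ N) ≫ (α_ X Q N).inv)) (hsurj A hA) (hπv A)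
      (pc A (α_ G S N).inv) ?_ ?_ ?_
    · constructor
      · intro x y hxy
        exact (cancel_mono (α_ G S N).inv).1 hxy
      · intro y
        exact ⟨y ≫ (α_ G S N).hom, by simp⟩
    · intro x
      simp
    · intro e x
      have := step_coherence r q s hs (φ e)
      simp only [pc_apply]
      rw [Category.assoc, this]
      simp only [Category.assoc]

theorem isIso_itr {X : T} (f : X ⟶ X) [IsIso f] (m : ℕ) : IsIso (itr f m) := by
  induction m with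
  | zero => exact inferInstanceAs (IsIso (𝟙 X))
  | succ m ih => exact inferInstanceAs (IsIso (itr f m ≫ f))

theorem itr_comm {X Y : T} {a : X ⟶ X} {b : Y ⟶ Y} {g : X ⟶ Y} (hg : a ≫ g = g ≫ b) (m : ℕ) :
    itr a m ≫ g = g ≫ itr b m := by
  induction m with
  | zero => simp
  | succ m ih => rw [itr_succ, Category.assoc, hg, reassoc_of% ih, ← itr_succ]

theorem whiskerLeft_itr (X : T) {Y : T} (f : Y ⟶ Y) (m : ℕ) : X ◁ itr f m = itr (X ◁ f) m := by
  induction m with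
  | zero => simp
  | succ m ih => rw [itr_succ, itr_succ, whiskerLeft_comp, ih]

theorem isCpt_sphere {A : T} (hA : IsSphere A) : S.IsCpt A := fun _ X f => compact_sum X hA f

/-- a map is an isomorphism if it is bijective on homotopy groups -/
theorem isIso_of_bij {X Y : T} (f : X ⟶ Y)
    (hinj : ∀ A : T, IsSphere A → ∀ x : A ⟶ X, x ≫ f = 0 → x = 0)
    (hsurj : ∀ A : T, IsSphere A → ∀ y : A ⟶ Y, ∃ x : A ⟶ X, x ≫ f = y) : IsIso f := by
  refine M.isIso_of_bijective_hom (fun n : ℤ => (𝟙_ T)⟦n⟧) ?_ StableCat.generator f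
    (fun k x hx => hinj _ (isSphere_one_shift k) x hx)
    (fun k y => hsurj _ (isSphere_one_shift k) y)
  intro k k' hk
  exact ⟨((shiftFunctorAdd' T k 1 k' hk).app _).symm⟩

/-- **The final step**: inverting `v h`. -/
theorem Level.isIso_final {h : ℕ} {X G : T} {r : X ⊗ K ⟶ G} (L : Level N K vN φ h h X G r)
    [IsIso (K ◁ vN h)] [IsIso (G ◁ vN h)] (U : Tel (X := fun _ => N) (fun _ => vN h))
    (hφv : ∀ e, vN h ≫ φ e = φ e ≫ K ◁ vN h) :
    ∃ l : I → (U.obj ⟶ K ⊗ N), (∀ e, U.ι 0 ≫ l e = φ e) ∧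
      IsIso (Sigma.desc fun e => X ◁ l e ≫ (α_ X K N).inv ≫ r ▷ N) := by
  classical
  have hl : ∀ e, ∃ l : U.obj ⟶ K ⊗ N, ∀ m, U.ι m ≫ l = φ e ≫ itr (inv (K ◁ vN h)) m := by
    intro e
    refine U.exists_desc (Z := K ⊗ N) (fun m => φ e ≫ itr (inv (K ◁ vN h)) m) ?_
    intro m
    change vN h ≫ φ e ≫ itr (inv (K ◁ vN h)) (m + 1) = _
    rw [itr_succ', reassoc_of% (hφv e), IsIso.hom_inv_id_assoc]
  choose l hl using hl
  refine ⟨l, fun e => by rw [hl, itr_zero, Category.comp_id], ?_⟩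
  -- the key relation
  have hkey : ∀ (m : ℕ) (e : I), X ◁ U.ι m ≫ (X ◁ l e ≫ (α_ X K N).inv ≫ r ▷ N) ≫
      itr (G ◁ vN h) m = X ◁ φ e ≫ (α_ X K N).inv ≫ r ▷ N := by
    intro m e
    have h1 : (X ◁ (K ◁ vN h)) ≫ (α_ X K N).inv ≫ r ▷ N =
        ((α_ X K N).inv ≫ r ▷ N) ≫ G ◁ vN h := by
      rw [Category.assoc, ← whisker_exchange, associator_inv_naturality_right_assoc]
    have h2 := itr_comm h1 m
    have h3 : itr (inv (K ◁ vN h)) m ≫ itr (K ◁ vN h) m = 𝟙 _ :=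
      itr_comp_itr _ _ (IsIso.inv_hom_id _) m
    simp only [Category.assoc] at h2 ⊢
    rw [← h2, ← whiskerLeft_itr, ← whiskerLeft_comp_assoc, ← whiskerLeft_comp_assoc,
      hl e m, Category.assoc, h3, Category.comp_id]
  have hshift : ∀ (m k : ℕ), itr (X ◁ vN h) k ≫ X ◁ U.ι (m + k) = X ◁ U.ι m := by
    intro m k
    have := (U.tensL X).trT_ι m k
    rw [trT_const] at this
    exact this
  have hVI : ∀ (A : T) (_ : IsSphere A) (x : A ⟶ X ⊗ N),
      x ∈ VI (fun k => pc A (X ◁ vN k)) h → x = 0 := by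
    rintro A hA x ⟨y, rfl⟩
    exact Finset.sum_eq_zero fun j hj => (L.reg A hA).zero j (Finset.mem_range.1 hj) _
  refine isIso_of_bij _ ?_ ?_
  · intro A hA x hx
    obtain ⟨s, g, rfl⟩ := compact_sum _ hA x
    have hfac : ∀ e, ∃ (m : ℕ) (a : A ⟶ X ⊗ N), a ≫ X ◁ U.ι m = g e := fun e =>
      (U.tensL X).exists_factor (isCpt_sphere hA) (g e)
    choose m a ha using hfac
    let M : ℕ := ∑ e ∈ s, m e
    have hM : ∀ e ∈ s, m e + (M - m e) = M := fun e he => by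
      have : m e ≤ M := Finset.single_le_sum (f := m) (fun _ _ => Nat.zero_le _) he
      omega
    let b : I → (A ⟶ X ⊗ N) := fun e => if e ∈ s then a e ≫ itr (X ◁ vN h) (M - m e) else 0
    have hb : ∀ e ∈ s, b e ≫ X ◁ U.ι M = g e := by
      intro e he
      have h1 := hshift (m e) (M - m e)
      rw [hM e he] at h1
      simp only [b, if_pos he]
      rw [Category.assoc, h1, ha]
    let bb : I →₀ (A ⟶ X ⊗ N) := Finsupp.onFinset s b (by
      intro e he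
      by_contra h1
      exact he (if_neg h1))
    have h1 : (bb.sum fun e y => pc A (X ◁ φ e ≫ (α_ X K N).inv ≫ r ▷ N) y) = 0 := by
      rw [Finsupp.onFinset_sum _ (by simp)]
      have h2 : (∑ e ∈ s, g e ≫ (X ◁ l e ≫ (α_ X K N).inv ≫ r ▷ N)) ≫ itr (G ◁ vN h) M = 0 := by
        have : (∑ e ∈ s, g e ≫ (X ◁ l e ≫ (α_ X K N).inv ≫ r ▷ N)) = 0 := by
          rw [← hx, Preadditive.sum_comp]
          refine Finset.sum_congr rfl fun e _ => ?_
          rw [Category.assoc, Sigma.ι_desc]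
        rw [this, zero_comp]
      rw [← h2, Preadditive.sum_comp]
      refine Finset.sum_congr rfl fun e he => ?_
      rw [← hb e he, pc_apply, ← hkey M e]
      simp only [Category.assoc]
    refine Finset.sum_eq_zero fun e he => ?_
    obtain ⟨k, hk⟩ := (L.map A hA).inj bb h1 e
    have h2 := hVI A hA _ hk
    rw [pc_iterate] at h2
    have h3 : bb e = b e := rfl
    rw [h3] at h2
    rw [← hb e he, ← hshift M k, ← Category.assoc (b e), h2, zero_comp, zero_comp]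
  · intro A hA y
    obtain ⟨k, x, hx⟩ := (L.map A hA).surj y
    refine ⟨∑ e ∈ x.support, (x e ≫ X ◁ U.ι k) ≫ Sigma.ι (fun _ : I => X ⊗ U.obj) e, ?_⟩
    have := isIso_itr (G ◁ vN h) k
    rw [← cancel_mono (itr (G ◁ vN h) k), Preadditive.sum_comp, Preadditive.sum_comp]
    rw [pc_iterate] at hx
    rw [hx, Finsupp.sum]
    refine Finset.sum_congr rfl fun e _ => ?_
    rw [pc_apply, ← hkey k e]
    simp only [Category.assoc, Sigma.ι_desc_assoc]

end Level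

end Vale.Agent.P251.Z
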