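import Vale.Agent.P251.Z.KRetract

/-!
# P251, part Z: linear maps `P ⟶ Y ⊗ P`
-/

open CategoryTheory MonoidalCategory Limits MonObj

set_option linter.unusedSectionVars false

universe v u

namespace Vale.Agent.P251.Z

open Vale.Agent.P251.S

variable {T : Type u} [Category.{v} T] [MonoidalCategory T] [SymmetricCategory T]

section perm

theorem perm_natural₃ (S K : T) {N N' : T} (f : N ⟶ N') :
    perm S K N ≫ K ◁ (S ◁ f) = S ◁ (K ◁ f) ≫ perm S K N' := by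
  unfold perm
  simp only [Category.assoc]
  rw [← associator_naturality_right, ← whisker_exchange_assoc, ← associator_inv_naturality_right_assoc]

theorem perm_natural₂ (S : T) {K K' : T} (f : K ⟶ K') (N : T) :
    perm S K N ≫ f ▷ (S ⊗ N) = S ◁ (f ▷ N) ≫ perm S K' N := by
  unfold perm
  simp only [Category.assoc]
  rw [← associator_naturality_left, ← comp_whiskerRight_assoc,
    ← BraidedCategory.braiding_naturality_right, comp_whiskerRight_assoc,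
    associator_inv_naturality_middle_assoc]

theorem perm_natural₁ {S S' : T} (f : S ⟶ S') (K N : T) :
    f ▷ (K ⊗ N) ≫ perm S' K N = perm S K N ≫ K ◁ (f ▷ N) := by
  unfold perm
  simp only [Category.assoc]
  rw [associator_inv_naturality_left_assoc, ← comp_whiskerRight_assoc,
    BraidedCategory.braiding_naturality_left, comp_whiskerRight_assoc,
    associator_naturality_middle]

theorem perm_unit (S N : T) : S ◁ (λ_ N).inv ≫ perm S (𝟙_ T) N = (λ_ (S ⊗ N)).inv := by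
  unfold perm
  rw [braiding_tensorUnit_right]
  monoidal

theorem unit_perm (K N : T) : (λ_ (K ⊗ N)).inv ≫ perm (𝟙_ T) K N = K ◁ (λ_ N).inv := by
  unfold perm
  rw [braiding_tensorUnit_left]
  monoidal

/-- an element inserted on the left -/
theorem insert_perm (Y Z N : T) (γ : 𝟙_ T ⟶ Z) :
    Y ◁ ((λ_ N).inv ≫ γ ▷ N) ≫ perm Y Z N = (λ_ (Y ⊗ N)).inv ≫ γ ▷ (Y ⊗ N) := by
  rw [whiskerLeft_comp, Category.assoc, ← perm_natural₂, ← Category.assoc, perm_unit]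

theorem perm_perm (Y Z P N : T) :
    perm Y (Z ⊗ P) N ≫ (α_ Z P (Y ⊗ N)).hom ≫ Z ◁ perm P Y N =
      Y ◁ (α_ Z P N).hom ≫ perm Y Z (P ⊗ N) := by
  unfold perm
  rw [BraidedCategory.braiding_tensor_right_hom]
  have h : (β_ Y P).hom ≫ (β_ P Y).hom = 𝟙 _ := SymmetricCategory.symmetry Y P
  simp only [comp_whiskerRight, whiskerLeft_comp, Category.assoc]
  have h2 : (Z ◁ (β_ Y P).hom) ▷ N ≫ (α_ Z P Y).inv ▷ N ≫ (α_ (Z ⊗ P) Y N).hom ≫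
      (α_ Z P (Y ⊗ N)).hom ≫ Z ◁ (α_ P Y N).inv ≫ Z ◁ (β_ P Y).hom ▷ N =
      (α_ Z (Y ⊗ P) N).hom := by
    have h3 : (α_ Z P Y).inv ▷ N ≫ (α_ (Z ⊗ P) Y N).hom ≫ (α_ Z P (Y ⊗ N)).hom ≫
        Z ◁ (α_ P Y N).inv = (α_ Z (P ⊗ Y) N).hom := by monoidal
    rw [reassoc_of% h3, ← associator_naturality_middle, ← comp_whiskerRight_assoc,
      ← whiskerLeft_comp, h]
    simp
  rw [reassoc_of% h2]
  monoidal

end perm

section linear

variable {P : T} [MonObj P]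

/-- `f : P ⟶ Y ⊗ P` is `P`-linear. -/
def Lin {Y : T} (f : P ⟶ Y ⊗ P) : Prop := μ[P] ≫ f = P ◁ f ≫ perm P Y P ≫ Y ◁ μ[P]

/-- multiplication by an element `β` of `Y ⊗ P` -/
def mulEl {Y : T} (γ : 𝟙_ T ⟶ Y ⊗ P) : P ⟶ Y ⊗ P :=
  (λ_ P).inv ≫ γ ▷ P ≫ (α_ Y P P).hom ≫ Y ◁ μ[P]

theorem one_mulEl {Y : T} (γ : 𝟙_ T ⟶ Y ⊗ P) : η[P] ≫ mulEl γ = γ := by
  unfold mulEl
  rw [leftUnitor_inv_naturality_assoc, whisker_exchange_assoc,
    associator_naturality_right_assoc, ← whiskerLeft_comp, MonObj.mul_one]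
  monoidal

theorem Lin.smul_comm {Y : T} {f : P ⟶ Y ⊗ P} (hf : Lin f) (v : 𝟙_ T ⟶ P) :
    (ModStr.self P).smul v ≫ f = f ≫ Y ◁ (ModStr.self P).smul v := by
  unfold ModStr.smul ModStr.self
  simp only [Category.assoc]
  unfold Lin at hf
  rw [hf, ← whisker_exchange_assoc, ← leftUnitor_inv_naturality_assoc]
  congr 1
  have h2 : (λ_ (Y ⊗ P)).inv ≫ v ▷ (Y ⊗ P) ≫ perm P Y P = Y ◁ ((λ_ P).inv ≫ v ▷ P) := by
    rw [perm_natural₁, ← Category.assoc, unit_perm, whiskerLeft_comp]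
  rw [reassoc_of% h2]
  simp

/-- the fundamental commutation: multiplication by `γ` and a linear map commute -/
theorem Lin.comm_mulEl {Y Z : T} {f : P ⟶ Y ⊗ P} (hf : Lin f) (γ : 𝟙_ T ⟶ Z ⊗ P) :
    f ≫ Y ◁ mulEl γ ≫ perm Y Z P = mulEl γ ≫ Z ◁ f := by
  have h1 : Y ◁ ((λ_ P).inv ≫ γ ▷ P) ≫ perm Y (Z ⊗ P) P =
      (λ_ (Y ⊗ P)).inv ≫ γ ▷ (Y ⊗ P) := insert_perm Y (Z ⊗ P) P γ
  have h2 := perm_perm Y Z P P
  unfold mulEl
  unfold Lin at hf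
  have h3 : (λ_ P).inv ≫ γ ▷ P ≫ (α_ Z P P).hom ≫ Z ◁ (P ◁ f) =
      f ≫ (λ_ (Y ⊗ P)).inv ≫ γ ▷ (Y ⊗ P) ≫ (α_ Z P (Y ⊗ P)).hom := by
    rw [← associator_naturality_right, ← whisker_exchange_assoc,
      ← leftUnitor_inv_naturality_assoc]
  calc f ≫ Y ◁ ((λ_ P).inv ≫ γ ▷ P ≫ (α_ Z P P).hom ≫ Z ◁ μ[P]) ≫ perm Y Z P
      = f ≫ Y ◁ ((λ_ P).inv ≫ γ ▷ P) ≫ (Y ◁ (α_ Z P P).hom ≫ perm Y Z (P ⊗ P)) ≫
          Z ◁ (Y ◁ μ[P]) := by
        rw [Category.assoc, perm_natural₃]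
        simp only [whiskerLeft_comp, Category.assoc]
    _ = f ≫ (λ_ (Y ⊗ P)).inv ≫ γ ▷ (Y ⊗ P) ≫ (α_ Z P (Y ⊗ P)).hom ≫ Z ◁ perm P Y P ≫
          Z ◁ (Y ◁ μ[P]) := by
        rw [← h2]
        simp only [Category.assoc]
        rw [reassoc_of% h1]
    _ = (λ_ P).inv ≫ γ ▷ P ≫ (α_ Z P P).hom ≫ Z ◁ (P ◁ f) ≫ Z ◁ perm P Y P ≫
          Z ◁ (Y ◁ μ[P]) := by
        rw [reassoc_of% h3]
    _ = _ := by
        simp only [Category.assoc]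
        rw [← whiskerLeft_comp, ← whiskerLeft_comp, ← whiskerLeft_comp, ← hf]

variable [IsCommMonObj P]

/-- for commutative `P`, multiplication by an element is linear -/
theorem lin_mulEl {Y : T} (γ : 𝟙_ T ⟶ Y ⊗ P) : Lin (mulEl γ) := by
  unfold Lin
  have h0 : perm P P P ≫ P ◁ μ[P] ≫ μ[P] = P ◁ μ[P] ≫ μ[P] := by
    unfold perm
    simp only [Category.assoc]
    rw [← MonObj.mul_assoc, ← comp_whiskerRight_assoc, IsCommMonObj.mul_comm, MonObj.mul_assoc,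
      Iso.inv_hom_id_assoc]
  have h1 : P ◁ ((λ_ P).inv ≫ γ ▷ P) ≫ perm P (Y ⊗ P) P =
      (λ_ (P ⊗ P)).inv ≫ γ ▷ (P ⊗ P) := insert_perm P (Y ⊗ P) P γ
  have h2 := perm_perm P Y P P
  unfold mulEl
  calc μ[P] ≫ (λ_ P).inv ≫ γ ▷ P ≫ (α_ Y P P).hom ≫ Y ◁ μ[P]
      = (λ_ (P ⊗ P)).inv ≫ γ ▷ (P ⊗ P) ≫ (α_ Y P (P ⊗ P)).hom ≫ Y ◁ (P ◁ μ[P]) ≫
          Y ◁ μ[P] := by
        rw [leftUnitor_inv_naturality_assoc, whisker_exchange_assoc,
          associator_naturality_right_assoc]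
    _ = (λ_ (P ⊗ P)).inv ≫ γ ▷ (P ⊗ P) ≫ (α_ Y P (P ⊗ P)).hom ≫ Y ◁ perm P P P ≫
          Y ◁ (P ◁ μ[P]) ≫ Y ◁ μ[P] := by
        rw [← whiskerLeft_comp, ← whiskerLeft_comp, h0]
    _ = P ◁ ((λ_ P).inv ≫ γ ▷ P) ≫ P ◁ (α_ Y P P).hom ≫ perm P Y (P ⊗ P) ≫
          Y ◁ (P ◁ μ[P]) ≫ Y ◁ μ[P] := by
        rw [← reassoc_of% h1, reassoc_of% h2]
    _ = _ := by
        rw [reassoc_of% (perm_natural₃ P Y μ[P])]
        simp only [whiskerLeft_comp, Category.assoc]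

/-- a linear map is multiplication by its value at `1` -/
theorem Lin.eq_mulEl {Y : T} {f : P ⟶ Y ⊗ P} (hf : Lin f) : f = mulEl (η[P] ≫ f) := by
  unfold Lin at hf
  have h1 : f = (ρ_ P).inv ≫ P ◁ (η[P] ≫ f) ≫ perm P Y P ≫ Y ◁ μ[P] := by
    rw [whiskerLeft_comp, Category.assoc, ← hf, MonObj.mul_one_assoc, Iso.inv_hom_id_assoc]
  set γ := η[P] ≫ f with hγ
  have h2 : (ρ_ P).inv ≫ P ◁ γ = (λ_ P).inv ≫ γ ▷ P ≫ (β_ (Y ⊗ P) P).hom := by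
    rw [BraidedCategory.braiding_naturality_left, ← Category.assoc]
    congr 1
    rw [braiding_tensorUnit_left, Iso.inv_hom_id_assoc]
  have h3 : (β_ (Y ⊗ P) P).hom ≫ perm P Y P = (α_ Y P P).hom ≫ Y ◁ (β_ P P).hom := by
    rw [BraidedCategory.braiding_tensor_left_hom]
    unfold perm
    have h : (β_ Y P).hom ≫ (β_ P Y).hom = 𝟙 _ := SymmetricCategory.symmetry Y P
    simp only [Category.assoc, Iso.hom_inv_id_assoc]
    rw [← comp_whiskerRight_assoc, h]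
    simp
  unfold mulEl
  calc f = ((ρ_ P).inv ≫ P ◁ γ) ≫ perm P Y P ≫ Y ◁ μ[P] := by
        rw [Category.assoc]; exact h1
    _ = (λ_ P).inv ≫ γ ▷ P ≫ (α_ Y P P).hom ≫ Y ◁ (β_ P P).hom ≫ Y ◁ μ[P] := by
        rw [h2]
        simp only [Category.assoc]
        rw [reassoc_of% h3]
    _ = _ := by
        rw [← whiskerLeft_comp, IsCommMonObj.mul_comm]

theorem Lin.comm {Y Z : T} {f : P ⟶ Y ⊗ P} (hf : Lin f) {g : P ⟶ Z ⊗ P} (hg : Lin g) :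
    f ≫ Y ◁ g ≫ perm Y Z P = g ≫ Z ◁ f := by
  rw [hg.eq_mulEl]
  exact hf.comm_mulEl _

end linear

end Vale.Agent.P251.Z
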